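import Vale.Agent.P150.Norm

/-!
The coupling matrix, the soft norm and its exponential moment.
-/

namespace Vale.Agent.P150

open MeasureTheory ProbabilityTheory Real Function Matrix

variable {n : ℕ}

/-- The scale `β / √n`. -/
noncomputable def scaleC (β : ℝ) (n : ℕ) : ℝ := β / Real.sqrt n

/-- The coupling matrix. -/
noncomputable def coupM (β : ℝ) (g : Pairs n → ℝ) : Matrix (Fin n) (Fin n) ℝ :=
  Matrix.of fun i j => scaleC β n * symDisorder g i j

/-- The elementary symmetric matrix of a pair. -/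
noncomputable def pairM (p : Pairs n) : Matrix (Fin n) (Fin n) ℝ :=
  Matrix.single p.1.1 p.1.2 1 + Matrix.single p.1.2 p.1.1 1

lemma symDisorder_comm (g : Pairs n → ℝ) (i j : Fin n) :
    symDisorder g i j = symDisorder g j i := by
  unfold symDisorder
  rcases lt_trichotomy i j with h | h | h
  · simp [h, h.not_gt]
  · subst h; rfl
  · simp [h, h.not_gt]

lemma symDisorder_self (g : Pairs n → ℝ) (i : Fin n) : symDisorder g i i = 0 := by
  simp [symDisorder]

lemma symDisorder_pair (g : Pairs n → ℝ) (p : Pairs n) : symDisorder g p.1.1 p.1.2 = g p := by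
  simp [symDisorder, p.2]

lemma coupM_transpose (β : ℝ) (g : Pairs n → ℝ) : (coupM β g)ᵀ = coupM β g := by
  ext i j; simp [coupM, symDisorder_comm g i j]

/-- Sum over pairs `i < j` of a symmetric function. -/
lemma two_mul_sum_pairs (F : Fin n → Fin n → ℝ) (hs : ∀ i j, F i j = F j i) :
    2 * ∑ p : Pairs n, F p.1.1 p.1.2 = ∑ i, ∑ j, F i j - ∑ i, F i i := by
  have key : ∀ i j : Fin n, F i j = (if i < j then F i j else 0) + (if j < i then F j i else 0)
      + (if i = j then F i i else 0) := by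
    intro i j
    rcases lt_trichotomy i j with h | h | h
    · simp [h, h.not_gt, h.ne]
    · subst h; simp
    · simp [h, h.not_gt, h.ne', hs i j]
  have h1 : ∑ p : Pairs n, F p.1.1 p.1.2 = ∑ i, ∑ j, if i < j then F i j else 0 := by
    have h0 : ∑ p : Pairs n, F p.1.1 p.1.2 =
        ∑ q ∈ Finset.univ.filter (fun q : Fin n × Fin n => q.1 < q.2), F q.1 q.2 :=
      (Finset.sum_subtype _ (by simp) (fun q : Fin n × Fin n => F q.1 q.2)).symm
    rw [h0, Finset.sum_filter, Fintype.sum_prod_type]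
  have h2 : ∑ i, ∑ j, (if j < i then F j i else 0) = ∑ i, ∑ j, if i < j then F i j else 0 :=
    Finset.sum_comm
  have h3 : ∑ i, ∑ j, F i j = ∑ i, ∑ j, ((if i < j then F i j else 0) +
      (if j < i then F j i else 0) + (if i = j then F i i else 0)) :=
    Finset.sum_congr rfl fun i _ => Finset.sum_congr rfl fun j _ => key i j
  simp only [Finset.sum_add_distrib, Finset.sum_ite_eq, Finset.mem_univ, if_true] at h3
  rw [h3, h2, h1]; ring

lemma sum_pairs_quad (β : ℝ) (g : Pairs n → ℝ) (v w : Fin n → ℝ) :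
    v ⬝ᵥ coupM β g *ᵥ w =
      ∑ p : Pairs n, scaleC β n * g p * (v p.1.1 * w p.1.2 + v p.1.2 * w p.1.1) := by
  have h := two_mul_sum_pairs (fun i j => scaleC β n * symDisorder g i j * (v i * w j + v j * w i))
    (fun i j => by rw [symDisorder_comm g i j]; ring)
  simp only [symDisorder_pair, symDisorder_self, mul_zero, zero_mul, Finset.sum_const_zero,
    sub_zero] at h
  have e : v ⬝ᵥ coupM β g *ᵥ w = ∑ i, ∑ j, scaleC β n * symDisorder g i j * (v i * w j) := by
    simp only [dotProduct, Matrix.mulVec, coupM, Matrix.of_apply, Finset.mul_sum]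
    exact Finset.sum_congr rfl fun i _ => Finset.sum_congr rfl fun j _ => by ring
  have e' : ∑ i, ∑ j, scaleC β n * symDisorder g i j * (v j * w i) =
      ∑ i, ∑ j, scaleC β n * symDisorder g i j * (v i * w j) := by
    rw [Finset.sum_comm]
    exact Finset.sum_congr rfl fun i _ => Finset.sum_congr rfl fun j _ => by
      rw [symDisorder_comm g j i]
  simp only [mul_add, Finset.sum_add_distrib, e'] at h
  simp only [mul_add, Finset.sum_add_distrib]
  linarith

/-- A finite `ε`-net of the unit sphere. -/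
lemma exists_net (hn : 0 < n) {ε : ℝ} (hε : 0 < ε) :
    ∃ V : Finset (Fin n → ℝ), V.Nonempty ∧ (∀ v ∈ V, v ⬝ᵥ v = 1) ∧
      ∀ x : Fin n → ℝ, x ⬝ᵥ x = 1 → ∃ v ∈ V, (x - v) ⬝ᵥ (x - v) ≤ ε ^ 2 := by
  set S := {x : Fin n → ℝ | x ⬝ᵥ x = 1} with hS
  have hsn : (0:ℝ) < Real.sqrt n := Real.sqrt_pos.2 (by exact_mod_cast hn)
  have hc : IsCompact S := by
    refine IsCompact.of_isClosed_subset (isCompact_univ_pi fun _ : Fin n => isCompact_Icc (a := -1)
      (b := (1:ℝ))) (isClosed_eq (by fun_prop) continuous_const) fun x hx i _ => ?_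
    have hxi : x i * x i ≤ 1 := by
      rw [← hx]; exact Finset.single_le_sum (f := fun j => x j * x j)
        (fun j _ => mul_self_nonneg _) (Finset.mem_univ i)
    constructor <;> nlinarith
  obtain ⟨t, hts, htf, hcov⟩ := finite_cover_balls_of_compact hc (div_pos hε hsn)
  have hi : ∀ x ∈ S, ∃ v ∈ t, (x - v) ⬝ᵥ (x - v) ≤ ε ^ 2 := by
    intro x hx
    obtain ⟨v, hv, hd⟩ := Set.mem_iUnion₂.1 (hcov hx)
    refine ⟨v, hv, ?_⟩
    calc (x - v) ⬝ᵥ (x - v) ≤ ∑ _i : Fin n, (ε / Real.sqrt n) ^ 2 := by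
          refine Finset.sum_le_sum fun i _ => ?_
          rw [← pow_two]
          refine sq_le_sq' ?_ ?_ <;>
            · have := (dist_le_pi_dist x v i).trans_lt hd
              rw [Real.dist_eq, abs_lt] at this
              simp only [Pi.sub_apply]; linarith
      _ = ε ^ 2 := by
          simp [div_pow, Real.sq_sqrt (Nat.cast_nonneg n)]
          field_simp
  have he : (Pi.single ⟨0, hn⟩ 1 : Fin n → ℝ) ∈ S := by simp [hS]
  obtain ⟨v, hv, -⟩ := hi _ he
  exact ⟨htf.toFinset, ⟨v, by simpa using hv⟩, fun w hw => hts (by simpa using hw),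
    fun x hx => by simpa using hi x hx⟩

/-- Bound the quadratic form from the values on a net. -/
lemma quad_le_of_net {J : Matrix (Fin n) (Fin n) ℝ} (hJ : Jᵀ = J) (hn : 0 < n)
    {V : Finset (Fin n → ℝ)} {ε b : ℝ} (hε : 0 < ε)
    (hV : ∀ x : Fin n → ℝ, x ⬝ᵥ x = 1 → ∃ v ∈ V, (x - v) ⬝ᵥ (x - v) ≤ ε ^ 2)
    (hV1 : ∀ v ∈ V, v ⬝ᵥ v = 1)
    (hb : ∀ v ∈ V, |v ⬝ᵥ J *ᵥ v| ≤ b) :
    ∃ M, M * (1 - 2 * ε) ≤ b ∧ ∀ x, |x ⬝ᵥ J *ᵥ x| ≤ M * (x ⬝ᵥ x) := by
  set S := {x : Fin n → ℝ | x ⬝ᵥ x = 1} with hS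
  have hne : S.Nonempty := ⟨Pi.single ⟨0, hn⟩ 1, by simp [hS]⟩
  have hc : IsCompact S := by
    refine IsCompact.of_isClosed_subset (isCompact_univ_pi fun _ : Fin n => isCompact_Icc (a := -1)
      (b := (1:ℝ))) (isClosed_eq (by fun_prop) continuous_const) fun x hx i _ => ?_
    have hxi : x i * x i ≤ 1 := by
      rw [← hx]; exact Finset.single_le_sum (f := fun j => x j * x j)
        (fun j _ => mul_self_nonneg _) (Finset.mem_univ i)
    constructor <;> nlinarith
  obtain ⟨x₀, hx₀, hmax⟩ := hc.exists_isMaxOn hne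
    (f := fun x => |x ⬝ᵥ J *ᵥ x|) (by fun_prop)
  set M := |x₀ ⬝ᵥ J *ᵥ x₀| with hM
  have hall : ∀ x, |x ⬝ᵥ J *ᵥ x| ≤ M * (x ⬝ᵥ x) := by
    intro x
    by_cases hx : x = 0
    · simp [hx]
    have hpos : 0 < x ⬝ᵥ x :=
      (dotProduct_self_star_nonneg x).lt_of_ne fun h => hx (dotProduct_self_eq_zero.1 h.symm)
    set r := Real.sqrt (x ⬝ᵥ x) with hr
    have hr0 : 0 < r := Real.sqrt_pos.2 hpos
    have hr2 : r * r = x ⬝ᵥ x := Real.mul_self_sqrt hpos.le
    have hS' : (r⁻¹ • x) ∈ S := by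
      simp only [hS, Set.mem_ofPred_eq, smul_dotProduct, dotProduct_smul, smul_eq_mul, ← hr2]
      field_simp
    have := hmax hS'
    simp only [Set.mem_ofPred_eq, mulVec_smul, smul_dotProduct, dotProduct_smul, smul_eq_mul,
      abs_mul, abs_of_pos (inv_pos.2 hr0)] at this
    rw [← hr2, mul_comm M]
    calc |x ⬝ᵥ J *ᵥ x| = r * r * (r⁻¹ * (r⁻¹ * |x ⬝ᵥ J *ᵥ x|)) := by field_simp
      _ ≤ r * r * M := mul_le_mul_of_nonneg_left this (by positivity)
  refine ⟨M, ?_, hall⟩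
  obtain ⟨v, hv, hd⟩ := hV x₀ hx₀
  have hsym : ∀ a c : Fin n → ℝ, a ⬝ᵥ J *ᵥ c = c ⬝ᵥ J *ᵥ a := fun a c => by
    rw [Matrix.dotProduct_mulVec, ← Matrix.mulVec_transpose, hJ, dotProduct_comm]
  set a := ε⁻¹ • (x₀ - v) with ha
  set c := (2:ℝ)⁻¹ • (x₀ + v) with hc'
  have e : x₀ ⬝ᵥ J *ᵥ x₀ - v ⬝ᵥ J *ᵥ v =
      ε / 2 * ((a + c) ⬝ᵥ J *ᵥ (a + c) - (a - c) ⬝ᵥ J *ᵥ (a - c)) := by
    simp only [ha, hc', mulVec_add, mulVec_sub, mulVec_smul, add_dotProduct, sub_dotProduct,
      dotProduct_add, dotProduct_sub, smul_dotProduct, dotProduct_smul, smul_eq_mul, hsym v x₀]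
    field_simp
    ring
  have hsum : (a + c) ⬝ᵥ (a + c) + (a - c) ⬝ᵥ (a - c) ≤ 4 := by
    have h1 : a ⬝ᵥ a ≤ 1 := by
      simp only [ha, smul_dotProduct, dotProduct_smul, smul_eq_mul]
      rw [← mul_assoc, ← mul_inv, ← div_eq_inv_mul, div_le_one (by positivity)]
      linarith [pow_two ε]
    have h2 : c ⬝ᵥ c ≤ 1 := by
      have hp := dotProduct_self_star_nonneg (x₀ - v)
      simp only [star_trivial, sub_dotProduct, dotProduct_sub] at hp
      simp only [hc', smul_dotProduct, dotProduct_smul, smul_eq_mul, add_dotProduct,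
        dotProduct_add]
      have h1' : x₀ ⬝ᵥ x₀ = 1 := hx₀
      have := hV1 v hv
      linarith [dotProduct_comm v x₀]
    have : (a + c) ⬝ᵥ (a + c) + (a - c) ⬝ᵥ (a - c) = 2 * (a ⬝ᵥ a) + 2 * (c ⬝ᵥ c) := by
      simp only [add_dotProduct, sub_dotProduct, dotProduct_add, dotProduct_sub]; ring
    linarith
  have h3 : |x₀ ⬝ᵥ J *ᵥ x₀ - v ⬝ᵥ J *ᵥ v| ≤ ε / 2 * (M * 4) := by
    rw [e, abs_mul, abs_of_pos (by positivity : 0 < ε / 2)]
    refine mul_le_mul_of_nonneg_left ?_ (by positivity)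
    calc |_ - _| ≤ M * ((a + c) ⬝ᵥ (a + c)) + M * ((a - c) ⬝ᵥ (a - c)) :=
          (abs_sub _ _).trans (add_le_add (hall _) (hall _))
      _ ≤ M * 4 := by rw [← mul_add]; exact mul_le_mul_of_nonneg_left hsum (abs_nonneg _)
  have := abs_sub_abs_le_abs_sub (x₀ ⬝ᵥ J *ᵥ x₀) (v ⬝ᵥ J *ᵥ v)
  linarith [hb v hv, hM]

/-- The linear forms `g ↦ s * v ⬝ᵥ J v` for the points of a net. -/
noncomputable def netForm (β s : ℝ) (V : Finset (Fin n → ℝ)) (v : V) (p : Pairs n) : ℝ :=
  s * (2 * scaleC β n) * (v.1 p.1.1 * v.1 p.1.2)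

/-- Inverse temperature of the soft maximum. -/
noncomputable def netTemp (n : ℕ) (V : Finset (Fin n → ℝ)) : ℝ :=
  Real.sqrt n * (Real.log V.card + 1)

/-- The soft maximum of `s * v ⬝ᵥ J v` over a net. -/
noncomputable def netMax (β s : ℝ) (V : Finset (Fin n → ℝ)) (g : Pairs n → ℝ) : ℝ :=
  softMax (netTemp n V) (netForm β s V) g

lemma netTemp_pos (hn : 0 < n) (V : Finset (Fin n → ℝ)) : 0 < netTemp n V :=
  mul_pos (Real.sqrt_pos.2 (by exact_mod_cast hn))
    (by linarith [Real.log_natCast_nonneg V.card])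

lemma sum_netForm_mul (β s : ℝ) (V : Finset (Fin n → ℝ)) (g : Pairs n → ℝ) (v : V) :
    ∑ p, netForm β s V v p * g p = s * (v.1 ⬝ᵥ coupM β g *ᵥ v.1) := by
  rw [sum_pairs_quad, Finset.mul_sum]
  exact Finset.sum_congr rfl fun p _ => by simp only [netForm]; ring

lemma netForm_inner (β : ℝ) {s : ℝ} (hs : s ^ 2 = 1) (V : Finset (Fin n → ℝ)) (v w : V) :
    ∑ p, netForm β s V v p * netForm β s V w p =
      2 * scaleC β n ^ 2 *
        ((∑ i, v.1 i * w.1 i) ^ 2 - ∑ i, v.1 i ^ 2 * w.1 i ^ 2) := by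
  have h := two_mul_sum_pairs (fun i j => v.1 i * v.1 j * (w.1 i * w.1 j)) (fun i j => by ring)
  have e1 : ∑ i, ∑ j, v.1 i * v.1 j * (w.1 i * w.1 j) = (∑ i, v.1 i * w.1 i) ^ 2 := by
    rw [pow_two, Finset.sum_mul_sum]
    exact Finset.sum_congr rfl fun i _ => Finset.sum_congr rfl fun j _ => by ring
  have e2 : ∑ i, v.1 i * v.1 i * (w.1 i * w.1 i) = ∑ i, v.1 i ^ 2 * w.1 i ^ 2 :=
    Finset.sum_congr rfl fun i _ => by ring
  rw [e1, e2] at h
  rw [← h]
  simp only [netForm, Finset.mul_sum]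
  refine Finset.sum_congr rfl fun p _ => ?_
  linear_combination (4 * scaleC β n ^ 2 * (v.1 p.1.1 * v.1 p.1.2 * (w.1 p.1.1 * w.1 p.1.2))) * hs

lemma netForm_sq_le (β : ℝ) {s : ℝ} (hs : s ^ 2 = 1) (V : Finset (Fin n → ℝ))
    (hV : ∀ v ∈ V, v ⬝ᵥ v = 1) (v : V) :
    ∑ p, netForm β s V v p ^ 2 ≤ 2 * scaleC β n ^ 2 := by
  simp only [pow_two (netForm β s V v _), netForm_inner β hs V v v]
  have h1 : ∑ i, v.1 i * v.1 i = 1 := hV _ v.2
  have h2 : 0 ≤ ∑ i, v.1 i ^ 2 * v.1 i ^ 2 := Finset.sum_nonneg fun i _ => by positivity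
  rw [h1]
  nlinarith [sq_nonneg (scaleC β n)]

lemma netForm_incr (β : ℝ) {s : ℝ} (hs : s ^ 2 = 1) (V : Finset (Fin n → ℝ))
    (hV : ∀ v ∈ V, v ⬝ᵥ v = 1) (v w : V) :
    ∑ p, (netForm β s V v p - netForm β s V w p) ^ 2 ≤
      ∑ i, (2 * scaleC β n * v.1 i - 2 * scaleC β n * w.1 i) ^ 2 := by
  have h1 : ∑ i, v.1 i * v.1 i = 1 := hV _ v.2
  have h2 : ∑ i, w.1 i * w.1 i = 1 := hV _ w.2
  have hq : ∑ p, (netForm β s V v p - netForm β s V w p) ^ 2 =
      ∑ p, netForm β s V v p * netForm β s V v p + ∑ p, netForm β s V w p * netForm β s V w p -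
        2 * ∑ p, netForm β s V v p * netForm β s V w p := by
    rw [Finset.mul_sum, ← Finset.sum_add_distrib, ← Finset.sum_sub_distrib]
    exact Finset.sum_congr rfl fun p _ => by ring
  have hr : ∑ i, (2 * scaleC β n * v.1 i - 2 * scaleC β n * w.1 i) ^ 2 =
      4 * scaleC β n ^ 2 * (∑ i, v.1 i * v.1 i + ∑ i, w.1 i * w.1 i - 2 * ∑ i, v.1 i * w.1 i) := by
    rw [Finset.mul_sum, ← Finset.sum_add_distrib, ← Finset.sum_sub_distrib, Finset.mul_sum]
    exact Finset.sum_congr rfl fun i _ => by ring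
  rw [hq, hr, netForm_inner β hs, netForm_inner β hs, netForm_inner β hs, h1, h2]
  have h3 : 0 ≤ ∑ i, (v.1 i ^ 2 - w.1 i ^ 2) ^ 2 := Finset.sum_nonneg fun i _ => sq_nonneg _
  have h4 : ∑ i, (v.1 i ^ 2 - w.1 i ^ 2) ^ 2 = ∑ i, v.1 i ^ 2 * v.1 i ^ 2 +
      ∑ i, w.1 i ^ 2 * w.1 i ^ 2 - 2 * ∑ i, v.1 i ^ 2 * w.1 i ^ 2 := by
    rw [Finset.mul_sum, ← Finset.sum_add_distrib, ← Finset.sum_sub_distrib]
    exact Finset.sum_congr rfl fun i _ => by ring
  nlinarith [sq_nonneg (scaleC β n), sq_nonneg (1 - ∑ i, v.1 i * w.1 i),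
    mul_nonneg (sq_nonneg (scaleC β n)) h3,
    mul_nonneg (sq_nonneg (scaleC β n)) (sq_nonneg (1 - ∑ i, v.1 i * w.1 i))]

lemma integral_exp_sq {b : ℝ} (hb : b < 1 / 2) :
    ∫ x, Real.exp (b * x ^ 2) ∂gaussianReal 0 1 = 1 / Real.sqrt (1 - 2 * b) := by
  have e : ∀ x : ℝ, (√(2 * π))⁻¹ * Real.exp (-x ^ 2 / 2) * Real.exp (b * x ^ 2) =
      (√(2 * π))⁻¹ * Real.exp (-(1 / 2 - b) * x ^ 2) := fun x => by
    rw [mul_assoc, ← Real.exp_add]; ring_nf
  rw [integral_gaussianReal_eq_integral_smul one_ne_zero]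
  simp only [gaussianPDFReal_def, NNReal.coe_one, mul_one, sub_zero, smul_eq_mul, e,
    integral_const_mul, integral_gaussian]
  rw [← Real.sqrt_inv, ← Real.sqrt_mul (by positivity), ← Real.sqrt_one,
    ← Real.sqrt_div (by norm_num), Real.sqrt_one]
  congr 1
  have : (1 - 2 * b) ≠ 0 := by linarith
  have : (1 / 2 - b) ≠ 0 := by linarith
  field_simp

lemma integrable_exp_sq {b : ℝ} (hb : b < 1 / 2) :
    Integrable (fun x => Real.exp (b * x ^ 2)) (gaussianReal 0 1) := by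
  rw [integrable_gaussian_iff]
  have e : ∀ x : ℝ, gaussianPDFReal 0 1 x * Real.exp (b * x ^ 2) =
      (√(2 * π))⁻¹ * Real.exp (-(1 / 2 - b) * x ^ 2) := fun x => by
    simp only [gaussianPDFReal_def, NNReal.coe_one, mul_one, sub_zero]
    rw [mul_assoc, ← Real.exp_add]; ring_nf
  simp only [e]
  exact (integrable_exp_neg_mul_sq (by linarith)).const_mul _

/-- The exponential moment of the soft norm. -/
theorem exp_moment_netMax {β : ℝ} (hβ : 0 ≤ β) (hn : 0 < n) (hn' : 4 * β ≤ Real.sqrt n)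
    {s : ℝ} (hs : s ^ 2 = 1)
    (V : Finset (Fin n → ℝ)) (hne : V.Nonempty) (hV : ∀ v ∈ V, v ⬝ᵥ v = 1) :
    ∫ g, Real.exp (Real.sqrt n * netMax β s V g) ∂disorderLaw n ≤
      Real.exp (1 + 5 * β ^ 2 + 2 * β * Real.sqrt n) := by
  have : Nonempty V := hne.to_subtype
  set sn := Real.sqrt n with hsn
  have hsn0 : 0 < sn := Real.sqrt_pos.2 (by exact_mod_cast hn)
  have hsn2 : sn * sn = n := Real.mul_self_sqrt (Nat.cast_nonneg n)
  set T := netTemp n V
  have hT : 0 < T := netTemp_pos hn V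
  set c := scaleC β n with hc
  have hc0 : 0 ≤ c := div_nonneg hβ hsn0.le
  have hcs : c * sn = β := by rw [hc, scaleC, div_mul_cancel₀ _ hsn0.ne']
  set A : V → (Pairs n ⊕ Fin n) → ℝ := fun v => Sum.elim (netForm β s V v) 0
  set B : V → (Pairs n ⊕ Fin n) → ℝ := fun v => Sum.elim 0 (fun i => 2 * c * v.1 i)
  have h := soft_max_comparison A B (2 * c ^ 2) hsn0 hT
    (fun v w => by simp [A, B, Fintype.sum_sum_type])
    (fun v w => by simpa [A, B, Fintype.sum_sum_type] using netForm_incr β hs V hV v w)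
    (fun v => by simpa [A, Fintype.sum_sum_type] using netForm_sq_le β hs V hV v)
  let e := MeasurableEquiv.sumPiEquivProdPi (fun _ : Pairs n ⊕ Fin n => ℝ)
  have he : MeasurePreserving e (stdGauss (Pairs n ⊕ Fin n))
      ((disorderLaw n).prod (stdGauss (Fin n))) :=
    measurePreserving_sumPiEquivProdPi (fun _ : Pairs n ⊕ Fin n => gaussianReal 0 1)
  have : IsProbabilityMeasure (disorderLaw n) := by unfold disorderLaw; infer_instance
  have hA : ∀ z, softMax T A z = netMax β s V (e z).1 := fun z => by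
    simp [softMax, expSum, netMax, T, A, e, Fintype.sum_sum_type,
      MeasurableEquiv.sumPiEquivProdPi, Equiv.sumPiEquivProdPi]
  have hL : ∫ z, Real.exp (sn * softMax T A z) ∂stdGauss (Pairs n ⊕ Fin n) =
      ∫ g, Real.exp (sn * netMax β s V g) ∂disorderLaw n := by
    simp only [hA]
    rw [he.integral_comp' (fun q => Real.exp (sn * netMax β s V q.1)),
      integral_fun_fst (f := fun g => Real.exp (sn * netMax β s V g))]
    simp
  rw [hL] at h
  have hb : β / sn < 1 / 2 := by rw [div_lt_iff₀ hsn0]; linarith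
  set K : ℝ := sn * β + 1 with hK
  have hB : ∀ z, Real.exp (sn * softMax T B z) ≤
      Real.exp K * ∏ i, Real.exp (β / sn * (e z).2 i ^ 2) := by
    intro z
    rw [← Real.exp_sum, ← Real.exp_add, Real.exp_le_exp]
    have hle := softMax_le hT B z (M := β + c / sn * ∑ i, (e z).2 i ^ 2) fun v => by
      simp only [B, Fintype.sum_sum_type, Sum.elim_inl, Sum.elim_inr, Pi.zero_apply, zero_mul,
        Finset.sum_const_zero, zero_add]
      have hv : ∑ i, v.1 i * v.1 i = 1 := hV _ v.2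
      calc ∑ i, 2 * c * v.1 i * z (Sum.inr i)
          ≤ ∑ i, (c * sn * (v.1 i * v.1 i) + c / sn * (e z).2 i ^ 2) := by
            refine Finset.sum_le_sum fun i _ => ?_
            have hz : (e z).2 i = z (Sum.inr i) := rfl
            rw [hz]
            have : 0 ≤ c / sn * (sn * v.1 i - z (Sum.inr i)) ^ 2 := by positivity
            have e1 : c / sn * (sn * v.1 i - z (Sum.inr i)) ^ 2 = c * sn * (v.1 i * v.1 i) +
                c / sn * z (Sum.inr i) ^ 2 - 2 * c * v.1 i * z (Sum.inr i) := by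
              field_simp; ring
            linarith
        _ = _ := by rw [Finset.sum_add_distrib, ← Finset.mul_sum, hv, ← Finset.mul_sum, hcs]; ring
    have h2 : sn * (Real.log (Fintype.card V) / T) ≤ 1 := by
      simp only [Fintype.card_coe, T, netTemp]
      have := Real.log_natCast_nonneg V.card
      rw [mul_div, div_le_one (by positivity)]
      nlinarith
    calc sn * softMax T B z ≤ sn * (β + c / sn * ∑ i, (e z).2 i ^ 2 +
          Real.log (Fintype.card V) / T) := mul_le_mul_of_nonneg_left hle hsn0.le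
      _ ≤ sn * β + 1 + c * ∑ i, (e z).2 i ^ 2 := by
          rw [mul_add, mul_add]; field_simp at h2 ⊢; linarith
      _ = _ := by rw [hK, Finset.mul_sum]; rfl
  have hint : Integrable (fun h : Fin n → ℝ => Real.exp K * ∏ i, Real.exp (β / sn * h i ^ 2))
      (stdGauss (Fin n)) :=
    (Integrable.fintype_prod fun _ => integrable_exp_sq hb).const_mul _
  have hR : ∫ z, Real.exp (sn * softMax T B z) ∂stdGauss (Pairs n ⊕ Fin n) ≤
      Real.exp K * (1 / Real.sqrt (1 - 2 * (β / sn))) ^ n := by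
    have hi : Integrable (fun z => Real.exp K * ∏ i, Real.exp (β / sn * (e z).2 i ^ 2))
        (stdGauss (Pairs n ⊕ Fin n)) :=
      (he.integrable_comp_emb e.measurableEmbedding).2 (hint.comp_snd (disorderLaw n))
    refine (integral_mono_of_nonneg (ae_of_all _ fun z => (Real.exp_pos _).le) hi
      (ae_of_all _ hB)).trans (le_of_eq ?_)
    rw [he.integral_comp' (fun q => Real.exp K * ∏ i, Real.exp (β / sn * q.2 i ^ 2)),
      integral_fun_snd (f := fun h : Fin n → ℝ => Real.exp K * ∏ i, Real.exp (β / sn * h i ^ 2)),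
      integral_const_mul]
    simp only [probReal_univ, smul_eq_mul, one_mul, stdGauss]
    rw [integral_fintype_prod_eq_pow (fun x => Real.exp (β / sn * x ^ 2)), integral_exp_sq hb,
      Fintype.card_fin]
  refine (h.trans (mul_le_mul_of_nonneg_left hR (Real.exp_pos _).le)).trans ?_
  set x := 2 * (β / sn) with hx
  have hx0 : 0 ≤ x := by positivity
  have hx1 : x ≤ 1 / 2 := by
    have : β / sn ≤ 1 / 4 := by rw [div_le_iff₀ hsn0]; linarith
    linarith
  have hsq : (1 / Real.sqrt (1 - x)) ≤ Real.exp (x / 2 + x ^ 2) := by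
    have hlog : -(x + 2 * x ^ 2) ≤ Real.log (1 - x) := by
      have := Real.one_sub_inv_le_log_of_pos (by linarith : (0:ℝ) < 1 - x)
      have h3 : (1 - x)⁻¹ ≤ 1 + x + 2 * x ^ 2 := by
        rw [inv_le_iff_one_le_mul₀ (by linarith)]; nlinarith
      linarith
    rw [← Real.exp_log (by linarith : (0:ℝ) < 1 - x), ← Real.exp_half, one_div, ← Real.exp_neg,
      Real.exp_le_exp]
    linarith
  calc Real.exp (sn ^ 2 * (2 * c ^ 2) / 2) * (Real.exp K * (1 / Real.sqrt (1 - x)) ^ n)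
      ≤ Real.exp (sn ^ 2 * (2 * c ^ 2) / 2) * (Real.exp K * Real.exp (x / 2 + x ^ 2) ^ n) := by
        gcongr
    _ = _ := by
        rw [← Real.exp_nat_mul, ← Real.exp_add, ← Real.exp_add]
        congr 1
        have hb2 : c = β / sn := rfl
        rw [hK, hx, hb2, ← hsn2]
        field_simp
        ring

end Vale.Agent.P150
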