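import Vale.Agent.P150.Ising

/-!
Curvature, the Poincare inequality and the covariance bound, uniformly in the fields.
-/

namespace Vale.Agent.P150

open Real Function Matrix
open scoped BigOperators

variable {n : ℕ}

/-- A coupling matrix satisfying the bounds used below. -/
structure IsNice (J : Matrix (Fin n) (Fin n) ℝ) (lam R η : ℝ) : Prop where
  symm : Jᵀ = J
  diag : ∀ i, J i i = 0
  quad : ∀ v : Fin n → ℝ, v ⬝ᵥ J *ᵥ v ≤ lam * (v ⬝ᵥ v)
  row : ∀ i, ∑ j, J i j ^ 2 ≤ R
  entry : ∀ i j, |J i j| ≤ η

/-- The curvature inequality `E (L f) ^ 2 ≥ ρ E(f)`. -/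
theorem curvature_bound : ∃ K τ0 : ℝ, 0 ≤ K ∧ 0 < τ0 ∧
    ∀ (n : ℕ) (J : Matrix (Fin n) (Fin n) ℝ) (h : Fin n → ℝ) (lam R η : ℝ),
      IsNice J lam R η → 0 ≤ R → 0 ≤ η → η ≤ τ0 → ∀ f : (Fin n → Bool) → ℝ,
        (1 - max lam (2 * R) - K * η * R) * ∑ i, isE J h i f ≤
          isMean J h fun x => isL J h f x ^ 2 := by
  obtain ⟨K0, τ00, hK0, hτ00, -, hpair⟩ := pair_inequality
  refine ⟨2 * K0 + 1, τ00, by positivity, hτ00, fun n J h lam R η hN hR hη hητ f => ?_⟩
  have hJ := hN.symm
  have hd := hN.diag
  have hpi : ∀ i j, i ≠ j →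
      0 ≤ isMean J h (fun x => isP J h i f x * isP J h j f x) +
        Real.tanh (J i j) * isMean J h (fun x => (1 - isT J h i x ^ 2) * isD f i x *
          ((1 - isT J h j x ^ 2) * isD f j x)) +
        Real.tanh (J i j) ^ 2 * (isMean J h (fun x => isT J h i x ^ 2 *
            ((1 - isT J h i x ^ 2) * isD f i x ^ 2)) +
          isMean J h (fun x => isT J h j x ^ 2 * ((1 - isT J h j x ^ 2) * isD f j x ^ 2))) +
        K0 * |Real.tanh (J i j)| ^ 3 * (isE J h i f + isE J h j f) := fun i j hij =>
    isMean_pair_ineq' hJ hd hpair i j f hij ((hN.entry i j).trans hητ)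
  set E : Fin n → ℝ := fun i => isE J h i f with hE
  set G : Fin n → ℝ := fun i =>
    isMean J h fun x => isT J h i x ^ 2 * ((1 - isT J h i x ^ 2) * isD f i x ^ 2) with hG
  set Y : Fin n → (Fin n → Bool) → ℝ := fun i x => (1 - isT J h i x ^ 2) * isD f i x with hY
  set M : Fin n → Fin n → ℝ := fun i j => isMean J h fun x => Y i x * Y j x with hM
  set PP : Fin n → Fin n → ℝ := fun i j => isMean J h fun x => isP J h i f x * isP J h j f x
    with hPP
  have hE0 : ∀ i, 0 ≤ E i := fun i => isE_nonneg J h i f
  have hG0 : ∀ i, 0 ≤ G i := fun i => isMean_nonneg J h fun x =>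
    mul_nonneg (sq_nonneg _) (mul_nonneg (by linarith [isT_sq_lt J h i x]) (sq_nonneg _))
  have hdiag : ∀ i, PP i i = E i := fun i => by
    simp only [hPP, isMean_mul_isP hJ hd, isD_isP hd, hE, isE]
    congr 1; funext x; ring
  have hMb : ∀ i j, |M i j| ≤ (E i + E j) / 2 := by
    intro i j
    have hy : ∀ k x, Y k x ^ 2 ≤ (1 - isT J h k x ^ 2) * isD f k x ^ 2 := fun k x => by
      have h1 := isT_sq_lt J h k x
      simp only [hY, mul_pow]
      refine mul_le_mul_of_nonneg_right ?_ (sq_nonneg _)
      nlinarith [sq_nonneg (isT J h k x)]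
    have e : (E i + E j) / 2 = isMean J h fun x =>
        (1 / 2) * ((1 - isT J h i x ^ 2) * isD f i x ^ 2 + (1 - isT J h j x ^ 2) * isD f j x ^ 2) := by
      rw [isMean_smul, isMean_add]; simp only [hE, isE]; ring
    have hn1 : -(M i j) = isMean J h fun x => (-1) * (Y i x * Y j x) := by
      rw [isMean_smul]; simp [hM]
    rw [e, abs_le']
    constructor
    · exact isMean_mono J h fun x => by
        nlinarith [hy i x, hy j x, sq_nonneg (Y i x - Y j x)]
    · rw [hn1]; exact isMean_mono J h fun x => by
        nlinarith [hy i x, hy j x, sq_nonneg (Y i x + Y j x)]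
  -- one ordered pair
  have hterm : ∀ i j, (if i = j then E i else 0) - J i j * M i j - J i j ^ 2 * (G i + G j) -
      (2 * K0 + 1) / 2 * (η * J i j ^ 2) * (E i + E j) ≤ PP i j := by
    intro i j
    by_cases hij : i = j
    · subst hij; simp [hd, hdiag]
    · rw [if_neg hij]
      have hp := hpi i j hij
      change 0 ≤ PP i j + Real.tanh (J i j) * M i j + Real.tanh (J i j) ^ 2 * (G i + G j) +
        K0 * |Real.tanh (J i j)| ^ 3 * (E i + E j) at hp
      have h1 : |Real.tanh (J i j)| ≤ |J i j| := abs_tanh_le_abs _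
      have h2 : Real.tanh (J i j) ^ 2 * (G i + G j) ≤ J i j ^ 2 * (G i + G j) :=
        mul_le_mul_of_nonneg_right (sq_le_sq.2 h1) (add_nonneg (hG0 i) (hG0 j))
      have h3 : |J i j| ^ 3 ≤ η * J i j ^ 2 := by
        rw [← sq_abs (J i j), pow_succ' |J i j| 2]
        exact mul_le_mul_of_nonneg_right (hN.entry i j) (sq_nonneg _)
      have h4 : K0 * |Real.tanh (J i j)| ^ 3 * (E i + E j) ≤
          K0 * (η * J i j ^ 2) * (E i + E j) := by
        refine mul_le_mul_of_nonneg_right (mul_le_mul_of_nonneg_left ?_ hK0)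
          (add_nonneg (hE0 i) (hE0 j))
        exact (pow_le_pow_left₀ (abs_nonneg _) h1 3).trans h3
      have h5 : (Real.tanh (J i j) - J i j) * M i j ≤ η * J i j ^ 2 * ((E i + E j) / 2) := by
        refine (le_abs_self _).trans ?_
        rw [abs_mul, abs_sub_comm]
        exact mul_le_mul ((abs_sub_tanh_le _).trans h3) (hMb i j) (abs_nonneg _) (by positivity)
      linarith
  have hsum : ∑ i, ∑ j, PP i j = isMean J h fun x => isL J h f x ^ 2 := by
    simp only [hPP, isL, pow_two, Finset.sum_mul_sum, isMean_sum]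
  rw [← hsum]
  refine le_trans ?_ (Finset.sum_le_sum fun i _ => Finset.sum_le_sum fun j _ => hterm i j)
  simp only [Finset.sum_sub_distrib, Finset.sum_ite_eq, Finset.mem_univ, if_true]
  have hJM : ∑ i, ∑ j, J i j * M i j ≤ lam * ∑ i, (E i - G i) := by
    have e1 : ∑ i, ∑ j, J i j * M i j =
        isMean J h fun x => (fun k => Y k x) ⬝ᵥ J *ᵥ (fun k => Y k x) := by
      simp only [hM, dotProduct, Matrix.mulVec, Finset.mul_sum, isMean_sum, ← isMean_smul]
      refine Finset.sum_congr rfl fun i _ => Finset.sum_congr rfl fun j _ => ?_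
      congr 1; funext x; ring
    have e2 : ∀ i, E i - G i = isMean J h fun x => Y i x * Y i x := fun i => by
      simp only [hE, hG, isE, ← isMean_sub, hY]
      congr 1; funext x; ring
    rw [e1, Finset.sum_congr rfl fun i _ => e2 i, ← isMean_sum, ← isMean_smul]
    exact isMean_mono J h fun x => hN.quad _
  have hrow : ∀ (F : Fin n → ℝ), (∀ i, 0 ≤ F i) →
      ∑ i, ∑ j, J i j ^ 2 * (F i + F j) ≤ 2 * R * ∑ i, F i := by
    intro F hF
    have e : ∑ i, ∑ j, J i j ^ 2 * (F i + F j) = 2 * ∑ i, (∑ j, J i j ^ 2) * F i := by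
      simp only [mul_add, Finset.sum_add_distrib, Finset.sum_mul]
      have : ∑ i, ∑ j, J i j ^ 2 * F j = ∑ i, ∑ j, J i j ^ 2 * F i := by
        rw [Finset.sum_comm]
        exact Finset.sum_congr rfl fun i _ => Finset.sum_congr rfl fun j _ => by
          rw [show J j i = J i j from congrFun (congrFun hJ i) j]
      rw [this]; ring
    rw [e, mul_assoc, Finset.mul_sum _ _ R]
    exact mul_le_mul_of_nonneg_left
      (Finset.sum_le_sum fun i _ => mul_le_mul_of_nonneg_right (hN.row i) (hF i)) zero_le_two
  have h2 := hrow G hG0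
  have h3 : ∑ i, ∑ j, (2 * K0 + 1) / 2 * (η * J i j ^ 2) * (E i + E j) ≤
      (2 * K0 + 1) * η * R * ∑ i, E i := by
    calc _ = (2 * K0 + 1) / 2 * η * ∑ i, ∑ j, J i j ^ 2 * (E i + E j) := by
          simp only [Finset.mul_sum]
          exact Finset.sum_congr rfl fun i _ => Finset.sum_congr rfl fun j _ => by ring
      _ ≤ (2 * K0 + 1) / 2 * η * (2 * R * ∑ i, E i) :=
          mul_le_mul_of_nonneg_left (hrow E hE0) (by positivity)
      _ = _ := by ring
  have hEG : ∀ i, 0 ≤ E i - G i := fun i => by
    simp only [hE, hG, isE, ← isMean_sub]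
    exact isMean_nonneg J h fun x => by
      have := isT_sq_lt J h i x
      have e : (1 - isT J h i x ^ 2) * isD f i x ^ 2 -
          isT J h i x ^ 2 * ((1 - isT J h i x ^ 2) * isD f i x ^ 2) =
          (1 - isT J h i x ^ 2) ^ 2 * isD f i x ^ 2 := by ring
      rw [e]; positivity
  have hEG' : 0 ≤ ∑ i, (E i - G i) := Finset.sum_nonneg fun i _ => hEG i
  have hG' : 0 ≤ ∑ i, G i := Finset.sum_nonneg fun i _ => hG0 i
  have m1 := mul_le_mul_of_nonneg_right (le_max_left lam (2 * R)) hEG'
  have m2 := mul_le_mul_of_nonneg_right (le_max_right lam (2 * R)) hG'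
  rw [Finset.sum_sub_distrib] at m1 hJM
  linarith

/-- Flipping any site does not change `f`, so it is constant. -/
lemma eq_of_isD_eq_zero (f : (Fin n → Bool) → ℝ) (hf : ∀ i x, isD f i x = 0) (x : Fin n → Bool) :
    f x = f fun _ => true := by
  have step : ∀ i x, f (update x i true) = f x := fun i x => by
    have h := hf i x
    simp only [isD, div_eq_zero_iff, sub_eq_zero, OfNat.ofNat_ne_zero, or_false] at h
    cases hb : x i
    · have : update x i false = x := by rw [← hb]; exact update_eq_self i x
      rw [h, this]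
    · have : update x i true = x := by rw [← hb]; exact update_eq_self i x
      rw [this]
  have key : ∀ S : Finset (Fin n), f (fun i => if i ∈ S then true else x i) = f x := by
    intro S
    induction S using Finset.induction with
    | empty => simp
    | @insert a S ha ih =>
      rw [← ih, ← step a fun i => if i ∈ S then true else x i]
      congr 1
      funext i
      by_cases hi : i = a
      · subst hi; simp
      · simp [hi]
  simpa using (key Finset.univ).symm

/-- The Poincare inequality from the curvature inequality. -/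
theorem poincare_of_curvature {J : Matrix (Fin n) (Fin n) ℝ} {h : Fin n → ℝ} (hJ : Jᵀ = J)
    (hd : ∀ i, J i i = 0) {ρ : ℝ} (hρ : 0 < ρ)
    (hc : ∀ f : (Fin n → Bool) → ℝ,
      ρ * ∑ i, isE J h i f ≤ isMean J h fun x => isL J h f x ^ 2)
    (f : (Fin n → Bool) → ℝ) :
    ρ * isMean J h (fun x => (f x - isMean J h f) ^ 2) ≤ ∑ i, isE J h i f := by
  set F : (Fin n → Bool) → ℝ := fun x => f x - isMean J h f with hF
  have hEF : ∀ i, isE J h i F = isE J h i f := fun i => by
    simp [isE, isD, hF]
  have hmF : isMean J h F = 0 := by rw [hF, isMean_sub, isMean_const, sub_self]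
  have hm0 : ∀ g, isMean J h (isL J h g) = 0 := fun g => by
    have := isMean_mul_isL (h := h) hJ hd g (fun _ => 1)
    simpa [isD, isMean_const] using this
  have hDadd : ∀ (g g' : (Fin n → Bool) → ℝ) (c : ℝ) i x,
      isD (fun y => g y + c * g' y) i x = isD g i x + c * isD g' i x := fun g g' c i x => by
    simp only [isD]; ring
  let T : ((Fin n → Bool) → ℝ) →ₗ[ℝ] ((Fin n → Bool) → ℝ) :=
    { toFun := fun g x => isL J h g x + isMean J h g
      map_add' := fun g g' => by
        funext x
        simp only [isL, isP, Pi.add_apply]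
        have : ∀ i, isD (g + g') i x = isD g i x + isD g' i x := fun i => by
          simp only [isD, Pi.add_apply]; ring
        rw [show isMean J h (g + g') = isMean J h g + isMean J h g' from isMean_add J h g g']
        simp only [this, mul_add, Finset.sum_add_distrib]; ring
      map_smul' := fun c g => by
        funext x
        simp only [isL, isP, Pi.smul_apply, smul_eq_mul, RingHom.id_apply]
        have : ∀ i, isD (c • g) i x = c * isD g i x := fun i => by
          simp only [isD, Pi.smul_apply, smul_eq_mul]; ring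
        rw [show isMean J h (c • g) = c * isMean J h g from isMean_smul J h c g]
        simp only [this, mul_add, Finset.mul_sum]
        congr 1; exact Finset.sum_congr rfl fun i _ => by ring }
  have hinj : Function.Injective T := by
    refine (injective_iff_map_eq_zero T).2 fun g hg => ?_
    have h1 : ∀ x, isL J h g x + isMean J h g = 0 := fun x => congrFun hg x
    have hg0 : isMean J h g = 0 := by
      have := congrArg (isMean J h) (funext h1 : (fun x => isL J h g x + isMean J h g) = fun _ => 0)
      rw [isMean_add, isMean_const, isMean_const, hm0, zero_add] at this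
      exact this
    have hL : ∀ x, isL J h g x = 0 := fun x => by linarith [h1 x]
    have h2 := hc g
    have e : (fun x => isL J h g x ^ 2) = fun _ => (0:ℝ) := funext fun x => by simp [hL x]
    rw [e, isMean_const] at h2
    have hzero : ∀ i, isE J h i g = 0 := fun i =>
      le_antisymm (by
        have := Finset.single_le_sum (f := fun i => isE J h i g) (fun k _ => isE_nonneg J h k g)
          (Finset.mem_univ i)
        nlinarith) (isE_nonneg J h i g)
    have hD : ∀ i x, isD g i x = 0 := fun i x => by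
      have h3 := (Finset.sum_eq_zero_iff_of_nonneg fun y _ =>
        mul_nonneg (div_nonneg (isW_pos J h y).le (isZ_pos J h).le)
          (mul_nonneg (by linarith [isT_sq_lt J h i y]) (sq_nonneg (isD g i y)))).1 (hzero i) x
        (Finset.mem_univ x)
      have n1 := (isW_pos J h x).ne'
      have n2 := (isZ_pos J h).ne'
      have n3 : 1 - isT J h i x ^ 2 ≠ 0 := by linarith [isT_sq_lt J h i x]
      simpa [n1, n2, n3] using h3
    funext x
    have hx := eq_of_isD_eq_zero g hD
    have e' : g = fun _ => g fun _ => true := funext hx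
    rw [e', isMean_const] at hg0
    rw [Pi.zero_apply, hx x, hg0]
  obtain ⟨g, hg⟩ := (LinearMap.injective_iff_surjective.1 hinj) F
  have hgx : ∀ x, isL J h g x + isMean J h g = F x := fun x => congrFun hg x
  have hg0 : isMean J h g = 0 := by
    have := congrArg (isMean J h) (funext hgx : (fun x => isL J h g x + isMean J h g) = F)
    rw [isMean_add, isMean_const, hm0, zero_add, hmF] at this
    exact this
  have hLg : ∀ x, isL J h g x = F x := fun x => by linarith [hgx x]
  have h1 := hc g
  simp only [hLg] at h1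
  have h2 : isMean J h (fun x => F x ^ 2) ≤
      1 / (2 * ρ) * ∑ i, isE J h i f + ρ / 2 * ∑ i, isE J h i g := by
    have e : isMean J h (fun x => F x ^ 2) = isMean J h fun x => F x * isL J h g x := by
      simp only [hLg, pow_two]
    rw [e, isMean_mul_isL hJ hd, Finset.mul_sum, Finset.mul_sum, ← Finset.sum_add_distrib]
    refine Finset.sum_le_sum fun i _ => ?_
    rw [← hEF i]
    simp only [isE, ← isMean_smul, ← isMean_add]
    refine isMean_mono J h fun x => ?_
    have hv : 0 ≤ 1 - isT J h i x ^ 2 := by linarith [isT_sq_lt J h i x]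
    have hq : isD F i x * isD g i x ≤
        1 / (2 * ρ) * isD F i x ^ 2 + ρ / 2 * isD g i x ^ 2 := by
      have h0 : 0 ≤ (isD F i x - ρ * isD g i x) ^ 2 / (2 * ρ) := by positivity
      have e' : (isD F i x - ρ * isD g i x) ^ 2 / (2 * ρ) =
          1 / (2 * ρ) * isD F i x ^ 2 + ρ / 2 * isD g i x ^ 2 - isD F i x * isD g i x := by
        field_simp; ring
      linarith
    linarith [mul_le_mul_of_nonneg_left hq hv]
  have e3 : ρ * (1 / (2 * ρ) * ∑ i, isE J h i f) = (∑ i, isE J h i f) / 2 := by field_simp
  have := mul_le_mul_of_nonneg_left h2 hρ.le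
  change ρ * isMean J h (fun x => F x ^ 2) ≤ _
  nlinarith [mul_le_mul_of_nonneg_left h1 hρ.le]

/-- Uniform covariance bound. -/
theorem covariance_bound {J : Matrix (Fin n) (Fin n) ℝ} {h : Fin n → ℝ} (hJ : Jᵀ = J)
    (hd : ∀ i, J i i = 0) {ρ : ℝ} (hρ : 0 < ρ)
    (hc : ∀ f : (Fin n → Bool) → ℝ,
      ρ * ∑ i, isE J h i f ≤ isMean J h fun x => isL J h f x ^ 2)
    (θ : Fin n → ℝ) :
    isMean J h (fun x => (θ ⬝ᵥ spin x - isMean J h (fun y => θ ⬝ᵥ spin y)) ^ 2) ≤
      θ ⬝ᵥ θ / ρ := by
  rw [le_div_iff₀ hρ, mul_comm]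
  refine (poincare_of_curvature hJ hd hρ hc _).trans (Finset.sum_le_sum fun i _ => ?_)
  have hD : ∀ x, isD (fun y => θ ⬝ᵥ spin y) i x = θ i := fun x => by
    simp only [isD, spin_update_eq, dotProduct_add, dotProduct_single]
    simp [sgn]; ring
  simp only [isE, hD]
  refine (isMean_mono J h (g := fun _ => θ i * θ i) fun x => ?_).trans (isMean_const J h _).le
  nlinarith [isT_sq_lt J h i x, sq_nonneg (isT J h i x), sq_nonneg (θ i)]

end Vale.Agent.P150
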