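import Vale.Agent.P150.Gibbs

/-!
Cut-off functions on the disorder space and integration by parts under a trace.
-/

namespace Vale.Agent.P150

open MeasureTheory ProbabilityTheory Real Function Matrix Filter Topology

variable {n : ℕ} {β z m : ℝ}

instance (n : ℕ) : IsProbabilityMeasure (disorderLaw n) := by
  unfold disorderLaw; infer_instance

/-- Continuity and boundedness on a set. -/
def Adm (K : Set (Pairs n → ℝ)) (f : (Pairs n → ℝ) → ℝ) : Prop :=
  (∀ g ∈ K, ContinuousAt f g) ∧ ∃ B : ℝ, ∀ g ∈ K, |f g| ≤ B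

variable {K : Set (Pairs n → ℝ)}

lemma Adm.const (a : ℝ) : Adm K fun _ => a :=
  ⟨fun _ _ => continuousAt_const, |a|, fun _ _ => le_rfl⟩

lemma Adm.add {f h : (Pairs n → ℝ) → ℝ} (hf : Adm K f) (hh : Adm K h) :
    Adm K fun g => f g + h g := by
  obtain ⟨c1, B1, b1⟩ := hf; obtain ⟨c2, B2, b2⟩ := hh
  exact ⟨fun g hg => (c1 g hg).add (c2 g hg), B1 + B2,
    fun g hg => (abs_add_le _ _).trans (add_le_add (b1 g hg) (b2 g hg))⟩

lemma Adm.mul {f h : (Pairs n → ℝ) → ℝ} (hf : Adm K f) (hh : Adm K h) :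
    Adm K fun g => f g * h g := by
  obtain ⟨c1, B1, b1⟩ := hf; obtain ⟨c2, B2, b2⟩ := hh
  refine ⟨fun g hg => (c1 g hg).mul (c2 g hg), B1 * B2, fun g hg => ?_⟩
  rw [abs_mul]
  exact mul_le_mul (b1 g hg) (b2 g hg) (abs_nonneg _) ((abs_nonneg _).trans (b1 g hg))

lemma Adm.const_mul {f : (Pairs n → ℝ) → ℝ} (a : ℝ) (hf : Adm K f) : Adm K fun g => a * f g :=
  (Adm.const a).mul hf

lemma Adm.sub {f h : (Pairs n → ℝ) → ℝ} (hf : Adm K f) (hh : Adm K h) :
    Adm K fun g => f g - h g := by
  simpa [sub_eq_add_neg] using hf.add (hh.const_mul (-1))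

lemma Adm.sum {κ : Type*} (t : Finset κ) {f : κ → (Pairs n → ℝ) → ℝ} (hf : ∀ k, Adm K (f k)) :
    Adm K fun g => ∑ k ∈ t, f k g := by
  choose c B b using hf
  exact ⟨fun g hg => tendsto_finsetSum _ fun k _ => c k g hg, ∑ k ∈ t, B k,
    fun g hg => (Finset.abs_sum_le_sum_abs _ _).trans (Finset.sum_le_sum fun k _ => b k g hg)⟩

lemma Adm.gibbs (β : ℝ) (f : (Fin n → Bool) → ℝ) : Adm K fun g => gibbsMean β g f := by
  refine ⟨fun g _ => (continuous_gibbsMean β f).continuousAt, ∑ y, |f y|, fun g _ => ?_⟩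
  refine (abs_gibbsMean_le β g (h := fun _ => ∑ y, |f y|) fun x => ?_).trans
    (gibbsMean_const β g _).le
  exact Finset.single_le_sum (f := fun y => |f y|) (fun y _ => abs_nonneg _) (Finset.mem_univ x)

lemma Adm.cov (β : ℝ) (p : Pairs n) (f : (Fin n → Bool) → ℝ) :
    Adm K fun g => covPair β g p f :=
  (Adm.gibbs β _).sub ((Adm.gibbs β f).mul (Adm.gibbs β _))

lemma Adm.res (hK : ∀ g ∈ K, IsGood β z m g) (hm : 0 < m) (i j : Fin n) :
    Adm K fun g => resM β z g i j := by
  refine ⟨fun g hg => ((continuous_id.matrix_elem i j).continuousAt).comp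
    (continuousAt_resM (hK g hg) hm), 1 + n / m ^ 2, fun g hg => ?_⟩
  have h1 := (hK g hg).frob_res hm
  have h2 : resM β z g i j ^ 2 ≤ frob (resM β z g) :=
    (Finset.single_le_sum (f := fun j => resM β z g i j ^ 2) (fun _ _ => sq_nonneg _)
      (Finset.mem_univ j)).trans (Finset.single_le_sum (f := fun i => ∑ j, resM β z g i j ^ 2)
        (fun _ _ => Finset.sum_nonneg fun _ _ => sq_nonneg _) (Finset.mem_univ i))
  have h3 : frob (resM β z g) ≤ n / m ^ 2 := by
    rw [le_div_iff₀ (by positivity)]; linarith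
  nlinarith [sq_abs (resM β z g i j), abs_nonneg (resM β z g i j)]

/-- A function vanishing outside `K`, differentiable in every coordinate, with bounds. -/
structure Cut (K : Set (Pairs n → ℝ)) : Type where
  val : (Pairs n → ℝ) → ℝ
  der : Pairs n → (Pairs n → ℝ) → ℝ
  cont : Continuous val
  cont_der : ∀ p, Continuous (der p)
  hasDeriv : ∀ p g, HasDerivAt (fun s => val (update g p s)) (der p g) (g p)
  zero : ∀ g, g ∉ K → val g = 0
  zero_der : ∀ p g, g ∉ K → der p g = 0
  bdd : ∃ B, ∀ g, |val g| ≤ B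
  bdd_der : ∀ p, ∃ B, ∀ g, |der p g| ≤ B

lemma continuous_of_adm_mul (hKc : IsClosed K) {ψ f : (Pairs n → ℝ) → ℝ} (hψ : Continuous ψ)
    (h0 : ∀ g, g ∉ K → ψ g = 0) (hf : ∀ g ∈ K, ContinuousAt f g) :
    Continuous fun g => ψ g * f g := by
  refine continuous_iff_continuousAt.2 fun g => ?_
  by_cases hg : g ∈ K
  · exact hψ.continuousAt.mul (hf g hg)
  · refine (continuousAt_const (y := (0:ℝ))).congr ?_
    filter_upwards [hKc.isOpen_compl.mem_nhds hg] with g' hg' using by rw [h0 g' hg', zero_mul]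

lemma bdd_of_adm_mul {ψ f : (Pairs n → ℝ) → ℝ} (hψ : ∃ B, ∀ g, |ψ g| ≤ B)
    (h0 : ∀ g, g ∉ K → ψ g = 0) (hf : ∃ B, ∀ g ∈ K, |f g| ≤ B) :
    ∃ B, ∀ g, |ψ g * f g| ≤ B := by
  obtain ⟨A, hA⟩ := hψ; obtain ⟨B, hB⟩ := hf
  refine ⟨A * max B 0, fun g => ?_⟩
  have hA0 : 0 ≤ A := (abs_nonneg _).trans (hA g)
  rw [abs_mul]
  by_cases hg : g ∈ K
  · exact mul_le_mul (hA g) ((hB g hg).trans (le_max_left _ _)) (abs_nonneg _) hA0
  · rw [h0 g hg, abs_zero, zero_mul]; positivity

/-- Product of a cut-off with a function smooth on `K`. -/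
noncomputable def Cut.mulFun (c : Cut K) (hKc : IsClosed K) (f : (Pairs n → ℝ) → ℝ)
    (f' : Pairs n → (Pairs n → ℝ) → ℝ) (hf : Adm K f) (hf' : ∀ p, Adm K (f' p))
    (hd : ∀ p, ∀ g ∈ K, HasDerivAt (fun s => f (update g p s)) (f' p g) (g p)) : Cut K where
  val g := c.val g * f g
  der p g := c.der p g * f g + c.val g * f' p g
  cont := continuous_of_adm_mul hKc c.cont c.zero hf.1
  cont_der p := (continuous_of_adm_mul hKc (c.cont_der p) (c.zero_der p) hf.1).add
    (continuous_of_adm_mul hKc c.cont c.zero (hf' p).1)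
  hasDeriv p g := by
    by_cases hg : g ∈ K
    · exact ((c.hasDeriv p g).fun_mul (hd p g hg)).congr_deriv (by simp [update_eq_self])
    · rw [c.zero g hg, c.zero_der p g hg]
      simp only [zero_mul, add_zero]
      refine (hasDerivAt_const (g p) (0:ℝ)).congr_of_eventuallyEq ?_
      have hc : Continuous fun s : ℝ => update g p s := continuous_const.update p continuous_id
      have : ∀ᶠ s in 𝓝 (g p), update g p s ∈ Kᶜ :=
        hc.continuousAt.preimage_mem_nhds (by
          rw [update_eq_self]; exact hKc.isOpen_compl.mem_nhds hg)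
      filter_upwards [this] with s hs using by rw [c.zero _ hs, zero_mul]
  zero g hg := by rw [c.zero g hg, zero_mul]
  zero_der p g hg := by rw [c.zero g hg, c.zero_der p g hg]; ring
  bdd := bdd_of_adm_mul c.bdd c.zero hf.2
  bdd_der p := by
    obtain ⟨A, hA⟩ := bdd_of_adm_mul (c.bdd_der p) (c.zero_der p) hf.2
    obtain ⟨B, hB⟩ := bdd_of_adm_mul c.bdd c.zero (hf' p).2
    exact ⟨A + B, fun g => (abs_add_le _ _).trans (add_le_add (hA g) (hB g))⟩

/-- Shrink the supporting set. -/
def Cut.restrict (c : Cut K) (K' : Set (Pairs n → ℝ)) (h : ∀ g, g ∉ K' → c.val g = 0)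
    (h' : ∀ p g, g ∉ K' → c.der p g = 0) : Cut K' where
  val := c.val
  der := c.der
  cont := c.cont
  cont_der := c.cont_der
  hasDeriv := c.hasDeriv
  zero := h
  zero_der := h'
  bdd := c.bdd
  bdd_der := c.bdd_der

/-- The trace of the coupling matrix times `M` as a sum over pairs. -/
lemma trace_coupM_mul (β : ℝ) (g : Pairs n → ℝ) (M : Matrix (Fin n) (Fin n) ℝ) :
    (coupM β g * M).trace = ∑ p : Pairs n, scaleC β n * g p * (M p.1.1 p.1.2 + M p.1.2 p.1.1) := by
  have h := two_mul_sum_pairs (fun i j => scaleC β n * symDisorder g i j * (M i j + M j i))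
    (fun i j => by rw [symDisorder_comm g i j]; ring)
  simp only [symDisorder_pair, symDisorder_self, mul_zero, zero_mul, Finset.sum_const_zero,
    sub_zero] at h
  have e : (coupM β g * M).trace = ∑ i, ∑ j, scaleC β n * symDisorder g i j * M j i := by
    simp [Matrix.trace, Matrix.mul_apply, coupM]
  have e' : ∑ i, ∑ j, scaleC β n * symDisorder g i j * M i j =
      ∑ i, ∑ j, scaleC β n * symDisorder g i j * M j i := by
    rw [Finset.sum_comm]
    exact Finset.sum_congr rfl fun i _ => Finset.sum_congr rfl fun j _ => by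
      rw [symDisorder_comm g j i]
  simp only [mul_add, Finset.sum_add_distrib, e'] at h
  simp only [mul_add, Finset.sum_add_distrib]
  linarith

lemma integrable_cut_mul (c : Cut K) (hKc : IsClosed K) {f : (Pairs n → ℝ) → ℝ} (hf : Adm K f) :
    Integrable (fun g => c.val g * f g) (disorderLaw n) := by
  obtain ⟨B, hB⟩ := bdd_of_adm_mul c.bdd c.zero hf.2
  exact integrable_of_bound (continuous_of_adm_mul hKc c.cont c.zero hf.1) B hB

lemma integrable_cut_der_mul (c : Cut K) (hKc : IsClosed K) (p : Pairs n)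
    {f : (Pairs n → ℝ) → ℝ} (hf : Adm K f) :
    Integrable (fun g => c.der p g * f g) (disorderLaw n) := by
  obtain ⟨B, hB⟩ := bdd_of_adm_mul (c.bdd_der p) (c.zero_der p) hf.2
  exact integrable_of_bound (continuous_of_adm_mul hKc (c.cont_der p) (c.zero_der p) hf.1) B hB

/-- Integration by parts in one coordinate against a cut-off. -/
lemma cut_ibp (c : Cut K) (hKc : IsClosed K) (p : Pairs n) (f : (Pairs n → ℝ) → ℝ)
    (f' : Pairs n → (Pairs n → ℝ) → ℝ) (hf : Adm K f) (hf' : ∀ q, Adm K (f' q))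
    (hd : ∀ q, ∀ g ∈ K, HasDerivAt (fun s => f (update g q s)) (f' q g) (g q)) :
    Integrable (fun g => g p * (c.val g * f g)) (disorderLaw n) ∧
    ∫ g, g p * (c.val g * f g) ∂disorderLaw n =
      ∫ g, (c.der p g * f g + c.val g * f' p g) ∂disorderLaw n := by
  obtain ⟨B, hB⟩ := (c.mulFun hKc f f' hf hf' hd).bdd
  obtain ⟨B', hB'⟩ := (c.mulFun hKc f f' hf hf' hd).bdd_der p
  exact ⟨integrable_coord_mul (c.mulFun hKc f f' hf hf' hd).cont B p hB,
    ibp_bounded p (c.mulFun hKc f f' hf hf' hd).val ((c.mulFun hKc f f' hf hf' hd).der p) B B'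
      ((c.mulFun hKc f f' hf hf' hd).hasDeriv p) (c.mulFun hKc f f' hf hf' hd).cont hB
      ((c.mulFun hKc f f' hf hf' hd).cont_der p) hB'⟩

/-- Integration by parts under a trace. -/
lemma trace_ibp (c : Cut K) (hKc : IsClosed K) (β : ℝ)
    (M : (Pairs n → ℝ) → Matrix (Fin n) (Fin n) ℝ)
    (M' : Pairs n → (Pairs n → ℝ) → Matrix (Fin n) (Fin n) ℝ)
    (hM : ∀ i j, Adm K fun g => M g i j) (hM' : ∀ p i j, Adm K fun g => M' p g i j)
    (hd : ∀ p i j, ∀ g ∈ K, HasDerivAt (fun s => M (update g p s) i j) (M' p g i j) (g p)) :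
    ∫ g, c.val g * (coupM β g * M g).trace ∂disorderLaw n =
      ∫ g, ∑ p : Pairs n, scaleC β n *
        (c.der p g * (M g p.1.1 p.1.2 + M g p.1.2 p.1.1) +
          c.val g * (M' p g p.1.1 p.1.2 + M' p g p.1.2 p.1.1)) ∂disorderLaw n := by
  have h : ∀ p : Pairs n,
      Integrable (fun g => g p * (c.val g * (M g p.1.1 p.1.2 + M g p.1.2 p.1.1))) (disorderLaw n) ∧
      ∫ g, g p * (c.val g * (M g p.1.1 p.1.2 + M g p.1.2 p.1.1)) ∂disorderLaw n =
        ∫ g, (c.der p g * (M g p.1.1 p.1.2 + M g p.1.2 p.1.1) +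
          c.val g * (M' p g p.1.1 p.1.2 + M' p g p.1.2 p.1.1)) ∂disorderLaw n := fun p =>
    cut_ibp c hKc p (fun g => M g p.1.1 p.1.2 + M g p.1.2 p.1.1)
      (fun q g => M' q g p.1.1 p.1.2 + M' q g p.1.2 p.1.1)
      ((hM _ _).add (hM _ _)) (fun q => (hM' q _ _).add (hM' q _ _))
      (fun q g hg => (hd q _ _ g hg).add (hd q _ _ g hg))
  have e : (fun g => c.val g * (coupM β g * M g).trace) = fun g => ∑ p : Pairs n,
      scaleC β n * (g p * (c.val g * (M g p.1.1 p.1.2 + M g p.1.2 p.1.1))) := by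
    funext g; rw [trace_coupM_mul, Finset.mul_sum]
    exact Finset.sum_congr rfl fun p _ => by ring
  rw [e, integral_finsetSum _ fun p _ => (h p).1.const_mul _,
    integral_finsetSum _ fun (p : Pairs n) _ =>
      (show Integrable (fun g => scaleC β n *
        (c.der p g * (M g p.1.1 p.1.2 + M g p.1.2 p.1.1) +
          c.val g * (M' p g p.1.1 p.1.2 + M' p g p.1.2 p.1.1))) (disorderLaw n) from
      ((integrable_cut_der_mul c hKc p ((hM _ _).add (hM _ _))).add
        (integrable_cut_mul c hKc ((hM' p _ _).add (hM' p _ _)))).const_mul (scaleC β n))]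
  exact Finset.sum_congr rfl fun p _ => by rw [integral_const_mul, integral_const_mul, (h p).2]

/-- The sum of absolute products, bounded by bounds for the two sums of squares. -/
lemma abs_sum_mul_le {κ : Type*} [Fintype κ] (a b : κ → ℝ) {A B : ℝ} (hA : 0 ≤ A) (hB : 0 ≤ B)
    (ha : ∑ k, a k ^ 2 ≤ A ^ 2) (hb : ∑ k, b k ^ 2 ≤ B ^ 2) : |∑ k, a k * b k| ≤ A * B := by
  refine abs_le_of_sq_le_sq ?_ (mul_nonneg hA hB)
  refine (Finset.sum_mul_sq_le_sq_mul_sq Finset.univ a b).trans ?_
  rw [mul_pow]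
  exact mul_le_mul ha hb (Finset.sum_nonneg fun _ _ => sq_nonneg _) (sq_nonneg _)

/-- Triangle inequality for sums of squares. -/
lemma sum_sq_add_le {κ : Type*} [Fintype κ] (a b : κ → ℝ) {A B : ℝ} (hA : 0 ≤ A) (hB : 0 ≤ B)
    (ha : ∑ k, a k ^ 2 ≤ A ^ 2) (hb : ∑ k, b k ^ 2 ≤ B ^ 2) :
    ∑ k, (a k + b k) ^ 2 ≤ (A + B) ^ 2 := by
  have h := (abs_le.1 (abs_sum_mul_le a b hA hB ha hb)).2
  have e : ∑ k, (a k + b k) ^ 2 = ∑ k, a k ^ 2 + 2 * ∑ k, a k * b k + ∑ k, b k ^ 2 := by
    rw [Finset.mul_sum, ← Finset.sum_add_distrib, ← Finset.sum_add_distrib]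
    exact Finset.sum_congr rfl fun k _ => by ring
  rw [e]; nlinarith

lemma sum_sq_mul_le {κ : Type*} [Fintype κ] (a : κ → ℝ) {r R A : ℝ} (hr : |r| ≤ R)
    (ha : ∑ k, a k ^ 2 ≤ A ^ 2) : ∑ k, (r * a k) ^ 2 ≤ (R * A) ^ 2 := by
  simp only [mul_pow, ← Finset.mul_sum]
  exact mul_le_mul (by rw [← sq_abs r]; gcongr) ha
    (Finset.sum_nonneg fun _ _ => sq_nonneg _) (sq_nonneg _)

/-- A function bounded by `E` on `K` and zero outside has integral at most `E`. -/
lemma abs_integral_le_bound {f : (Pairs n → ℝ) → ℝ} {E : ℝ} (h : ∀ g, |f g| ≤ E) :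
    |∫ g, f g ∂disorderLaw n| ≤ E := by
  have := norm_integral_le_of_norm_le_const (μ := disorderLaw n) (f := f) (ae_of_all _ h)
  simpa using this

lemma pair_symm_sum (G M : Matrix (Fin n) (Fin n) ℝ) (hG : ∀ i j, G i j = G j i) :
    ∑ p : Pairs n, ((G * pairM p * M) p.1.1 p.1.2 + (G * pairM p * M) p.1.2 p.1.1) =
      G.trace * M.trace + (G * M).trace - 2 * ∑ i, G i i * M i i := by
  have h := two_mul_sum_pairs
    (fun i j => G i i * M j j + G j j * M i i + G i j * M i j + G i j * M j i)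
    (fun i j => by rw [hG i j]; ring)
  simp only [Finset.sum_add_distrib, ← Finset.mul_sum, ← Finset.sum_mul] at h
  have e1 : ∑ i, ∑ j, G i j * M i j = (G * M).trace := by
    rw [Finset.sum_comm]
    simp only [Matrix.trace, Matrix.diag, Matrix.mul_apply]
    exact Finset.sum_congr rfl fun i _ => Finset.sum_congr rfl fun j _ => by rw [hG j i]
  have e2 : ∑ i, ∑ j, G i j * M j i = (G * M).trace := by
    simp [Matrix.trace, Matrix.mul_apply]
  have e3 : (∑ x : Fin n, G x x) * ∑ x : Fin n, M x x = G.trace * M.trace := rfl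
  rw [e1, e2] at h
  have e4 : ∀ p : Pairs n, (G * pairM p * M) p.1.1 p.1.2 + (G * pairM p * M) p.1.2 p.1.1 =
      G p.1.1 p.1.1 * M p.1.2 p.1.2 + G p.1.2 p.1.2 * M p.1.1 p.1.1 +
        G p.1.1 p.1.2 * M p.1.1 p.1.2 + G p.1.1 p.1.2 * M p.1.2 p.1.1 := fun p => by
    rw [mul_pairM_mul, mul_pairM_mul, hG p.1.2 p.1.1]; ring
  simp only [e4, Finset.sum_add_distrib]
  rw [← e3] at *
  linarith

/-- The resolvent equation against a cut-off. -/
theorem resolvent_equation (c : Cut K) (hKc : IsClosed K) (hn : 0 < n) (hβ : 0 ≤ β)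
    (hK : ∀ g ∈ K, IsGood β z m g) (hm : 0 < m) {A P : ℝ} (hA : 0 ≤ A) (hP : 0 ≤ P)
    (hAK : ∀ g ∈ K, ∑ p, c.der p g ^ 2 ≤ A ^ 2) (hPK : ∀ g ∈ K, |c.val g| ≤ P) :
    |∫ g, c.val g * (z * resTr β z g - 1 - β ^ 2 * resTr β z g ^ 2) ∂disorderLaw n| ≤
      2 * β * A / (n * m) + 3 * β ^ 2 * P / (n * m ^ 2) := by
  set cc := scaleC β n with hcc
  have hn0 : (0:ℝ) < n := by exact_mod_cast hn
  have hc2 : cc ^ 2 * n = β ^ 2 := by
    rw [hcc, scaleC, div_pow, Real.sq_sqrt hn0.le, div_mul_cancel₀ _ hn0.ne']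
  have hG := fun g : Pairs n → ℝ => resM_comm β z g
  have hMd : ∀ (p : Pairs n) (i j : Fin n),
      Adm K fun g => cc * (resM β z g * pairM p * resM β z g) i j := fun p i j => by
    simp only [mul_pairM_mul]
    exact (((Adm.res hK hm _ _).mul (Adm.res hK hm _ _)).add
      ((Adm.res hK hm _ _).mul (Adm.res hK hm _ _))).const_mul _
  have key := trace_ibp c hKc β (resM β z)
    (fun p g => cc • (resM β z g * pairM p * resM β z g)) (Adm.res hK hm) hMd
    (fun p i j g hg => hasDerivAt_resM (hK g hg) hm p i j)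
  set W : (Pairs n → ℝ) → ℝ := fun g =>
    cc * ∑ p : Pairs n, c.der p g * (resM β z g p.1.1 p.1.2 + resM β z g p.1.2 p.1.1) +
      c.val g * cc ^ 2 *
        ((resM β z g * resM β z g).trace - 2 * ∑ i, resM β z g i i * resM β z g i i) with hW
  have hrew : ∀ g, ∑ p : Pairs n, cc *
      (c.der p g * (resM β z g p.1.1 p.1.2 + resM β z g p.1.2 p.1.1) +
        c.val g * ((cc • (resM β z g * pairM p * resM β z g)) p.1.1 p.1.2 +
          (cc • (resM β z g * pairM p * resM β z g)) p.1.2 p.1.1)) =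
      W g + c.val g * (n * (β ^ 2 * resTr β z g ^ 2)) := fun g => by
    calc _ = cc * ∑ p : Pairs n, c.der p g * (resM β z g p.1.1 p.1.2 + resM β z g p.1.2 p.1.1) +
          c.val g * cc ^ 2 * ∑ p : Pairs n, ((resM β z g * pairM p * resM β z g) p.1.1 p.1.2 +
              (resM β z g * pairM p * resM β z g) p.1.2 p.1.1) := by
          simp only [Matrix.smul_apply, smul_eq_mul, Finset.mul_sum, ← Finset.sum_add_distrib]
          exact Finset.sum_congr rfl fun p _ => by ring
      _ = _ := by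
          rw [pair_symm_sum _ _ (hG g), hW, resTr, ← hc2]
          field_simp; ring
  simp only [← hcc] at key
  rw [integral_congr_ae (ae_of_all _ hrew)] at key
  have hlhs : ∀ g, c.val g * (coupM β g * resM β z g).trace =
      c.val g * (n * (z * resTr β z g - 1)) := fun g => by
    by_cases hg : g ∈ K
    · congr 1
      have h := congrArg Matrix.trace ((hK g hg).mul_resM hm)
      rw [Matrix.sub_mul, Matrix.smul_mul, Matrix.one_mul, Matrix.trace_sub, Matrix.trace_smul,
        Matrix.trace_one, Fintype.card_fin, smul_eq_mul] at h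
      rw [resTr]; field_simp; linarith
    · simp [c.zero g hg]
  rw [integral_congr_ae (ae_of_all _ hlhs)] at key
  have aT : Adm K (resTr β z) := by
    unfold resTr Matrix.trace; simp only [Matrix.diag, div_eq_inv_mul]
    exact (Adm.sum _ fun i => Adm.res hK hm i i).const_mul _
  have aW : Integrable W (disorderLaw n) := by
    refine Integrable.add ((integrable_finsetSum _ fun (p : Pairs n) _ =>
      integrable_cut_der_mul c hKc p
        ((Adm.res hK hm _ _).add (Adm.res hK hm _ _))).const_mul _) ?_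
    simp only [mul_assoc, Matrix.trace, Matrix.diag, Matrix.mul_apply]
    exact integrable_cut_mul c hKc
      ((((Adm.sum _ fun i => Adm.sum _ fun j => (Adm.res hK hm i j).mul (Adm.res hK hm j i))).sub
        ((Adm.sum _ fun i => (Adm.res hK hm i i).mul (Adm.res hK hm i i)).const_mul 2)).const_mul _)
  have aQ : Adm K fun g => (n : ℝ) * (β ^ 2 * resTr β z g ^ 2) := by
    simp only [pow_two (resTr β z _)]; exact ((aT.mul aT).const_mul _).const_mul _
  rw [integral_add aW (integrable_cut_mul c hKc aQ)] at key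
  have e : ∫ g, c.val g * (z * resTr β z g - 1 - β ^ 2 * resTr β z g ^ 2) ∂disorderLaw n =
      (n : ℝ)⁻¹ * ∫ g, W g ∂disorderLaw n := by
    have h1 : ∀ g, c.val g * (z * resTr β z g - 1 - β ^ 2 * resTr β z g ^ 2) = (n : ℝ)⁻¹ *
        (c.val g * (n * (z * resTr β z g - 1)) - c.val g * (n * (β ^ 2 * resTr β z g ^ 2))) :=
      fun g => by field_simp
    rw [integral_congr_ae (ae_of_all _ h1), integral_const_mul, integral_sub
      (integrable_cut_mul c hKc (((aT.const_mul z).sub (Adm.const 1)).const_mul _))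
      (integrable_cut_mul c hKc aQ)]
    rw [key]; ring
  rw [e, ← integral_const_mul]
  refine abs_integral_le_bound fun g => ?_
  by_cases hg : g ∈ K
  swap
  · simp only [hW, c.zero g hg, fun p => c.zero_der p g hg, zero_mul, Finset.sum_const_zero,
      mul_zero, add_zero, abs_zero]
    positivity
  have hfr := (hK g hg).frob_res hm
  have h1 : |∑ p : Pairs n, c.der p g * (resM β z g p.1.1 p.1.2 + resM β z g p.1.2 p.1.1)| ≤
      A * (2 * Real.sqrt n / m) := by
    refine abs_sum_mul_le _ _ hA (by positivity) (hAK g hg) ((sum_pairs_sq_le _).trans ?_)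
    rw [div_pow, mul_pow, Real.sq_sqrt hn0.le, le_div_iff₀ (by positivity)]
    nlinarith [frob_nonneg (resM β z g)]
  have e2 : (resM β z g * resM β z g).trace = frob (resM β z g) := by
    simp only [Matrix.trace, Matrix.diag, Matrix.mul_apply, frob]
    exact Finset.sum_congr rfl fun i _ => Finset.sum_congr rfl fun j _ => by
      rw [hG g j i, pow_two]
  have hd1 : ∑ i, resM β z g i i * resM β z g i i ≤ frob (resM β z g) :=
    Finset.sum_le_sum fun i _ => (pow_two _).symm.trans_le
      (Finset.single_le_sum (f := fun j => resM β z g i j ^ 2) (fun _ _ => sq_nonneg _)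
        (Finset.mem_univ i))
  have hd0 : 0 ≤ ∑ i, resM β z g i i * resM β z g i i :=
    Finset.sum_nonneg fun i _ => mul_self_nonneg _
  have hfr' : frob (resM β z g) ≤ n / m ^ 2 := by rw [le_div_iff₀ (by positivity)]; linarith
  have h2 : |(resM β z g * resM β z g).trace - 2 * ∑ i, resM β z g i i * resM β z g i i| ≤
      3 * (n / m ^ 2) := by
    rw [e2, abs_le]; constructor <;> linarith [frob_nonneg (resM β z g)]
  have hcc0 : 0 ≤ cc := div_nonneg hβ (Real.sqrt_nonneg _)
  have hcs : cc * Real.sqrt n = β := div_mul_cancel₀ _ (Real.sqrt_pos.2 hn0).ne'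
  rw [abs_mul, abs_of_pos (inv_pos.2 hn0), hW]
  refine (mul_le_mul_of_nonneg_left (abs_add_le _ _) (inv_pos.2 hn0).le).trans ?_
  rw [abs_mul, abs_mul, abs_mul, abs_of_nonneg hcc0, abs_of_nonneg (sq_nonneg cc)]
  calc (n:ℝ)⁻¹ * (cc * _ + |c.val g| * cc ^ 2 * _)
      ≤ (n:ℝ)⁻¹ * (cc * (A * (2 * Real.sqrt n / m)) + P * cc ^ 2 * (3 * (n / m ^ 2))) := by
        gcongr; exact hPK g hg
    _ = _ := by
        rw [← hc2, ← hcs]; field_simp

/-- The correlation equation against a cut-off. -/
theorem correlation_equation (c : Cut K) (hKc : IsClosed K) (hn : 0 < n) (hβ : 0 ≤ β)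
    (hK : ∀ g ∈ K, IsGood β z m g) (hm : 0 < m) {A e : ℝ} (hA : 0 ≤ A) (he : 0 ≤ e)
    (hs : ∀ g ∈ K, overlapSq β g ≤ 2 * e ^ 2)
    (hAK : ∀ g ∈ K, ∑ p, c.der p g ^ 2 ≤ A ^ 2) (hPK : ∀ g ∈ K, |c.val g| ≤ 1) :
    |∫ g, c.val g * (resCorr β z g * (z - β ^ 2 - β ^ 2 * resTr β z g) - 1) ∂disorderLaw n| ≤
      3 * scaleC β n * A * e / m + β ^ 2 * (3 / (n * m ^ 2) + 2 * e ^ 2 / m) := by
  set cc := scaleC β n with hcc
  have hn0 : (0:ℝ) < n := by exact_mod_cast hn
  have hc2 : cc ^ 2 * n = β ^ 2 := by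
    rw [hcc, scaleC, div_pow, Real.sq_sqrt hn0.le, div_mul_cancel₀ _ hn0.ne']
  set M : (Pairs n → ℝ) → Matrix (Fin n) (Fin n) ℝ := fun g => resM β z g * corrM β g with hMdef
  set M' : Pairs n → (Pairs n → ℝ) → Matrix (Fin n) (Fin n) ℝ := fun p g => Matrix.of fun i j =>
    cc * ((resM β z g * pairM p * M g) i j +
      covPair β g p fun x => (resM β z g *ᵥ spin x) i * spin x j) with hM'def
  have aM : ∀ i j, Adm K fun g => M g i j := fun i j => by
    simp only [hMdef, Matrix.mul_apply]
    exact Adm.sum _ fun k => (Adm.res hK hm i k).mul (Adm.gibbs β _)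
  have aM' : ∀ p i j, Adm K fun g => M' p g i j := fun p i j => by
    have e : (fun g => M' p g i j) = fun g => cc *
        ((resM β z g i p.1.1 * M g p.1.2 j + resM β z g i p.1.2 * M g p.1.1 j) +
          ∑ k, resM β z g i k * covPair β g p fun x => spin x k * spin x j) := by
      funext g
      simp only [hM'def, Matrix.of_apply, mul_pairM_mul]
      have hx : ∀ x : Fin n → Bool, (resM β z g *ᵥ spin x) i * spin x j =
          ∑ k, resM β z g i k * (spin x k * spin x j) := fun x => by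
        simp only [dotProduct, Matrix.mulVec, Finset.sum_mul]
        exact Finset.sum_congr rfl fun k _ => by ring
      simp only [hx, covPair_sum, covPair_const_mul]
    rw [e]
    exact ((((Adm.res hK hm _ _).mul (aM _ _)).add ((Adm.res hK hm _ _).mul (aM _ _))).add
      (Adm.sum _ fun k => (Adm.res hK hm i k).mul (Adm.cov β p _))).const_mul _
  have key := trace_ibp c hKc β M M' aM aM'
    (fun p i j g hg => hasDerivAt_resM_mul_corrM (hK g hg) hm p i j)
  set W : (Pairs n → ℝ) → ℝ := fun g =>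
    cc * ∑ p : Pairs n, c.der p g * (M g p.1.1 p.1.2 + M g p.1.2 p.1.1) +
      c.val g * cc ^ 2 * ((resM β z g * M g).trace - (corrM β g * M g).trace -
        2 * ∑ i, resM β z g i i * M g i i) with hW
  have hrew : ∀ g, ∑ p : Pairs n, cc * (c.der p g * (M g p.1.1 p.1.2 + M g p.1.2 p.1.1) +
        c.val g * (M' p g p.1.1 p.1.2 + M' p g p.1.2 p.1.1)) =
      W g + c.val g * (n * (β ^ 2 * (resTr β z g + 1) * resCorr β z g)) := fun g => by
    have hcov : ∀ p : Pairs n,
        covPair β g p (fun x => (resM β z g *ᵥ spin x) p.1.1 * spin x p.1.2) +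
          covPair β g p (fun x => (resM β z g *ᵥ spin x) p.1.2 * spin x p.1.1) =
        M g p.1.1 p.1.1 + M g p.1.2 p.1.2 -
          corrM β g p.1.1 p.1.2 * (M g p.1.1 p.1.2 + M g p.1.2 p.1.1) := fun p => by
      have hp : ∀ i j : Fin n, ∀ x : Fin n → Bool, spin x i * spin x j * spin x j = spin x i :=
        fun i j x => by rw [mul_assoc, spin_mul_self, mul_one]
      have h1 : ∀ x : Fin n → Bool, (resM β z g *ᵥ spin x) p.1.1 * spin x p.1.2 * pairSpin p x =
          (resM β z g *ᵥ spin x) p.1.1 * spin x p.1.1 := fun x => by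
        rw [pairSpin, mul_assoc]; congr 1
        rw [mul_comm (spin x p.1.1), ← mul_assoc, spin_mul_self, one_mul]
      have h2 : ∀ x : Fin n → Bool, (resM β z g *ᵥ spin x) p.1.2 * spin x p.1.1 * pairSpin p x =
          (resM β z g *ᵥ spin x) p.1.2 * spin x p.1.2 := fun x => by
        rw [pairSpin, mul_assoc]; congr 1
        rw [← mul_assoc, spin_mul_self, one_mul]
      have h3 : gibbsMean β g (pairSpin p) = corrM β g p.1.1 p.1.2 := rfl
      simp only [covPair, h1, h2, h3, hMdef, mul_corrM_apply]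
      ring
    have h4 : ∑ p : Pairs n, (M g p.1.1 p.1.1 + M g p.1.2 p.1.2 -
          corrM β g p.1.1 p.1.2 * (M g p.1.1 p.1.2 + M g p.1.2 p.1.1)) =
        n * (M g).trace - (corrM β g * M g).trace := by
      have hsy : ∀ i j, corrM β g i j = corrM β g j i := fun i j =>
        congrFun (congrFun (corrM_transpose β g) j) i
      have h := two_mul_sum_pairs (fun i j => M g i i + M g j j -
          corrM β g i j * (M g i j + M g j i)) (fun i j => by rw [hsy i j]; ring)
      have e1 : ∑ i, ∑ j, corrM β g i j * M g i j = (corrM β g * M g).trace := by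
        rw [Finset.sum_comm]
        simp only [Matrix.trace, Matrix.diag, Matrix.mul_apply]
        exact Finset.sum_congr rfl fun i _ => Finset.sum_congr rfl fun j _ => by rw [hsy j i]
      have e2 : ∑ i, ∑ j, corrM β g i j * M g j i = (corrM β g * M g).trace := by
        simp [Matrix.trace, Matrix.mul_apply]
      have e3 : ∑ i : Fin n, ∑ _j : Fin n, M g i i = n * (M g).trace := by
        simp [Matrix.trace, Finset.mul_sum]
      have e4 : ∑ _i : Fin n, ∑ j : Fin n, M g j j = n * (M g).trace := by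
        simp [Matrix.trace]
      simp only [mul_add, Finset.sum_add_distrib, Finset.sum_sub_distrib, e1, e2, e3, e4,
        corrM_self, one_mul] at h
      simp only [mul_add, Finset.sum_add_distrib, Finset.sum_sub_distrib]
      linarith
    calc _ = cc * ∑ p : Pairs n, c.der p g * (M g p.1.1 p.1.2 + M g p.1.2 p.1.1) +
          c.val g * cc ^ 2 *
            (∑ p : Pairs n, ((resM β z g * pairM p * M g) p.1.1 p.1.2 +
              (resM β z g * pairM p * M g) p.1.2 p.1.1) +
            ∑ p : Pairs n,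
              (covPair β g p (fun x => (resM β z g *ᵥ spin x) p.1.1 * spin x p.1.2) +
                covPair β g p (fun x => (resM β z g *ᵥ spin x) p.1.2 * spin x p.1.1))) := by
          simp only [hM'def, Matrix.of_apply, Finset.mul_sum, ← Finset.sum_add_distrib]
          exact Finset.sum_congr rfl fun p _ => by ring
      _ = _ := by
          rw [pair_symm_sum _ _ (resM_comm β z g), Finset.sum_congr rfl fun p _ => hcov p, h4,
            hW, resTr, resCorr, ← hc2]
          simp only [hMdef]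
          field_simp; ring
  rw [← hcc, integral_congr_ae (ae_of_all _ hrew)] at key
  have hlhs : ∀ g, c.val g * (coupM β g * M g).trace =
      c.val g * (n * (z * resCorr β z g - 1)) := fun g => by
    by_cases hg : g ∈ K
    · congr 1
      have h := congrArg (fun X => (X * corrM β g).trace) ((hK g hg).mul_resM hm)
      simp only [Matrix.sub_mul, Matrix.smul_mul, Matrix.one_mul, Matrix.mul_assoc,
        Matrix.trace_sub, Matrix.trace_smul, trace_corrM, smul_eq_mul] at h
      rw [resCorr, hMdef]; field_simp; linarith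
    · simp [c.zero g hg]
  rw [integral_congr_ae (ae_of_all _ hlhs)] at key
  have aT : Adm K (resTr β z) := by
    unfold resTr Matrix.trace; simp only [Matrix.diag, div_eq_inv_mul]
    exact (Adm.sum _ fun i => Adm.res hK hm i i).const_mul _
  have aR : Adm K (resCorr β z) := by
    unfold resCorr Matrix.trace; simp only [Matrix.diag, div_eq_inv_mul]
    exact (Adm.sum _ fun i => aM i i).const_mul _
  have aW : Integrable W (disorderLaw n) := by
    refine Integrable.add ((integrable_finsetSum _ fun (p : Pairs n) _ =>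
      integrable_cut_der_mul c hKc p ((aM _ _).add (aM _ _))).const_mul _) ?_
    simp only [mul_assoc, Matrix.trace, Matrix.diag]
    refine integrable_cut_mul c hKc (Adm.const_mul _ ((Adm.sub ?_ ?_).sub
      ((Adm.sum _ fun i => (Adm.res hK hm i i).mul (aM i i)).const_mul 2)))
    · simp only [Matrix.mul_apply]
      exact Adm.sum _ fun i => Adm.sum _ fun j => (Adm.res hK hm i j).mul (aM j i)
    · simp only [Matrix.mul_apply]
      exact Adm.sum _ fun i => Adm.sum _ fun j => (Adm.gibbs β _).mul (aM j i)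
  have aQ : Adm K fun g => (n : ℝ) * (β ^ 2 * (resTr β z g + 1) * resCorr β z g) :=
    ((((aT.add (Adm.const 1)).const_mul _)).mul aR).const_mul _
  rw [integral_add aW (integrable_cut_mul c hKc aQ)] at key
  have e' : ∫ g, c.val g * (resCorr β z g * (z - β ^ 2 - β ^ 2 * resTr β z g) - 1) ∂disorderLaw n =
      (n : ℝ)⁻¹ * ∫ g, W g ∂disorderLaw n := by
    have h1 : ∀ g, c.val g * (resCorr β z g * (z - β ^ 2 - β ^ 2 * resTr β z g) - 1) = (n : ℝ)⁻¹ *
        (c.val g * (n * (z * resCorr β z g - 1)) -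
          c.val g * (n * (β ^ 2 * (resTr β z g + 1) * resCorr β z g))) :=
      fun g => by field_simp; ring
    rw [integral_congr_ae (ae_of_all _ h1), integral_const_mul, integral_sub
      (integrable_cut_mul c hKc (((aR.const_mul z).sub (Adm.const 1)).const_mul _))
      (integrable_cut_mul c hKc aQ)]
    rw [key]; ring
  rw [e', ← integral_const_mul]
  have hcc0 : 0 ≤ cc := div_nonneg hβ (Real.sqrt_nonneg _)
  refine abs_integral_le_bound fun g => ?_
  by_cases hg : g ∈ K
  swap
  · simp only [hW, c.zero g hg, fun p => c.zero_der p g hg, zero_mul, Finset.sum_const_zero,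
      mul_zero, add_zero, abs_zero]
    positivity
  have hgd := hK g hg
  have hfM : m ^ 2 * frob (M g) ≤ 2 * e ^ 2 * (n:ℝ) ^ 2 := by
    refine (hgd.frob_res_mul hm (corrM β g)).trans ?_
    rw [frob_corrM hn]; nlinarith [hs g hg, sq_nonneg (n:ℝ)]
  have h1 : |∑ p : Pairs n, c.der p g * (M g p.1.1 p.1.2 + M g p.1.2 p.1.1)| ≤
      A * (3 * n * e / m) := by
    refine abs_sum_mul_le _ _ hA (by positivity) (hAK g hg) ((sum_pairs_sq_le _).trans ?_)
    rw [div_pow, le_div_iff₀ (by positivity)]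
    nlinarith [frob_nonneg (M g)]
  have hq := fun x => hgd.quad_bounds hm (spin x)
  have htGM : 0 ≤ (resM β z g * M g).trace ∧ (resM β z g * M g).trace ≤ n / m ^ 2 := by
    rw [hMdef, ← Matrix.mul_assoc, trace_mul_corrM]
    have hx : ∀ x, spin x ⬝ᵥ (resM β z g * resM β z g) *ᵥ spin x =
        (resM β z g *ᵥ spin x) ⬝ᵥ (resM β z g *ᵥ spin x) := fun x => by
      rw [← Matrix.mulVec_mulVec, Matrix.dotProduct_mulVec, ← Matrix.mulVec_transpose,
        resM_transpose]
    refine ⟨(gibbsMean_const β g 0).symm.trans_le (gibbsMean_mono β g fun x => by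
      rw [hx]; exact dotProduct_self_star_nonneg _), ?_⟩
    refine (gibbsMean_mono β g (h := fun _ => n / m ^ 2) fun x => ?_).trans
      (gibbsMean_const β g _).le
    rw [hx, le_div_iff₀ (by positivity)]
    linarith [(hq x).2.2, dot_spin_self x]
  have htSM : |(corrM β g * M g).trace| ≤ 2 * e ^ 2 * (n:ℝ) ^ 2 / m := by
    have ev : (corrM β g * M g).trace =
        ∑ j, (fun i => corrM β g i j) ⬝ᵥ resM β z g *ᵥ (fun i => corrM β g i j) := by
      rw [hMdef]
      simp only [Matrix.trace, Matrix.diag, Matrix.mul_apply, dotProduct, Matrix.mulVec]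
      refine Finset.sum_congr rfl fun j _ => Finset.sum_congr rfl fun i _ => ?_
      congr 1; exact congrFun (congrFun (corrM_transpose β g) i) j
    have hb := fun j : Fin n => hgd.quad_bounds hm (fun i => corrM β g i j)
    rw [ev, abs_of_nonneg (Finset.sum_nonneg fun j _ => (hb j).1), le_div_iff₀ hm, mul_comm,
      Finset.mul_sum]
    refine (Finset.sum_le_sum fun j _ => (hb j).2.1).trans ?_
    have : ∑ j, (fun i => corrM β g i j) ⬝ᵥ (fun i => corrM β g i j) = frob (corrM β g) := by
      rw [← frob_transpose (corrM β g)]; simp [frob, dotProduct, pow_two]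
    rw [this, frob_corrM hn]; nlinarith [hs g hg, sq_nonneg (n:ℝ)]
  have hdiag : |∑ i, resM β z g i i * M g i i| ≤ n / m ^ 2 := by
    set u : (Fin n → Bool) → Fin n → ℝ := fun x i => (resM β z g *ᵥ spin x) i
    have hMi : ∀ i, |M g i i| ≤ gibbsMean β g fun x => (m * u x i ^ 2 + 1 / m) / 2 := fun i => by
      rw [hMdef]; simp only [mul_corrM_apply]
      refine abs_gibbsMean_le β g fun x => ?_
      rw [abs_mul, abs_spin, mul_one]
      have h0 : 0 ≤ (m * |u x i| - 1) ^ 2 / m := by positivity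
      have e0 : (m * |u x i| - 1) ^ 2 / m = m * |u x i| ^ 2 + 1 / m - 2 * |u x i| := by
        field_simp; ring
      rw [← sq_abs (u x i)]
      change |u x i| ≤ _
      linarith
    calc |∑ i, resM β z g i i * M g i i| ≤ ∑ i, 1 / m * |M g i i| :=
          (Finset.abs_sum_le_sum_abs _ _).trans (Finset.sum_le_sum fun i _ => by
            rw [abs_mul, abs_of_nonneg (hgd.diag_bounds hm i).1]
            refine mul_le_mul_of_nonneg_right ?_ (abs_nonneg _)
            rw [le_div_iff₀ hm, mul_comm]; exact (hgd.diag_bounds hm i).2)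
      _ ≤ ∑ i, 1 / m * gibbsMean β g fun x => (m * u x i ^ 2 + 1 / m) / 2 :=
          Finset.sum_le_sum fun i _ => mul_le_mul_of_nonneg_left (hMi i) (by positivity)
      _ = 1 / m * gibbsMean β g fun x => ∑ i, (m * u x i ^ 2 + 1 / m) / 2 := by
          rw [← Finset.mul_sum, gibbsMean_sum]
      _ ≤ 1 / m * gibbsMean β g fun _ => (n : ℝ) / m := by
          refine mul_le_mul_of_nonneg_left (gibbsMean_mono β g fun x => ?_) (by positivity)
          have h3 := (hq x).2.2
          rw [dot_spin_self] at h3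
          simp only [← Finset.sum_div, Finset.sum_add_distrib, ← Finset.mul_sum, Finset.sum_const,
            Finset.card_univ, Fintype.card_fin, nsmul_eq_mul, pow_two (u x _)]
          rw [show ∑ i, u x i * u x i =
            (resM β z g *ᵥ spin x) ⬝ᵥ (resM β z g *ᵥ spin x) from rfl]
          rw [le_div_iff₀ hm]
          field_simp
          linarith
      _ = n / m ^ 2 := by rw [gibbsMean_const]; field_simp
  have h2 : |(resM β z g * M g).trace - (corrM β g * M g).trace -
      2 * ∑ i, resM β z g i i * M g i i| ≤ 3 * (n / m ^ 2) + 2 * e ^ 2 * (n:ℝ) ^ 2 / m := by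
    rw [abs_le] at htSM hdiag ⊢
    constructor <;> linarith [htGM.1, htGM.2]
  rw [abs_mul, abs_of_pos (inv_pos.2 hn0), hW]
  refine (mul_le_mul_of_nonneg_left (abs_add_le _ _) (inv_pos.2 hn0).le).trans ?_
  rw [abs_mul, abs_mul, abs_mul, abs_of_nonneg hcc0, abs_of_nonneg (sq_nonneg cc)]
  calc (n:ℝ)⁻¹ * (cc * _ + |c.val g| * cc ^ 2 * _)
      ≤ (n:ℝ)⁻¹ * (cc * (A * (3 * n * e / m)) +
          1 * cc ^ 2 * (3 * (n / m ^ 2) + 2 * e ^ 2 * (n:ℝ) ^ 2 / m)) := by
        gcongr; exact hPK g hg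
    _ = _ := by
        rw [← hc2]; field_simp

end Vale.Agent.P150
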