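import Vale.Agent.P150.Entropy

/-!
From the general Ising bounds to the heat-bath dynamics of the model: gap and mixing.
-/

namespace Vale.Agent.P150

open MeasureTheory Real Function Matrix Filter Topology

attribute [local instance] Matrix.linftyOpNormedRing Matrix.linftyOpNormedAlgebra

variable {n : ℕ} (β : ℝ) (g : Pairs n → ℝ)

lemma isW_coupM (x : Fin n → Bool) : isW (coupM β g) 0 x = Real.exp (energy β g x) := by
  rw [isW, energy_eq, zero_dotProduct, add_zero]

lemma gibbsMean_eq_isMean (f : (Fin n → Bool) → ℝ) :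
    gibbsMean β g f = isMean (coupM β g) 0 f := by
  simp only [gibbsMean, gibbs, isMean, isZ, isW_coupM, partitionFn]

lemma coupM_diag (i : Fin n) : coupM β g i i = 0 := by
  simp [coupM, symDisorder_self]

lemma generator_mulVec_eq (f : (Fin n → Bool) → ℝ) (x : Fin n → Bool) :
    (generator β g *ᵥ f) x = -isL (coupM β g) 0 f x := by
  rw [generator_mulVec, isL, ← Finset.sum_neg_distrib]
  refine Finset.sum_congr rfl fun i _ => ?_
  have hset : (Finset.univ.filter fun y : Fin n → Bool => ∀ j, j ≠ i → y j = x j) =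
      {update x i true, update x i false} := by
    ext y
    simp only [Finset.mem_filter, Finset.mem_univ, true_and, Finset.mem_insert,
      Finset.mem_singleton]
    constructor
    · intro h
      cases hy : y i
      · right; funext j; by_cases hj : j = i
        · subst hj; simp [hy]
        · simp [hj, h j hj]
      · left; funext j; by_cases hj : j = i
        · subst hj; simp [hy]
        · simp [hj, h j hj]
    · rintro (rfl | rfl) j hj <;> simp [hj]
  have hne : update x i true ≠ update x i false := fun h => by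
    simpa using congrFun h i
  simp only [heatBath, of_apply, ite_mul, zero_mul]
  rw [← Finset.sum_filter, hset, Finset.sum_pair hne]
  have hs : ∀ b, spin (update x i b) i = sgn b := fun b => by simp [spin, sgn]
  have hT : isT (coupM β g) 0 i x = Real.tanh (localField β g x i) := by
    simp [isT, localField_eq]
  have hc := (Real.cosh_pos (localField β g x i)).ne'
  rw [hs, hs, mul_comm (sgn true), mul_comm (sgn false), exp_mul_sgn, exp_mul_sgn]
  simp only [isP, hT, isD, spin, sgn, if_true, Bool.false_eq_true, if_false]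
  cases hb : x i
  · have : update x i false = x := by rw [← hb]; exact update_eq_self i x
    rw [this]; simp; field_simp; ring
  · have : update x i true = x := by rw [← hb]; exact update_eq_self i x
    rw [this]; simp; field_simp; ring

lemma dirichletForm_eq_isE (f : (Fin n → Bool) → ℝ) :
    dirichletForm β g f = ∑ i, isE (coupM β g) 0 i f := by
  have h : dirichletForm β g f = isMean (coupM β g) 0 fun x => f x * isL (coupM β g) 0 f x := by
    rw [← gibbsMean_eq_isMean]
    simp only [dirichletForm, gibbsMean, generator_mulVec_eq, ← Finset.sum_neg_distrib]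
    exact Finset.sum_congr rfl fun x _ => by ring
  rw [h, isMean_mul_isL (coupM_transpose β g) (coupM_diag β g)]
  exact Finset.sum_congr rfl fun i _ => by simp only [isE, pow_two]

lemma le_spectralGap (hn : 0 < n) {ρ : ℝ}
    (hp : ∀ f : (Fin n → Bool) → ℝ,
      ρ * isMean (coupM β g) 0 (fun x => (f x - isMean (coupM β g) 0 f) ^ 2) ≤
        ∑ i, isE (coupM β g) 0 i f) :
    ρ ≤ spectralGap β g := by
  refine le_csInf ?_ ?_
  · refine ⟨_, linObs (Pi.single ⟨0, hn⟩ 1), ?_, rfl⟩
    rw [gibbsVar_linObs]
    simp [corrM_self, single_dotProduct, Matrix.mulVec_single]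
  · rintro r ⟨f, hf, rfl⟩
    rw [le_div_iff₀ hf, dirichletForm_eq_isE]
    refine le_trans (le_of_eq ?_) (hp f)
    rw [← gibbsMean_eq_isMean, ← gibbsMean_eq_isMean]
    rfl

lemma exp_entry_nonneg {A : Matrix (Fin n → Bool) (Fin n → Bool) ℝ} (hA : ∀ x y, 0 ≤ A x y)
    (x y : Fin n → Bool) : 0 ≤ NormedSpace.exp A x y := by
  have hpow : ∀ k : ℕ, ∀ x y, 0 ≤ (A ^ k) x y := by
    intro k
    induction k with
    | zero => intro x y; simp [Matrix.one_apply]; split_ifs <;> norm_num
    | succ k ih =>
      intro x y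
      rw [pow_succ, Matrix.mul_apply]
      exact Finset.sum_nonneg fun z _ => mul_nonneg (ih x z) (hA z y)
  have hs := NormedSpace.exp_series_hasSum_exp' (𝕂 := ℝ) A
  let ev : Matrix (Fin n → Bool) (Fin n → Bool) ℝ →ₗ[ℝ] ℝ :=
    { toFun := fun M => M x y, map_add' := fun _ _ => rfl, map_smul' := fun _ _ => rfl }
  have h2 := ev.toContinuousLinearMap.hasSum hs
  exact h2.nonneg fun k => mul_nonneg (by positivity) (hpow k x y)

lemma exp_gen_nonneg {t : ℝ} (ht : 0 ≤ t) (x y : Fin n → Bool) :
    0 ≤ NormedSpace.exp (t • generator β g) x y := by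
  have e : t • generator β g = t • (∑ i, heatBath β g i) + (-(t * n)) • (1 : Matrix _ _ ℝ) := by
    rw [generator, Finset.sum_sub_distrib, smul_sub, sub_eq_add_neg]
    congr 1
    simp [← Nat.cast_smul_eq_nsmul ℝ, smul_smul]
  rw [e, Matrix.exp_add_of_commute _ _ ((Commute.one_right _).smul_right _), Matrix.mul_apply]
  refine Finset.sum_nonneg fun z _ => mul_nonneg (exp_entry_nonneg (fun a b => ?_) x z) ?_
  · rw [Matrix.smul_apply, Matrix.sum_apply]
    exact mul_nonneg ht (Finset.sum_nonneg fun i _ => heatBath_nonneg β g i a b)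
  · rw [show (-(t * n)) • (1 : Matrix (Fin n → Bool) (Fin n → Bool) ℝ) =
      Matrix.diagonal fun _ => -(t * n) by ext a b; simp [Matrix.diagonal, Matrix.one_apply],
      Matrix.exp_diagonal, Matrix.diagonal_apply]
    split_ifs
    · rw [Pi.exp_def, ← Real.exp_eq_exp_ℝ]; exact (Real.exp_pos _).le
    · exact le_rfl

lemma hasDerivAt_evolve' (f : (Fin n → Bool) → ℝ) (t : ℝ) (x : Fin n → Bool) :
    HasDerivAt (fun s => evolve β g f s x) (evolve β g (generator β g *ᵥ f) t x) t := by
  let ev : Matrix (Fin n → Bool) (Fin n → Bool) ℝ →ₗ[ℝ] ℝ :=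
    { toFun := fun M => (M *ᵥ f) x
      map_add' := fun A B => by simp [Matrix.add_mulVec]
      map_smul' := fun a A => by simp [Matrix.smul_mulVec] }
  have h := ev.toContinuousLinearMap.hasFDerivAt.comp_hasDerivAt t
    (hasDerivAt_exp_smul_const (𝕂 := ℝ) (generator β g) t)
  have hfun : ∀ M, ev.toContinuousLinearMap M = (M *ᵥ f) x := fun M => rfl
  simp only [hfun, Function.comp_def] at h
  exact h.congr_deriv (congrFun (Matrix.mulVec_mulVec f _ (generator β g)).symm x)

lemma evolve_one (t : ℝ) (x : Fin n → Bool) : evolve β g (fun _ => 1) t x = 1 := by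
  have h0 : generator β g *ᵥ (fun _ => (1:ℝ)) = 0 := by
    funext y; simp [generator_mulVec]
  have hd : ∀ s, HasDerivAt (fun s => evolve β g (fun _ => 1) s x) 0 s := fun s => by
    have h := hasDerivAt_evolve' β g (fun _ => 1) s x
    rw [h0] at h
    simpa [evolve] using h
  rw [is_const_of_deriv_eq_zero (fun s => (hd s).differentiableAt) (fun s => (hd s).deriv) t 0]
  simp [evolve]

lemma evolve_ge {f : (Fin n → Bool) → ℝ} {η : ℝ} (hf : ∀ x, η ≤ f x) {t : ℝ} (ht : 0 ≤ t)
    (x : Fin n → Bool) : η ≤ evolve β g f t x := by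
  have h1 := evolve_one β g t x
  calc η = η * evolve β g (fun _ => 1) t x := by rw [h1, mul_one]
    _ ≤ _ := by
        simp only [evolve, Matrix.mulVec, dotProduct, mul_one, Finset.mul_sum]
        refine Finset.sum_le_sum fun y _ => ?_
        rw [mul_comm]
        exact mul_le_mul_of_nonneg_left (hf y) (exp_gen_nonneg β g ht x y)

/-- Self-adjointness of the semigroup. -/
lemma gibbs_exp_symm (t : ℝ) (x y : Fin n → Bool) :
    gibbs β g x * NormedSpace.exp (t • generator β g) x y =
      gibbs β g y * NormedSpace.exp (t • generator β g) y x := by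
  set f : (Fin n → Bool) → ℝ := Pi.single x 1
  set h : (Fin n → Bool) → ℝ := Pi.single y 1
  set G : ℝ → ℝ := fun u => ∑ z, gibbs β g z * evolve β g f u z * evolve β g h (t - u) z
  have hG : ∀ u, HasDerivAt G 0 u := fun u => by
    have hs : ∀ z, HasDerivAt (fun u => evolve β g h (t - u) z)
        (-(generator β g *ᵥ evolve β g h (t - u)) z) u := fun z => by
      exact ((hasDerivAt_evolve β g h (t - u) z).comp u
        ((hasDerivAt_id u).const_sub t)).congr_deriv (by simp)
    refine (HasDerivAt.fun_sum fun z _ =>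
      ((hasDerivAt_evolve β g f u z).const_mul (gibbs β g z)).fun_mul (hs z)).congr_deriv ?_
    rw [Finset.sum_add_distrib]
    have h1 := generator_symm β g (evolve β g h (t - u)) (evolve β g f u)
    have e1 : ∑ z, gibbs β g z * (generator β g *ᵥ evolve β g f u) z * evolve β g h (t - u) z =
        ∑ z, gibbs β g z * evolve β g h (t - u) z * (generator β g *ᵥ evolve β g f u) z :=
      Finset.sum_congr rfl fun z _ => by ring
    rw [e1, h1, ← Finset.sum_add_distrib]
    exact Finset.sum_eq_zero fun z _ => by ring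
  have hc := is_const_of_deriv_eq_zero (fun u => (hG u).differentiableAt) (fun u => (hG u).deriv) 0 t
  simp only [G, evolve, sub_zero, sub_self, zero_smul, NormedSpace.exp_zero, Matrix.one_mulVec]
    at hc
  simp only [f, h, Matrix.mulVec_single_one, Pi.single_apply, mul_ite, ite_mul, mul_one,
    mul_zero, zero_mul, Finset.sum_ite_eq', Finset.mem_univ, if_true] at hc
  simpa [Matrix.col, Matrix.transpose_apply] using hc

/-- Entropy decay gives mixing. -/
theorem mixedAt_of_entropy {K : ℝ} (hK : 0 < K) {c : ℝ}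
    (hc : ∀ v : Fin n → ℝ, |v ⬝ᵥ coupM β g *ᵥ v| ≤ c * (v ⬝ᵥ v))
    (hE : ∀ f : (Fin n → Bool) → ℝ, (∀ x, 0 < f x) →
      isMean (coupM β g) 0 (fun x => f x * Real.log (f x)) -
          isMean (coupM β g) 0 f * Real.log (isMean (coupM β g) 0 f) ≤
        K * ∑ i, isMean (coupM β g) 0 (fun x => (1 - isT (coupM β g) 0 i x ^ 2) *
          (isD f i x * isD (fun y => Real.log (f y)) i x)))
    {t : ℝ} (ht : 0 ≤ t) (hT : 64 * ((n : ℝ) * (c + 1)) ≤ Real.exp (t / K)) :
    MixedAt β g t := by
  intro x
  set μ := gibbs β g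
  have hμ : ∀ y, 0 < μ y := gibbs_pos β g
  have hμ1 : ∀ y, μ y ≤ 1 := fun y =>
    (Finset.single_le_sum (fun z _ => (hμ z).le) (Finset.mem_univ y)).trans (sum_gibbs β g).le
  set f0 : (Fin n → Bool) → ℝ := fun y => 1 / 2 + if y = x then 1 / (2 * μ x) else 0
  have hf0 : ∀ y, 1 / 2 ≤ f0 y := fun y => by
    have := hμ x
    simp only [f0]; split_ifs <;> simp
    positivity
  set F : ℝ → (Fin n → Bool) → ℝ := fun s => evolve β g f0 s with hFdef
  have hFpos : ∀ s, 0 ≤ s → ∀ y, 0 < F s y := fun s hs y =>
    lt_of_lt_of_le (by norm_num) (evolve_ge β g hf0 hs y)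
  have hm0 : gibbsMean β g f0 = 1 := by
    simp only [gibbsMean, f0, mul_add, Finset.sum_add_distrib, mul_ite, mul_zero,
      Finset.sum_ite_eq', Finset.mem_univ, if_true, ← Finset.sum_mul, sum_gibbs]
    field_simp [μ, (hμ x).ne']; ring
  have hmean : ∀ s, gibbsMean β g (F s) = 1 := fun s => (gibbsMean_evolve β g f0 s).trans hm0
  set ent : ℝ → ℝ := fun s => ∑ y, μ y * (F s y * Real.log (F s y)) with hent
  set D : ℝ → ℝ := fun s =>
    -∑ i, isMean (coupM β g) 0 (fun z => (1 - isT (coupM β g) 0 i z ^ 2) *
      (isD (F s) i z * isD (fun y => Real.log (F s y)) i z))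
  have hd : ∀ s, 0 ≤ s → HasDerivAt ent (D s) s := fun s hs => by
    refine (HasDerivAt.fun_sum fun y _ => ((hasDerivAt_evolve β g f0 s y).fun_mul
      ((hasDerivAt_evolve β g f0 s y).log (hFpos s hs y).ne')).const_mul (μ y)).congr_deriv ?_
    have h0 : isMean (coupM β g) 0 (isL (coupM β g) 0 (F s)) = 0 := by
      have := isMean_mul_isL (h := 0) (coupM_transpose β g) (coupM_diag β g) (F s) (fun _ => 1)
      simpa [isD, isMean_const] using this
    have h1 := isMean_mul_isL (h := 0) (coupM_transpose β g) (coupM_diag β g) (F s)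
      (fun y => Real.log (F s y))
    have e : D s = -(isMean (coupM β g) 0 fun y => Real.log (F s y) * isL (coupM β g) 0 (F s) y) -
        isMean (coupM β g) 0 (isL (coupM β g) 0 (F s)) := by
      rw [h0, h1, sub_zero]
      simp only [D]
      congr 1
      exact Finset.sum_congr rfl fun i _ => by congr 1; funext z; ring
    rw [e, ← gibbsMean_eq_isMean, ← gibbsMean_eq_isMean]
    simp only [gibbsMean, ← Finset.sum_neg_distrib, ← Finset.sum_sub_distrib]
    refine Finset.sum_congr rfl fun y _ => ?_
    rw [generator_mulVec_eq]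
    have := (hFpos s hs y).ne'
    simp only [hFdef] at this ⊢
    field_simp
    simp only [μ]; ring
  have hineq : ∀ s, 0 ≤ s → D s ≤ -(ent s / K) := fun s hs => by
    have h := hE (F s) (hFpos s hs)
    rw [← gibbsMean_eq_isMean, ← gibbsMean_eq_isMean, hmean s, Real.log_one, mul_zero,
      sub_zero] at h
    have h' : ent s ≤ K * -D s := by
      simp only [D, neg_neg]; exact h
    rw [le_neg, div_le_iff₀ hK]; linarith
  have hanti : AntitoneOn (fun s => ent s * Real.exp (s / K)) (Set.Ici 0) := by
    have hd' : ∀ s, 0 ≤ s → HasDerivAt (fun s => ent s * Real.exp (s / K))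
        (D s * Real.exp (s / K) + ent s * (Real.exp (s / K) * (1 / K))) s := fun s hs =>
      (hd s hs).fun_mul (((hasDerivAt_id s).div_const K).exp)
    refine antitoneOn_of_hasDerivWithinAt_nonpos (convex_Ici 0)
      (fun s hs => (hd' s hs).continuousAt.continuousWithinAt)
      (fun s hs => (hd' s (interior_subset hs)).hasDerivWithinAt) fun s hs => ?_
    have := mul_le_mul_of_nonneg_right (hineq s (interior_subset (s := Set.Ici (0:ℝ)) hs))
      (Real.exp_pos (s / K)).le
    have e : -(ent s / K) * Real.exp (s / K) = -(ent s * (Real.exp (s / K) * (1 / K))) := by ring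
    linarith
  have h01 := hanti Set.self_mem_Ici (Set.mem_Ici.2 ht) ht
  simp only [zero_div, Real.exp_zero, mul_one] at h01
  -- initial entropy
  have hlb : ∀ y, Real.exp (-((n : ℝ) * (c + 1))) ≤ μ y := by
    intro y
    have hH : ∀ z : Fin n → Bool, |energy β g z| ≤ c * n / 2 := fun z => by
      have := hc (spin z)
      rw [dot_spin_self] at this
      rw [energy_eq, abs_div, abs_two]
      linarith
    have hZ : partitionFn β g ≤ Real.exp ((n : ℝ) + c * n / 2) := by
      calc partitionFn β g ≤ ∑ _z : Fin n → Bool, Real.exp (c * n / 2) :=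
            Finset.sum_le_sum fun z _ => Real.exp_le_exp.2 (abs_le.1 (hH z)).2
        _ = 2 ^ n * Real.exp (c * n / 2) := by simp
        _ ≤ Real.exp (n : ℝ) * Real.exp (c * n / 2) := by
            refine mul_le_mul_of_nonneg_right ?_ (Real.exp_pos _).le
            calc (2:ℝ) ^ n ≤ Real.exp 1 ^ n :=
                  pow_le_pow_left₀ (by norm_num) (by linarith [Real.add_one_le_exp (1:ℝ)]) n
              _ = _ := by rw [← Real.exp_nat_mul, mul_one]
        _ = _ := (Real.exp_add _ _).symm
    simp only [μ, gibbs]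
    rw [le_div_iff₀ (partitionFn_pos β g)]
    calc Real.exp (-((n : ℝ) * (c + 1))) * partitionFn β g
        ≤ Real.exp (-((n : ℝ) * (c + 1))) * Real.exp ((n : ℝ) + c * n / 2) :=
          mul_le_mul_of_nonneg_left hZ (Real.exp_pos _).le
      _ ≤ Real.exp (energy β g y) := by
          rw [← Real.exp_add, Real.exp_le_exp]; linarith [(abs_le.1 (hH y)).1]
  have hent0 : ent 0 ≤ (n : ℝ) * (c + 1) := by
    have hle : ∀ y, Real.log (f0 y) ≤ (n : ℝ) * (c + 1) := fun y => by
      have h1 : f0 y ≤ 1 / μ x := by
        have h1' : (1:ℝ) ≤ 1 / μ x := (one_le_div (hμ x)).2 (hμ1 x)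
        have h2 : 1 / (2 * μ x) = (1 / μ x) / 2 := by ring
        simp only [f0]; split_ifs
        · linarith
        · linarith
      refine (Real.log_le_log (lt_of_lt_of_le (by norm_num) (hf0 y)) h1).trans ?_
      rw [one_div, Real.log_inv, neg_le]
      calc -((n : ℝ) * (c + 1)) = Real.log (Real.exp (-((n : ℝ) * (c + 1)))) := (Real.log_exp _).symm
        _ ≤ _ := Real.log_le_log (Real.exp_pos _) (hlb x)
    calc ent 0 = ∑ y, μ y * f0 y * Real.log (f0 y) := by
          simp [hent, hFdef, evolve, mul_assoc]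
      _ ≤ ∑ y, μ y * f0 y * ((n : ℝ) * (c + 1)) := Finset.sum_le_sum fun y _ =>
          mul_le_mul_of_nonneg_left (hle y) (mul_nonneg (hμ y).le (by linarith [hf0 y]))
      _ = _ := by rw [← Finset.sum_mul, show ∑ y, μ y * f0 y = 1 from hm0, one_mul]
  have hentT : ent t ≤ 1 / 64 := by
    have h := h01.trans hent0
    rcases le_or_gt (ent t) 0 with h0 | h0
    · linarith
    · have := mul_le_mul_of_nonneg_left hT h0.le
      have hp : 0 < (n : ℝ) * (c + 1) := (mul_pos h0 (Real.exp_pos _)).trans_le h
      nlinarith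
  -- Hellinger bound
  set A := ∑ y, μ y * |F t y - 1| with hA
  have hAb : A ^ 2 ≤ ent t * 4 := by
    set u : (Fin n → Bool) → ℝ := fun y => Real.sqrt (μ y) * |Real.sqrt (F t y) - 1|
    set w : (Fin n → Bool) → ℝ := fun y => Real.sqrt (μ y) * (Real.sqrt (F t y) + 1)
    have hsq : ∀ y, Real.sqrt (F t y) ^ 2 = F t y := fun y => Real.sq_sqrt (hFpos t ht y).le
    have hsm : ∀ y, Real.sqrt (μ y) ^ 2 = μ y := fun y => Real.sq_sqrt (hμ y).le
    have e : A = ∑ y, u y * w y := Finset.sum_congr rfl fun y _ => by
      simp only [u, w]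
      rw [mul_mul_mul_comm, ← pow_two, hsm]
      have h0 : 0 ≤ Real.sqrt (F t y) + 1 := by positivity
      rw [← abs_of_nonneg h0, ← abs_mul]
      congr 2
      linear_combination (-(1:ℝ)) * hsq y
    rw [e]
    refine (Finset.sum_mul_sq_le_sq_mul_sq _ _ _).trans ?_
    have hu : ∑ y, u y ^ 2 ≤ ent t := by
      have key : ∀ y, u y ^ 2 ≤ μ y * (F t y * Real.log (F t y)) - μ y * F t y + μ y := fun y => by
        simp only [u, mul_pow, hsm, sq_abs]
        have hr0 := Real.sqrt_pos.2 (hFpos t ht y)
        have h1 := Real.log_le_sub_one_of_pos (inv_pos.2 hr0)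
        rw [Real.log_inv] at h1
        have h2 : Real.log (F t y) = 2 * Real.log (Real.sqrt (F t y)) := by
          rw [Real.log_sqrt (hFpos t ht y).le]; ring
        set r := Real.sqrt (F t y)
        have h3 : r ^ 2 - r ≤ r ^ 2 * Real.log r := by
          have := mul_le_mul_of_nonneg_left h1 (sq_nonneg r)
          have e2 : r ^ 2 * (r⁻¹ - 1) = r - r ^ 2 := by field_simp
          linarith
        have h4 : (r - 1) ^ 2 ≤ F t y * Real.log (F t y) - F t y + 1 := by
          rw [h2, ← hsq y]
          linarith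
        linarith [mul_le_mul_of_nonneg_left h4 (hμ y).le]
      refine (Finset.sum_le_sum fun y _ => key y).trans (le_of_eq ?_)
      rw [Finset.sum_add_distrib, Finset.sum_sub_distrib]
      have := hmean t
      simp only [gibbsMean] at this
      simp only [μ, this, sum_gibbs, hent]; ring
    have hw : ∑ y, w y ^ 2 ≤ 4 := by
      calc ∑ y, w y ^ 2 ≤ ∑ y, (2 * (μ y * F t y) + 2 * μ y) := Finset.sum_le_sum fun y _ => by
            simp only [w, mul_pow, hsm]
            have : (Real.sqrt (F t y) + 1) ^ 2 ≤ 2 * F t y + 2 := by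
              linarith [sq_nonneg (Real.sqrt (F t y) - 1), hsq y]
            linarith [mul_le_mul_of_nonneg_left this (hμ y).le]
        _ = _ := by
            rw [Finset.sum_add_distrib, ← Finset.mul_sum, ← Finset.mul_sum,
              show ∑ y, μ y * F t y = 1 from hmean t, show ∑ y, μ y = 1 from sum_gibbs β g]
            norm_num
    have hu0 : 0 ≤ ∑ y, u y ^ 2 := Finset.sum_nonneg fun _ _ => sq_nonneg _
    exact mul_le_mul hu hw (Finset.sum_nonneg fun _ _ => sq_nonneg _) (hu0.trans hu)
  have hA4 : A ≤ 1 / 4 := by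
    have : A ^ 2 ≤ (1 / 4) ^ 2 := by linarith
    exact (abs_le_of_sq_le_sq' this (by norm_num)).2
  -- back to total variation
  have hF : ∀ y, μ y * (F t y - 1) =
      (NormedSpace.exp (t • generator β g) x y - μ y) / 2 := fun y => by
    have h1 : F t y = 1 / 2 + NormedSpace.exp (t • generator β g) y x * (1 / (2 * μ x)) := by
      have h2 := evolve_one β g t y
      simp only [evolve, Matrix.mulVec, dotProduct, mul_one] at h2
      simp only [hFdef, evolve, Matrix.mulVec, dotProduct, f0, mul_add, mul_ite, mul_zero,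
        Finset.sum_add_distrib, Finset.sum_ite_eq', Finset.mem_univ, if_true, ← Finset.sum_mul,
        h2, one_mul]
    have hs := gibbs_exp_symm β g t x y
    rw [h1]
    simp only [μ] at *
    field_simp [(gibbs_pos β g x).ne']
    linear_combination (-(1:ℝ)) * hs
  have e : A = (∑ y, |NormedSpace.exp (t • generator β g) x y - μ y|) / 2 := by
    rw [hA, Finset.sum_div]
    refine Finset.sum_congr rfl fun y _ => ?_
    rw [← abs_of_pos (hμ y), ← abs_mul, hF y, abs_div, abs_two, abs_of_pos (hμ y)]
  rw [← e]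
  exact hA4

end Vale.Agent.P150
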