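import Mathlib

/-!
The zero-field Sherrington-Kirkpatrick model and its continuous-time heat-bath dynamics.
-/

namespace Vale.Agent.P150

open MeasureTheory ProbabilityTheory Matrix

/-- The index set of the disorder: pairs `(i, j)` with `i < j`. -/
abbrev Pairs (n : ℕ) : Type := {p : Fin n × Fin n // p.1 < p.2}

/-- The law of the disorder: independent standard Gaussians indexed by pairs `i < j`. -/
noncomputable def disorderLaw (n : ℕ) : Measure (Pairs n → ℝ) :=
  Measure.pi fun _ : Pairs n => gaussianReal 0 1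

/-- The spin value `1` or `-1` of site `i`. -/
noncomputable def spin {n : ℕ} (x : Fin n → Bool) (i : Fin n) : ℝ := if x i then 1 else -1

/-- The exponent of the Gibbs weight: `β / √n * ∑ (i < j), g i j * x i * x j`. -/
noncomputable def energy {n : ℕ} (β : ℝ) (g : Pairs n → ℝ) (x : Fin n → Bool) : ℝ :=
  β / Real.sqrt n * ∑ p : Pairs n, g p * (spin x p.1.1 * spin x p.1.2)

/-- The partition function. -/
noncomputable def partitionFn {n : ℕ} (β : ℝ) (g : Pairs n → ℝ) : ℝ :=
  ∑ x : Fin n → Bool, Real.exp (energy β g x)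

/-- The Gibbs probability of a configuration. -/
noncomputable def gibbs {n : ℕ} (β : ℝ) (g : Pairs n → ℝ) (x : Fin n → Bool) : ℝ :=
  Real.exp (energy β g x) / partitionFn β g

/-- The symmetric disorder matrix `g i j = g j i`, with zero diagonal. -/
noncomputable def symDisorder {n : ℕ} (g : Pairs n → ℝ) (i j : Fin n) : ℝ :=
  if h : i < j then g ⟨(i, j), h⟩ else if h' : j < i then g ⟨(j, i), h'⟩ else 0

/-- The local field `h i = β / √n * ∑ (j ≠ i), g i j * x j`. -/
noncomputable def localField {n : ℕ} (β : ℝ) (g : Pairs n → ℝ) (x : Fin n → Bool) (i : Fin n) :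
    ℝ :=
  β / Real.sqrt n * ∑ j : Fin n, symDisorder g i j * spin x j

/-- The transition matrix of resampling the spin at site `i` given the other spins: to a
configuration `y` agreeing with `x` off `i` it gives mass
`exp (y i * h i) / (2 * cosh (h i))`. -/
noncomputable def heatBath {n : ℕ} (β : ℝ) (g : Pairs n → ℝ) (i : Fin n) :
    Matrix (Fin n → Bool) (Fin n → Bool) ℝ :=
  Matrix.of fun x y => if ∀ j, j ≠ i → y j = x j then
    Real.exp (spin y i * localField β g x i) / (2 * Real.cosh (localField β g x i)) else 0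

/-- The generator `∑ i, (Q i - 1)` of the heat-bath dynamics with rate-one clocks. -/
noncomputable def generator {n : ℕ} (β : ℝ) (g : Pairs n → ℝ) :
    Matrix (Fin n → Bool) (Fin n → Bool) ℝ :=
  ∑ i : Fin n, (heatBath β g i - 1)

/-- Gibbs expectation. -/
noncomputable def gibbsMean {n : ℕ} (β : ℝ) (g : Pairs n → ℝ) (f : (Fin n → Bool) → ℝ) : ℝ :=
  ∑ x, gibbs β g x * f x

/-- Gibbs variance. -/
noncomputable def gibbsVar {n : ℕ} (β : ℝ) (g : Pairs n → ℝ) (f : (Fin n → Bool) → ℝ) : ℝ :=
  ∑ x, gibbs β g x * (f x - gibbsMean β g f) ^ 2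

/-- The Dirichlet form `⟨f, -L f⟩` in `L²` of the Gibbs measure. -/
noncomputable def dirichletForm {n : ℕ} (β : ℝ) (g : Pairs n → ℝ) (f : (Fin n → Bool) → ℝ) : ℝ :=
  -∑ x, gibbs β g x * f x * (generator β g *ᵥ f) x

/-- The spectral gap of `-L`: the least ratio of Dirichlet form to variance. -/
noncomputable def spectralGap {n : ℕ} (β : ℝ) (g : Pairs n → ℝ) : ℝ :=
  sInf {r : ℝ | ∃ f : (Fin n → Bool) → ℝ, 0 < gibbsVar β g f ∧
    r = dirichletForm β g f / gibbsVar β g f}

/-- Being mixed at time `t`: from every start the kernel `exp (t L)` is within `1/4` of the Gibbs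
measure in total variation. -/
def MixedAt {n : ℕ} (β : ℝ) (g : Pairs n → ℝ) (t : ℝ) : Prop :=
  ∀ x : Fin n → Bool,
    (∑ y, |(NormedSpace.exp (t • generator β g)) x y - gibbs β g y|) / 2 ≤ 1 / 4

end Vale.Agent.P150
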