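import Vale.Agent.P150.Gibbs

/-!
From a linear observable with large variance to a small gap and a large mixing time.
-/

namespace Vale.Agent.P150

open MeasureTheory Real Function Matrix Filter Topology
open scoped MatrixOrder

attribute [local instance] Matrix.linftyOpNormedRing Matrix.linftyOpNormedAlgebra

variable {n : ℕ}

/-- A linear observable. -/
noncomputable def linObs (v : Fin n → ℝ) (x : Fin n → Bool) : ℝ := v ⬝ᵥ spin x

lemma localField_eq (β : ℝ) (g : Pairs n → ℝ) (x : Fin n → Bool) (i : Fin n) :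
    localField β g x i = (coupM β g *ᵥ spin x) i := by
  simp only [localField, Matrix.mulVec, dotProduct, coupM, of_apply, scaleC, Finset.mul_sum]
  exact Finset.sum_congr rfl fun j _ => by ring

lemma energy_eq (β : ℝ) (g : Pairs n → ℝ) (x : Fin n → Bool) :
    energy β g x = (spin x ⬝ᵥ coupM β g *ᵥ spin x) / 2 := by
  rw [sum_pairs_quad, energy, Finset.mul_sum, Finset.sum_div]
  exact Finset.sum_congr rfl fun p _ => by simp only [scaleC]; ring

lemma localField_congr (β : ℝ) (g : Pairs n → ℝ) {x y : Fin n → Bool} {i : Fin n}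
    (h : ∀ j, j ≠ i → y j = x j) : localField β g y i = localField β g x i := by
  unfold localField
  congr 1
  refine Finset.sum_congr rfl fun j _ => ?_
  by_cases hj : j = i
  · subst hj; simp [symDisorder_self]
  · simp [spin, h j hj]

lemma energy_flip (β : ℝ) (g : Pairs n → ℝ) {x y : Fin n → Bool} {i : Fin n}
    (h : ∀ j, j ≠ i → y j = x j) :
    energy β g y = energy β g x + (spin y i - spin x i) * localField β g x i := by
  set d := spin y i - spin x i with hd
  have hsp : spin y = spin x + Pi.single i d := by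
    funext j
    by_cases hj : j = i
    · subst hj; simp [hd]
    · simp [hj, spin, h j hj]
  have hsym : spin x ⬝ᵥ coupM β g *ᵥ Pi.single i d = Pi.single i d ⬝ᵥ coupM β g *ᵥ spin x := by
    rw [Matrix.dotProduct_mulVec, ← Matrix.mulVec_transpose, coupM_transpose, dotProduct_comm]
  have hdiag : Pi.single i d ⬝ᵥ coupM β g *ᵥ Pi.single i d = 0 := by
    simp [single_dotProduct, coupM, symDisorder_self, Matrix.mulVec_single]
  rw [energy_eq, energy_eq, hsp]
  simp only [Matrix.mulVec_add, dotProduct_add, add_dotProduct, hsym, hdiag, single_dotProduct,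
    ← localField_eq]
  ring

lemma heatBath_nonneg (β : ℝ) (g : Pairs n → ℝ) (i : Fin n) (x y : Fin n → Bool) :
    0 ≤ heatBath β g i x y := by
  simp only [heatBath, of_apply]; split_ifs
  · have := Real.cosh_pos (localField β g x i); positivity
  · exact le_rfl

lemma heatBath_symm (β : ℝ) (g : Pairs n → ℝ) (i : Fin n) (x y : Fin n → Bool) :
    gibbs β g x * heatBath β g i x y = gibbs β g y * heatBath β g i y x := by
  simp only [heatBath, of_apply]
  by_cases h : ∀ j, j ≠ i → y j = x j
  · have h' : ∀ j, j ≠ i → x j = y j := fun j hj => (h j hj).symm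
    rw [if_pos h, if_pos h', localField_congr β g h, gibbs, gibbs, energy_flip β g h,
      div_mul_div_comm, div_mul_div_comm, ← Real.exp_add, ← Real.exp_add]
    congr 2; ring
  · rw [if_neg h, if_neg fun h' => h fun j hj => (h' j hj).symm, mul_zero, mul_zero]

lemma sum_heatBath (β : ℝ) (g : Pairs n → ℝ) (i : Fin n) (x : Fin n → Bool) :
    ∑ y, heatBath β g i x y = 1 := by
  have hset : (Finset.univ.filter fun y : Fin n → Bool => ∀ j, j ≠ i → y j = x j) =
      {update x i true, update x i false} := by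
    ext y
    simp only [Finset.mem_filter, Finset.mem_univ, true_and, Finset.mem_insert,
      Finset.mem_singleton]
    constructor
    · intro h
      cases hy : y i
      · right; funext j; by_cases hj : j = i
        · subst hj; simp [hy]
        · simp [hj, h j hj]
      · left; funext j; by_cases hj : j = i
        · subst hj; simp [hy]
        · simp [hj, h j hj]
    · rintro (rfl | rfl) j hj <;> simp [hj]
  have hne : update x i true ≠ update x i false := fun h => by
    simpa using congrFun h i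
  simp only [heatBath, of_apply]
  rw [← Finset.sum_filter, hset, Finset.sum_pair hne, ← add_div, Real.cosh_eq]
  simp only [spin, update_self, if_true, if_false, Bool.false_eq_true, one_mul, neg_one_mul]
  field_simp

lemma generator_mulVec (β : ℝ) (g : Pairs n → ℝ) (f : (Fin n → Bool) → ℝ) (x : Fin n → Bool) :
    (generator β g *ᵥ f) x = ∑ i, ∑ y, heatBath β g i x y * (f y - f x) := by
  simp only [generator, Matrix.sum_mulVec, Finset.sum_apply, Matrix.sub_mulVec,
    Matrix.one_mulVec, Pi.sub_apply]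
  refine Finset.sum_congr rfl fun i _ => ?_
  simp only [mul_sub, Finset.sum_sub_distrib, ← Finset.sum_mul, sum_heatBath, one_mul]
  rfl

/-- The Gibbs inner product with the generator is symmetric. -/
lemma generator_symm (β : ℝ) (g : Pairs n → ℝ) (f h : (Fin n → Bool) → ℝ) :
    ∑ x, gibbs β g x * f x * (generator β g *ᵥ h) x =
      ∑ x, gibbs β g x * h x * (generator β g *ᵥ f) x := by
  simp only [generator, Matrix.sum_mulVec, Finset.sum_apply, Matrix.sub_mulVec,
    Matrix.one_mulVec, Pi.sub_apply, Finset.mul_sum]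
  rw [Finset.sum_comm]
  conv_rhs => rw [Finset.sum_comm]
  refine Finset.sum_congr rfl fun i _ => ?_
  simp only [mul_sub, Finset.sum_sub_distrib]
  congr 1
  · simp only [Matrix.mulVec, dotProduct, Finset.mul_sum]
    rw [Finset.sum_comm]
    refine Finset.sum_congr rfl fun x _ => Finset.sum_congr rfl fun y _ => ?_
    linear_combination (f y * h x) * heatBath_symm β g i y x
  · exact Finset.sum_congr rfl fun x _ => by ring

lemma dirichletForm_eq (β : ℝ) (g : Pairs n → ℝ) (f : (Fin n → Bool) → ℝ) :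
    dirichletForm β g f =
      ∑ i, (∑ x, ∑ y, gibbs β g x * heatBath β g i x y * (f x - f y) ^ 2) / 2 := by
  simp only [dirichletForm, generator_mulVec, Finset.mul_sum]
  rw [Finset.sum_comm, ← Finset.sum_neg_distrib]
  refine Finset.sum_congr rfl fun i _ => ?_
  have hA : ∑ x, ∑ y, gibbs β g x * heatBath β g i x y * f y ^ 2 =
      ∑ x, gibbs β g x * f x ^ 2 := by
    rw [Finset.sum_comm]
    refine Finset.sum_congr rfl fun y _ => ?_
    simp only [fun x => heatBath_symm β g i x y, ← Finset.sum_mul, ← Finset.mul_sum, sum_heatBath,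
      mul_one]
  have hB : ∑ x, ∑ y, gibbs β g x * heatBath β g i x y * f x ^ 2 =
      ∑ x, gibbs β g x * f x ^ 2 := by
    refine Finset.sum_congr rfl fun x _ => ?_
    simp only [← Finset.sum_mul, ← Finset.mul_sum, sum_heatBath, mul_one]
  have e : ∀ x y, gibbs β g x * heatBath β g i x y * (f x - f y) ^ 2 =
      gibbs β g x * heatBath β g i x y * f y ^ 2 - gibbs β g x * heatBath β g i x y * f x ^ 2 -
        2 * (gibbs β g x * f x * (heatBath β g i x y * (f y - f x))) := fun x y => by ring
  simp only [e, Finset.sum_sub_distrib, hA, hB, ← Finset.mul_sum]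
  ring

lemma dirichletForm_nonneg (β : ℝ) (g : Pairs n → ℝ) (f : (Fin n → Bool) → ℝ) :
    0 ≤ dirichletForm β g f := by
  rw [dirichletForm_eq]
  exact Finset.sum_nonneg fun i _ => div_nonneg (Finset.sum_nonneg fun x _ =>
    Finset.sum_nonneg fun y _ => mul_nonneg (mul_nonneg (gibbs_pos β g x).le
      (heatBath_nonneg β g i x y)) (sq_nonneg _)) zero_le_two

lemma dirichletForm_linObs_le (β : ℝ) (g : Pairs n → ℝ) (v : Fin n → ℝ) :
    dirichletForm β g (linObs v) ≤ 2 * (v ⬝ᵥ v) := by
  rw [dirichletForm_eq, show 2 * (v ⬝ᵥ v) = ∑ i, 4 * (v i * v i) / 2 by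
    simp only [dotProduct, Finset.mul_sum]; exact Finset.sum_congr rfl fun i _ => by ring]
  refine Finset.sum_le_sum fun i _ => div_le_div_of_nonneg_right ?_ zero_le_two
  calc ∑ x, ∑ y, gibbs β g x * heatBath β g i x y * (linObs v x - linObs v y) ^ 2
      ≤ ∑ x, ∑ y, gibbs β g x * heatBath β g i x y * (4 * (v i * v i)) := by
        refine Finset.sum_le_sum fun x _ => Finset.sum_le_sum fun y _ => ?_
        by_cases h : ∀ j, j ≠ i → y j = x j
        · refine mul_le_mul_of_nonneg_left ?_
            (mul_nonneg (gibbs_pos β g x).le (heatBath_nonneg β g i x y))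
          have e : linObs v x - linObs v y = v i * (spin x i - spin y i) := by
            simp only [linObs, dotProduct, ← Finset.sum_sub_distrib, ← mul_sub]
            refine Finset.sum_eq_single i (fun j _ hj => ?_) (by simp)
            simp [spin, h j hj]
          rw [e]
          have h1 : |spin x i - spin y i| ≤ 2 :=
            (abs_sub _ _).trans_eq (by rw [abs_spin, abs_spin]; norm_num)
          have h2 : (spin x i - spin y i) ^ 2 ≤ 2 ^ 2 := sq_le_sq' (abs_le.1 h1).1 (abs_le.1 h1).2
          nlinarith [mul_le_mul_of_nonneg_left h2 (sq_nonneg (v i))]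
        · simp [heatBath, h]
    _ = 4 * (v i * v i) := by
        simp only [← Finset.sum_mul, ← Finset.mul_sum, sum_heatBath, mul_one, sum_gibbs, one_mul]

lemma gibbs_not (β : ℝ) (g : Pairs n → ℝ) (x : Fin n → Bool) :
    gibbs β g (fun i => !x i) = gibbs β g x := by
  have h : ∀ j, spin (fun i => !x i) j = -spin x j := fun j => by
    cases hx : x j <;> simp [spin, hx]
  simp [gibbs, energy, h]

lemma gibbsMean_linObs (β : ℝ) (g : Pairs n → ℝ) (v : Fin n → ℝ) :
    gibbsMean β g (linObs v) = 0 := by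
  let e : (Fin n → Bool) ≃ (Fin n → Bool) :=
    { toFun := fun x i => !x i
      invFun := fun x i => !x i
      left_inv := fun x => by simp
      right_inv := fun x => by simp }
  have h : ∀ x, linObs v (e x) = -linObs v x := fun x => by
    simp only [linObs, dotProduct, ← Finset.sum_neg_distrib]
    refine Finset.sum_congr rfl fun j _ => ?_
    change v j * (if (!x j) = true then (1:ℝ) else -1) = -(v j * if x j = true then (1:ℝ) else -1)
    cases x j <;> simp
  have hs := e.sum_comp (fun x => gibbs β g x * linObs v x)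
  simp only [h, show ∀ x, gibbs β g (e x) = gibbs β g x from gibbs_not β g, mul_neg,
    Finset.sum_neg_distrib] at hs
  unfold gibbsMean; linarith

lemma gibbsVar_linObs (β : ℝ) (g : Pairs n → ℝ) (v : Fin n → ℝ) :
    gibbsVar β g (linObs v) = v ⬝ᵥ corrM β g *ᵥ v := by
  rw [quad_corrM]
  simp only [gibbsVar, gibbsMean_linObs, sub_zero]
  rfl

lemma spectralGap_mul_le (β : ℝ) (g : Pairs n → ℝ) {v : Fin n → ℝ} {K : ℝ} (hK : 0 < K)
    (hv : 0 < v ⬝ᵥ v) (h : K * (v ⬝ᵥ v) ≤ v ⬝ᵥ corrM β g *ᵥ v) :
    0 ≤ spectralGap β g ∧ spectralGap β g * K ≤ 2 := by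
  have hVar : 0 < gibbsVar β g (linObs v) := by
    rw [gibbsVar_linObs]; exact (mul_pos hK hv).trans_le h
  set S := {r : ℝ | ∃ f : (Fin n → Bool) → ℝ, 0 < gibbsVar β g f ∧
    r = dirichletForm β g f / gibbsVar β g f}
  have h0 : ∀ r ∈ S, 0 ≤ r := fun r ⟨f, hf, e⟩ => e ▸ div_nonneg (dirichletForm_nonneg β g f) hf.le
  refine ⟨le_csInf ⟨_, linObs v, hVar, rfl⟩ h0, ?_⟩
  have hle : spectralGap β g ≤ dirichletForm β g (linObs v) / gibbsVar β g (linObs v) :=
    csInf_le ⟨0, h0⟩ ⟨linObs v, hVar, rfl⟩
  calc spectralGap β g * K ≤ dirichletForm β g (linObs v) / gibbsVar β g (linObs v) * K :=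
        mul_le_mul_of_nonneg_right hle hK.le
    _ ≤ 2 := by
        rw [div_mul_eq_mul_div, div_le_iff₀ hVar, gibbsVar_linObs]
        calc dirichletForm β g (linObs v) * K ≤ 2 * (v ⬝ᵥ v) * K :=
              mul_le_mul_of_nonneg_right (dirichletForm_linObs_le β g v) hK.le
          _ = 2 * (K * (v ⬝ᵥ v)) := by ring
          _ ≤ _ := mul_le_mul_of_nonneg_left h zero_le_two

/-- The semigroup applied to an observable. -/
noncomputable def evolve (β : ℝ) (g : Pairs n → ℝ) (f : (Fin n → Bool) → ℝ) (t : ℝ) :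
    (Fin n → Bool) → ℝ :=
  NormedSpace.exp (t • generator β g) *ᵥ f

lemma hasDerivAt_evolve (β : ℝ) (g : Pairs n → ℝ) (f : (Fin n → Bool) → ℝ) (t : ℝ)
    (x : Fin n → Bool) :
    HasDerivAt (fun s => evolve β g f s x) ((generator β g *ᵥ evolve β g f t) x) t := by
  let ev : Matrix (Fin n → Bool) (Fin n → Bool) ℝ →ₗ[ℝ] ℝ :=
    { toFun := fun M => (M *ᵥ f) x
      map_add' := fun A B => by simp [Matrix.add_mulVec]
      map_smul' := fun a A => by simp [Matrix.smul_mulVec] }
  have h := ev.toContinuousLinearMap.hasFDerivAt.comp_hasDerivAt t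
    (hasDerivAt_exp_smul_const' (𝕂 := ℝ) (generator β g) t)
  have hfun : ∀ M, ev.toContinuousLinearMap M = (M *ᵥ f) x := fun M => rfl
  simp only [hfun, Function.comp_def] at h
  exact h.congr_deriv (congrFun (Matrix.mulVec_mulVec f (generator β g) _).symm x)

lemma gibbsMean_evolve (β : ℝ) (g : Pairs n → ℝ) (f : (Fin n → Bool) → ℝ) (t : ℝ) :
    gibbsMean β g (evolve β g f t) = gibbsMean β g f := by
  have hd : ∀ s, HasDerivAt (fun s => gibbsMean β g (evolve β g f s)) 0 s := fun s => by
    refine (HasDerivAt.fun_sum fun x _ =>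
      (hasDerivAt_evolve β g f s x).const_mul (gibbs β g x)).congr_deriv ?_
    have h := generator_symm β g (fun _ => 1) (evolve β g f s)
    simp only [mul_one] at h
    rw [h]
    simp [generator_mulVec]
  have hc := is_const_of_deriv_eq_zero (fun s => (hd s).differentiableAt) (fun s => (hd s).deriv) t 0
  rw [hc]; simp [evolve]

/-- Decay under mixing and convexity of the norm give a lower bound on a mixing time. -/
theorem le_of_mixedAt (β : ℝ) (g : Pairs n → ℝ) {t : ℝ} (ht : 0 ≤ t) (hmix : MixedAt β g t)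
    (f : (Fin n → Bool) → ℝ) (hmean : gibbsMean β g f = 0) (hvar : 0 < gibbsVar β g f) :
    Real.log 2 * gibbsVar β g f ≤ t * dirichletForm β g f := by
  set φ : ℝ → ℝ := fun s => ∑ x, gibbs β g x * evolve β g f s x ^ 2 with hφ
  set ψ : ℝ → ℝ := fun s => ∑ x, gibbs β g x * evolve β g f s x *
    (generator β g *ᵥ evolve β g f s) x with hψ
  have hφ0 : φ 0 = gibbsVar β g f := by simp [hφ, evolve, gibbsVar, hmean]
  have hψ0 : ψ 0 = -dirichletForm β g f := by simp [hψ, evolve, dirichletForm]
  have hφpos : ∀ s, 0 < φ s := fun s => by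
    by_contra hc
    have h0 : ∀ x, evolve β g f s x = 0 := fun x => by
      have hz := (Finset.sum_eq_zero_iff_of_nonneg fun y _ =>
        mul_nonneg (gibbs_pos β g y).le (sq_nonneg (evolve β g f s y))).1
        (le_antisymm (not_lt.1 hc) (Finset.sum_nonneg fun y _ =>
          mul_nonneg (gibbs_pos β g y).le (sq_nonneg _))) x (Finset.mem_univ _)
      simpa [(gibbs_pos β g x).ne'] using hz
    have hf : f = 0 := by
      have hu := Matrix.isUnit_exp (s • generator β g)
      refine (Matrix.mulVec_injective_iff_isUnit.2 hu) ?_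
      rw [Matrix.mulVec_zero]; exact funext h0
    simp [gibbsVar, gibbsMean, hf] at hvar
  set A : ℝ → ℝ := fun s => ∑ x, gibbs β g x * (generator β g *ᵥ evolve β g f s) x ^ 2 with hA
  have hφd : ∀ s, HasDerivAt φ (2 * ψ s) s := fun s => by
    refine (HasDerivAt.fun_sum fun x _ =>
      ((hasDerivAt_evolve β g f s x).fun_pow 2).const_mul (gibbs β g x)).congr_deriv ?_
    rw [hψ, Finset.mul_sum]; exact Finset.sum_congr rfl fun x _ => by ring
  have hLd : ∀ s x, HasDerivAt (fun s => (generator β g *ᵥ evolve β g f s) x)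
      ((generator β g *ᵥ (generator β g *ᵥ evolve β g f s)) x) s := fun s x =>
    HasDerivAt.fun_sum fun y _ => (hasDerivAt_evolve β g f s y).const_mul _
  have hψd : ∀ s, HasDerivAt ψ (2 * A s) s := fun s => by
    refine (HasDerivAt.fun_sum fun x _ => ((hasDerivAt_evolve β g f s x).const_mul
      (gibbs β g x)).fun_mul (hLd s x)).congr_deriv ?_
    rw [Finset.sum_add_distrib,
      generator_symm β g (evolve β g f s) (generator β g *ᵥ evolve β g f s), hA, Finset.mul_sum,
      ← Finset.sum_add_distrib]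
    exact Finset.sum_congr rfl fun x _ => by ring
  have hCS : ∀ s, ψ s ^ 2 ≤ φ s * A s := fun s => by
    set u : (Fin n → Bool) → ℝ := fun x => Real.sqrt (gibbs β g x) * evolve β g f s x
    set w : (Fin n → Bool) → ℝ :=
      fun x => Real.sqrt (gibbs β g x) * (generator β g *ᵥ evolve β g f s) x
    have h := Finset.sum_mul_sq_le_sq_mul_sq Finset.univ u w
    have hs : ∀ x, Real.sqrt (gibbs β g x) ^ 2 = gibbs β g x := fun x =>
      Real.sq_sqrt (gibbs_pos β g x).le
    have e1 : ∑ x, u x * w x = ψ s := Finset.sum_congr rfl fun x _ => by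
      simp only [u, w]; rw [mul_mul_mul_comm, Real.mul_self_sqrt (gibbs_pos β g x).le]; ring
    have e2 : ∑ x, u x ^ 2 = φ s := Finset.sum_congr rfl fun x _ => by
      simp only [u, mul_pow, hs]
    have e3 : ∑ x, w x ^ 2 = A s := Finset.sum_congr rfl fun x _ => by
      simp only [w, mul_pow, hs]
    rwa [e1, e2, e3] at h
  have hr : Monotone fun s => ψ s / φ s := by
    refine monotone_of_hasDerivAt_nonneg (fun s => (hψd s).fun_div (hφd s) (hφpos s).ne') fun s => ?_
    refine div_nonneg ?_ (sq_nonneg _)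
    linarith [hCS s]
  set r := ψ 0 / φ 0 with hr0
  set χ : ℝ → ℝ := fun s => φ s * Real.exp (-(2 * r * s)) with hχ
  have hχd : ∀ s, HasDerivAt χ (2 * ψ s * Real.exp (-(2 * r * s)) +
      φ s * (Real.exp (-(2 * r * s)) * -(2 * r))) s := fun s => by
    have h := (hφd s).fun_mul (((hasDerivAt_id s).const_mul (2 * r)).fun_neg.exp)
    simpa [hχ] using h
  have hχm : MonotoneOn χ (Set.Ici 0) := by
    refine monotoneOn_of_hasDerivWithinAt_nonneg (convex_Ici 0)
      (fun s _ => (hχd s).continuousAt.continuousWithinAt)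
      (fun s _ => (hχd s).hasDerivWithinAt) fun s hs => ?_
    have hs0 : 0 ≤ s := interior_subset (s := Set.Ici (0:ℝ)) hs
    have h : r ≤ ψ s / φ s := hr hs0
    rw [le_div_iff₀ (hφpos s)] at h
    nlinarith [Real.exp_pos (-(2 * r * s))]
  set M := ∑ x, |f x| with hM
  have hb : ∀ k : ℕ, ∀ x, |evolve β g f (k * t) x| ≤ M / 2 ^ k := by
    intro k
    induction k with
    | zero =>
        intro x
        simpa [evolve, hM] using Finset.single_le_sum (f := fun y => |f y|)
          (fun y _ => abs_nonneg _) (Finset.mem_univ x)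
    | succ k ih =>
        intro x
        set h := evolve β g f (k * t) with hh
        have e : evolve β g f ((k + 1 : ℕ) * t) = NormedSpace.exp (t • generator β g) *ᵥ h := by
          rw [hh, evolve, evolve, Matrix.mulVec_mulVec, ← Matrix.exp_add_of_commute _ _
            ((Commute.refl _).smul_left _ |>.smul_right _), ← add_smul]
          congr 3; push_cast; ring
        have h0 : ∑ y, gibbs β g y * h y = 0 :=
          (gibbsMean_evolve β g f (k * t)).trans hmean
        rw [e]
        have e' : (NormedSpace.exp (t • generator β g) *ᵥ h) x =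
            ∑ y, (NormedSpace.exp (t • generator β g) x y - gibbs β g y) * h y := by
          simp only [sub_mul, Finset.sum_sub_distrib, h0, sub_zero]; rfl
        rw [e']
        refine (Finset.abs_sum_le_sum_abs _ _).trans ?_
        have hd := hmix x
        have hMk : 0 ≤ M / 2 ^ k := div_nonneg (Finset.sum_nonneg fun _ _ => abs_nonneg _)
          (by positivity)
        calc ∑ y, |(NormedSpace.exp (t • generator β g) x y - gibbs β g y) * h y|
            ≤ ∑ y, |NormedSpace.exp (t • generator β g) x y - gibbs β g y| * (M / 2 ^ k) :=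
              Finset.sum_le_sum fun y _ => by
                rw [abs_mul]; exact mul_le_mul_of_nonneg_left (ih y) (abs_nonneg _)
          _ ≤ 1 / 2 * (M / 2 ^ k) := by
              rw [← Finset.sum_mul]; exact mul_le_mul_of_nonneg_right (by linarith) hMk
          _ = _ := by rw [pow_succ]; ring
  have hkey : ∀ k : ℕ, φ 0 * (4 * Real.exp (2 * r * t)) ^ k ≤ M ^ 2 := by
    intro k
    have h1 := hχm Set.self_mem_Ici (show (0:ℝ) ≤ k * t by positivity) (by positivity)
    have h2 : φ (k * t) ≤ (M / 2 ^ k) ^ 2 := by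
      calc φ (k * t) ≤ ∑ x, gibbs β g x * (M / 2 ^ k) ^ 2 := Finset.sum_le_sum fun x _ =>
            mul_le_mul_of_nonneg_left
              (sq_le_sq' (abs_le.1 (hb k x)).1 (abs_le.1 (hb k x)).2) (gibbs_pos β g x).le
        _ = _ := by rw [← Finset.sum_mul, sum_gibbs, one_mul]
    simp only [hχ, mul_zero, neg_zero, Real.exp_zero, mul_one] at h1
    have h3 : φ 0 * Real.exp (2 * r * (k * t)) ≤ φ (k * t) := by
      have := mul_le_mul_of_nonneg_right h1 (Real.exp_pos (2 * r * (k * t))).le
      rwa [mul_assoc (φ (k * t)), ← Real.exp_add, neg_add_cancel, Real.exp_zero, mul_one] at this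
    have e4 : Real.exp (2 * r * t) ^ k = Real.exp (2 * r * (k * t)) := by
      rw [← Real.exp_nat_mul]; congr 1; ring
    rw [mul_pow, e4]
    calc φ 0 * ((4:ℝ) ^ k * Real.exp (2 * r * (k * t)))
        = 4 ^ k * (φ 0 * Real.exp (2 * r * (k * t))) := by ring
      _ ≤ 4 ^ k * (M / 2 ^ k) ^ 2 := mul_le_mul_of_nonneg_left (h3.trans h2) (by positivity)
      _ = M ^ 2 := by
          rw [div_pow, ← pow_mul, mul_comm k 2, pow_mul]; norm_num; field_simp
  have hle : 4 * Real.exp (2 * r * t) ≤ 1 := by
    by_contra hc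
    obtain ⟨k, hk⟩ := pow_unbounded_of_one_lt (M ^ 2 / φ 0) (not_le.1 hc)
    rw [div_lt_iff₀ (hφpos 0)] at hk
    linarith [hkey k]
  have hlog : 2 * Real.log 2 + 2 * r * t ≤ 0 := by
    have := Real.log_le_log (by positivity) hle
    rwa [Real.log_mul (by norm_num) (Real.exp_pos _).ne', Real.log_exp, Real.log_one,
      show (4:ℝ) = 2 ^ 2 by norm_num, Real.log_pow, Nat.cast_ofNat] at this
  rw [hr0, hψ0, hφ0] at hlog
  have e : t * dirichletForm β g f - Real.log 2 * gibbsVar β g f =
      -(2 * Real.log 2 + 2 * (-dirichletForm β g f / gibbsVar β g f) * t) *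
        gibbsVar β g f / 2 := by field_simp; ring
  nlinarith [mul_nonpos_of_nonpos_of_nonneg hlog hvar.le]

/-- A test vector rules out mixing before `K * log 2 / 2`. -/
lemma not_mixedAt (β : ℝ) (g : Pairs n → ℝ) {v : Fin n → ℝ} {K t : ℝ} (hK : 0 < K)
    (hv : 0 < v ⬝ᵥ v) (h : K * (v ⬝ᵥ v) ≤ v ⬝ᵥ corrM β g *ᵥ v) (ht : 0 ≤ t)
    (ht' : 2 * t < Real.log 2 * K) : ¬ MixedAt β g t := fun hm => by
  have h1 := le_of_mixedAt β g ht hm (linObs v) (gibbsMean_linObs β g v)
    (by rw [gibbsVar_linObs]; exact (mul_pos hK hv).trans_le h)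
  rw [gibbsVar_linObs] at h1
  nlinarith [mul_le_mul_of_nonneg_left (dirichletForm_linObs_le β g v) ht,
    mul_le_mul_of_nonneg_left h (Real.log_pos one_lt_two).le, mul_lt_mul_of_pos_right ht' hv]

lemma exists_vector_of_overlap (β : ℝ) (g : Pairs n → ℝ) (hn : 0 < n) :
    ∃ v : Fin n → ℝ, 0 < v ⬝ᵥ v ∧
      n * overlapSq β g * (v ⬝ᵥ v) ≤ v ⬝ᵥ corrM β g *ᵥ v := by
  obtain ⟨y, _, hy⟩ := Finset.exists_max_image Finset.univ
    (fun y => spin y ⬝ᵥ corrM β g *ᵥ spin y) Finset.univ_nonempty
  refine ⟨spin y, by rw [dot_spin_self]; exact_mod_cast hn, ?_⟩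
  rw [dot_spin_self]
  calc (n:ℝ) * overlapSq β g * n = (corrM β g * corrM β g).trace := by
        rw [trace_corrM_mul_self, frob_corrM hn]; ring
    _ = gibbsMean β g (fun x => spin x ⬝ᵥ corrM β g *ᵥ spin x) := trace_mul_corrM _ _ _
    _ ≤ gibbsMean β g (fun _ => spin y ⬝ᵥ corrM β g *ᵥ spin y) :=
        gibbsMean_mono β g fun x => hy x (Finset.mem_univ _)
    _ = _ := gibbsMean_const β g _

lemma exists_vector_of_resCorr {β z m : ℝ} {g : Pairs n → ℝ} (h : IsGood β z m g) (hm : 0 < m)
    {K : ℝ} (hK : K * resTr β z g < resCorr β z g) :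
    ∃ v : Fin n → ℝ, 0 < v ⬝ᵥ v ∧ K * (v ⬝ᵥ v) ≤ v ⬝ᵥ corrM β g *ᵥ v := by
  have hpsd : (resM β z g).PosSemidef := by
    refine Matrix.PosSemidef.of_dotProduct_mulVec_nonneg ?_ fun x => by
      simpa using (h.quad_bounds hm x).1
    simp [Matrix.IsHermitian, resM_transpose]
  obtain ⟨B, hB⟩ : ∃ B : Matrix (Fin n) (Fin n) ℝ, resM β z g = Bᵀ * B := by
    obtain ⟨B, hB⟩ := CStarAlgebra.nonneg_iff_eq_star_mul_self.mp hpsd.nonneg
    exact ⟨B, by simpa [Matrix.star_eq_conjTranspose] using hB⟩
  have e1 : ∑ k, B k ⬝ᵥ B k = (resM β z g).trace := by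
    rw [hB]; simp only [Matrix.trace, Matrix.diag, Matrix.mul_apply, transpose_apply, dotProduct]
    exact Finset.sum_comm
  have e2 : ∑ k, B k ⬝ᵥ corrM β g *ᵥ B k = (resM β z g * corrM β g).trace := by
    rw [hB, Matrix.mul_assoc, Matrix.trace_mul_comm]
    simp only [Matrix.trace, Matrix.diag, Matrix.mul_apply, transpose_apply, dotProduct,
      Matrix.mulVec, Finset.mul_sum, Finset.sum_mul]
    refine Finset.sum_congr rfl fun k _ => ?_
    rw [Finset.sum_comm]
    exact Finset.sum_congr rfl fun i _ => Finset.sum_congr rfl fun j _ => by ring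
  have hn : (0:ℝ) < n := by
    rcases Nat.eq_zero_or_pos n with h0 | h0
    · simp [resTr, resCorr, h0] at hK
    · exact_mod_cast h0
  have hsum : 0 < ∑ k, (B k ⬝ᵥ corrM β g *ᵥ B k - K * (B k ⬝ᵥ B k)) := by
    rw [Finset.sum_sub_distrib, ← Finset.mul_sum, e1, e2]
    rw [resTr, resCorr, mul_div, div_lt_div_iff_of_pos_right hn] at hK
    linarith
  obtain ⟨k, _, hk⟩ : ∃ k ∈ (Finset.univ : Finset (Fin n)),
      0 < B k ⬝ᵥ corrM β g *ᵥ B k - K * (B k ⬝ᵥ B k) := by
    by_contra hc
    push Not at hc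
    linarith [Finset.sum_nonpos hc]
  refine ⟨B k, (dotProduct_self_star_nonneg (B k)).lt_of_ne fun h0 => ?_, by linarith⟩
  have hz : B k = 0 := dotProduct_self_eq_zero.1 h0.symm
  simp [hz] at hk

end Vale.Agent.P150
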