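import Vale.Agent.P150.Stability
import Vale.Agent.P150.Mixing

/-!
Gaussian localisation: approximate tensorisation of entropy from uniform covariance bounds.
-/

namespace Vale.Agent.P150

open MeasureTheory ProbabilityTheory Real Function Matrix
open scoped BigOperators MatrixOrder

variable {n : ℕ}

/-- The site entropy of an unnormalised weight. -/
noncomputable def siteS (W f : (Fin n → Bool) → ℝ) (i : Fin n) : ℝ :=
  ∑ x, W x * (f x * Real.log (f x)) -
    (∑ x, entG (W (update x i true) * f (update x i true) + W (update x i false) * f (update x i false))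
      (W (update x i true) + W (update x i false))) / 2

lemma entG_mul {a b κ : ℝ} (hκ : κ ≠ 0) : entG (κ * a) (κ * b) = κ * entG a b := by
  rw [entG, entG, mul_div_mul_left _ _ hκ]; ring

lemma siteS_mul (W f : (Fin n → Bool) → ℝ) (i : Fin n) {κ : ℝ} (hκ : κ ≠ 0) :
    siteS (fun x => κ * W x) f i = κ * siteS W f i := by
  simp only [siteS, mul_assoc κ, ← mul_add κ, entG_mul hκ, ← Finset.mul_sum]
  ring

lemma siteS_isW {J : Matrix (Fin n) (Fin n) ℝ} {h : Fin n → ℝ} (hJ : Jᵀ = J) (hd : ∀ i, J i i = 0)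
    (f : (Fin n → Bool) → ℝ) (hf : ∀ x, 0 < f x) (i : Fin n) :
    siteS (isW J h) f i = isZ J h * isMean J h (isEnt J h i f) := by
  set A : (Fin n → Bool) → ℝ :=
    fun x => avg2 (isT J h i x) (f (update x i true)) (f (update x i false))
  have h1 : isMean J h (isEnt J h i f) = isMean J h (fun x => f x * Real.log (f x)) -
      isMean J h (fun x => A x * Real.log (A x)) := by
    rw [← isMean_avg2 hJ hd i fun x => f x * Real.log (f x), ← isMean_sub]
    rfl
  have hZ : ∀ φ, isZ J h * isMean J h φ = ∑ x, isW J h x * φ x := fun φ => by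
    simp only [isMean, Finset.mul_sum]
    exact Finset.sum_congr rfl fun x _ => by field_simp [(isZ_pos J h).ne']
  rw [h1, mul_sub, hZ, hZ, siteS]
  congr 1
  rw [div_eq_iff two_ne_zero, mul_comm, sum_flip i]
  refine Finset.sum_congr rfl fun x _ => ?_
  have hA : ∀ b, A (update x i b) = A x := fun b => by simp [A, isT_update_self hd]
  have et := isW_update (h := h) hJ hd x i true
  have ef := isW_update (h := h) hJ hd x i false
  simp only [sgn, if_true, Bool.false_eq_true, if_false] at et ef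
  have hw1 := isW_pos J h (update x i true)
  have hw0 := isW_pos J h (update x i false)
  set S := isW J h (update x i true) + isW J h (update x i false)
  have hS : 0 < S := add_pos hw1 hw0
  have e : isW J h (update x i true) * f (update x i true) +
      isW J h (update x i false) * f (update x i false) = S * A x := by
    simp only [A, avg2]
    linear_combination (f (update x i true)) * et + (f (update x i false)) * ef
  rw [e, hA, hA, entG, mul_div_cancel_left₀ _ hS.ne']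
  ring

variable (B : Matrix (Fin n) (Fin n) ℝ) (f : (Fin n → Bool) → ℝ)

/-- The coordinates of `B x`. -/
noncomputable def bvec (x : Fin n → Bool) (k : Fin n) : ℝ := (B *ᵥ spin x) k

variable (h₀ : Fin n → ℝ)

/-- The interpolating weight. -/
noncomputable def tW (s : ℝ) (ξ : Fin n → ℝ) (x : Fin n → Bool) : ℝ :=
  Real.exp ((1 - s ^ 2) / 2 * (∑ k, bvec B x k ^ 2) + s * ∑ k, ξ k * bvec B x k + h₀ ⬝ᵥ spin x)

/-- Total interpolating weight of a function. -/
noncomputable def tS (φ : (Fin n → Bool) → ℝ) (s : ℝ) (ξ : Fin n → ℝ) : ℝ :=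
  ∑ x, tW B h₀ s ξ x * φ x

/-- The quadratic gain. -/
noncomputable def tGain (s : ℝ) (ξ : Fin n → ℝ) : ℝ :=
  ∑ k, (tS B h₀ (fun x => f x * bvec B x k) s ξ -
    tS B h₀ f s ξ / tS B h₀ (fun _ => 1) s ξ * tS B h₀ (fun x => bvec B x k) s ξ) ^ 2 / tS B h₀ f s ξ

lemma continuous_tW (s : ℝ) (x : Fin n → Bool) : Continuous fun ξ => tW B h₀ s ξ x := by
  unfold tW; fun_prop

lemma continuous_tS (φ : (Fin n → Bool) → ℝ) (s : ℝ) : Continuous (tS B h₀ φ s) :=
  continuous_finsetSum _ fun x _ => (continuous_tW B h₀ s x).mul continuous_const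

lemma tS_pos {φ : (Fin n → Bool) → ℝ} (hφ : ∀ x, 0 < φ x) (s : ℝ) (ξ : Fin n → ℝ) :
    0 < tS B h₀ φ s ξ :=
  Finset.sum_pos (fun x _ => mul_pos (Real.exp_pos _) (hφ x)) Finset.univ_nonempty

/-- A dominating exponent. -/
noncomputable def tBound (k : Fin n) : ℝ := 2 * ∑ x, |bvec B x k|

/-- A dominating constant. -/
noncomputable def tConst : ℝ := ∑ x, Real.exp (3 * (∑ k, bvec B x k ^ 2) + h₀ ⬝ᵥ spin x)

lemma tW_le {s : ℝ} (hs : |s| ≤ 2) (ξ : Fin n → ℝ) (x : Fin n → Bool) :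
    tW B h₀ s ξ x ≤ tConst B h₀ * Real.exp (∑ k, tBound B k * |ξ k|) := by
  have h1 : tW B h₀ s ξ x ≤
      Real.exp (3 * (∑ k, bvec B x k ^ 2) + h₀ ⬝ᵥ spin x) *
        Real.exp (∑ k, tBound B k * |ξ k|) := by
    rw [tW, ← Real.exp_add, Real.exp_le_exp, add_right_comm _ (h₀ ⬝ᵥ spin x)]
    refine add_le_add_left (a := h₀ ⬝ᵥ spin x) ?_
    refine add_le_add (mul_le_mul_of_nonneg_right ?_ (Finset.sum_nonneg fun _ _ => sq_nonneg _)) ?_
    · linarith [sq_nonneg s]
    · rw [Finset.mul_sum]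
      refine Finset.sum_le_sum fun k _ => (le_abs_self _).trans ?_
      rw [abs_mul, abs_mul, tBound]
      calc |s| * (|ξ k| * |bvec B x k|) ≤ 2 * (|ξ k| * ∑ y, |bvec B y k|) := by
            gcongr
            exact Finset.single_le_sum (f := fun y => |bvec B y k|) (fun _ _ => abs_nonneg _)
              (Finset.mem_univ x)
        _ = _ := by ring
  exact h1.trans (mul_le_mul_of_nonneg_right
    (Finset.single_le_sum (f := fun y => Real.exp (3 * (∑ k, bvec B y k ^ 2) + h₀ ⬝ᵥ spin y))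
      (fun _ _ => (Real.exp_pos _).le) (Finset.mem_univ x)) (Real.exp_pos _).le)

lemma integral_tW (s : ℝ) (x : Fin n → Bool) :
    Integrable (fun ξ => tW B h₀ s ξ x) (stdGauss (Fin n)) ∧
    ∫ ξ, tW B h₀ s ξ x ∂stdGauss (Fin n) =
      Real.exp ((∑ k, bvec B x k ^ 2) / 2 + h₀ ⬝ᵥ spin x) := by
  have e : ∀ ξ : Fin n → ℝ, tW B h₀ s ξ x =
      Real.exp ((1 - s ^ 2) / 2 * (∑ k, bvec B x k ^ 2) + h₀ ⬝ᵥ spin x) *
      ∏ k, Real.exp (s * bvec B x k * ξ k) := fun ξ => by
    have e' : ∑ k, s * bvec B x k * ξ k = s * ∑ k, ξ k * bvec B x k := by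
      rw [Finset.mul_sum]; exact Finset.sum_congr rfl fun k _ => by ring
    rw [tW, ← Real.exp_sum, e', ← Real.exp_add, add_right_comm]
  simp only [e]
  refine ⟨(Integrable.fintype_prod fun k => integrable_exp_mul_gaussianReal _).const_mul _, ?_⟩
  rw [integral_const_mul, stdGauss,
    integral_fintype_prod_eq_prod (fun k (t : ℝ) => Real.exp (s * bvec B x k * t))]
  have hm : ∀ a : ℝ, ∫ t, Real.exp (a * t) ∂gaussianReal 0 1 = Real.exp (a ^ 2 / 2) := fun a => by
    have h := congrFun (mgf_id_gaussianReal (μ := 0) (v := 1)) a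
    simpa [mgf, id] using h
  simp only [hm]
  rw [← Real.exp_sum, ← Real.exp_add]
  congr 1
  rw [← Finset.sum_div, Finset.sum_congr rfl fun k (_ : k ∈ Finset.univ) => mul_pow s (bvec B x k) 2,
    ← Finset.mul_sum]
  ring

lemma integral_tS (φ : (Fin n → Bool) → ℝ) (s : ℝ) :
    Integrable (tS B h₀ φ s) (stdGauss (Fin n)) ∧
    ∫ ξ, tS B h₀ φ s ξ ∂stdGauss (Fin n) =
      ∑ x, Real.exp ((∑ k, bvec B x k ^ 2) / 2 + h₀ ⬝ᵥ spin x) * φ x := by
  unfold tS
  refine ⟨integrable_finsetSum _ fun x _ => (integral_tW B h₀ s x).1.mul_const _, ?_⟩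
  rw [integral_finsetSum _ fun x _ => (integral_tW B h₀ s x).1.mul_const _]
  exact Finset.sum_congr rfl fun x _ => by rw [integral_mul_const, (integral_tW B h₀ s x).2]

lemma hasDerivAt_tS_time (φ : (Fin n → Bool) → ℝ) (s : ℝ) (ξ : Fin n → ℝ) :
    HasDerivAt (fun u => tS B h₀ φ u ξ)
      (∑ x, tW B h₀ s ξ x * φ x *
        (-s * (∑ k, bvec B x k ^ 2) + ∑ k, ξ k * bvec B x k)) s := by
  unfold tS
  refine (HasDerivAt.fun_sum (u := (Finset.univ : Finset (Fin n → Bool))) fun x _ =>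
    (((((((hasDerivAt_pow 2 s).const_sub 1).div_const 2).mul_const (∑ k, bvec B x k ^ 2)).fun_add
      ((hasDerivAt_id s).mul_const (∑ k, ξ k * bvec B x k))).add_const (h₀ ⬝ᵥ spin x)).exp).mul_const (φ x)).congr_deriv ?_
  exact Finset.sum_congr rfl fun x _ => by simp only [tW, id]; ring

lemma hasDerivAt_tS_coord (φ : (Fin n → Bool) → ℝ) (s : ℝ) (ξ : Fin n → ℝ) (k : Fin n) :
    HasDerivAt (fun u => tS B h₀ φ s (update ξ k u))
      (s * tS B h₀ (fun x => φ x * bvec B x k) s ξ) (ξ k) := by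
  unfold tS
  refine (HasDerivAt.fun_sum (u := (Finset.univ : Finset (Fin n → Bool))) fun x _ =>
    (((hasDerivAt_linear (bvec B x) ξ k (ξ k)).const_mul s).const_add
      ((1 - s ^ 2) / 2 * ∑ k, bvec B x k ^ 2)).add_const (h₀ ⬝ᵥ spin x) |>.exp.mul_const (φ x) |>.congr_of_eventuallyEq
        (Filter.Eventually.of_forall fun u => by
          simp only [tW]; congr 4; exact congrArg _ (Finset.sum_congr rfl fun j _ => mul_comm _ _))
    ).congr_deriv ?_
  rw [Finset.mul_sum]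
  refine Finset.sum_congr rfl fun x _ => ?_
  have e : ∑ j, bvec B x j * ξ j = ∑ j, ξ j * bvec B x j :=
    Finset.sum_congr rfl fun j _ => mul_comm _ _
  simp only [update_eq_self, tW, e]; ring

/-- The observable in front of the drift. -/
noncomputable def tH (s : ℝ) (ξ : Fin n → ℝ) (x : Fin n → Bool) : ℝ :=
  (Real.log (tS B h₀ f s ξ / tS B h₀ (fun _ => 1) s ξ) + 1) * f x -
    tS B h₀ f s ξ / tS B h₀ (fun _ => 1) s ξ

/-- The negative of the interpolated entropy integrand. -/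
noncomputable def tPsi (s : ℝ) (ξ : Fin n → ℝ) : ℝ :=
  entG (tS B h₀ f s ξ) (tS B h₀ (fun _ => 1) s ξ)

variable {B} {f} {h₀}

lemma abs_ratio_le (hf : ∀ x, 0 < f x) (φ : (Fin n → Bool) → ℝ) (s : ℝ) (ξ : Fin n → ℝ) :
    |tS B h₀ (fun x => f x * φ x) s ξ / tS B h₀ f s ξ| ≤ ∑ y, |φ y| := by
  have hF := tS_pos B h₀ hf s ξ
  rw [abs_div, abs_of_pos hF, div_le_iff₀ hF]
  unfold tS
  refine (Finset.abs_sum_le_sum_abs _ _).trans ?_
  rw [Finset.mul_sum]
  refine Finset.sum_le_sum fun x _ => ?_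
  rw [← mul_assoc, abs_mul, abs_mul, abs_of_pos (show 0 < tW B h₀ s ξ x from Real.exp_pos _),
    abs_of_pos (hf x), mul_comm]
  exact mul_le_mul_of_nonneg_right (Finset.single_le_sum (f := fun y => |φ y|)
    (fun _ _ => abs_nonneg _) (Finset.mem_univ x)) (mul_pos (Real.exp_pos _) (hf x)).le

lemma exists_ratio_bounds (hf : ∀ x, 0 < f x) :
    ∃ L R : ℝ, 0 ≤ L ∧ 0 ≤ R ∧ ∀ (B : Matrix (Fin n) (Fin n) ℝ) s ξ,
      |Real.log (tS B h₀ f s ξ / tS B h₀ (fun _ => 1) s ξ)| ≤ L ∧
        0 < tS B h₀ f s ξ / tS B h₀ (fun _ => 1) s ξ ∧ tS B h₀ f s ξ / tS B h₀ (fun _ => 1) s ξ ≤ R := by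
  obtain ⟨a, -, ha⟩ := Finset.exists_min_image Finset.univ f Finset.univ_nonempty
  obtain ⟨b, -, hb⟩ := Finset.exists_max_image Finset.univ f Finset.univ_nonempty
  refine ⟨|Real.log (f a)| + |Real.log (f b)|, f b, by positivity, (hf b).le, fun B s ξ => ?_⟩
  have h1 := tS_pos B h₀ (fun _ => one_pos : ∀ _ : Fin n → Bool, (0:ℝ) < 1) s ξ
  have hF := tS_pos B h₀ hf s ξ
  have hlo : f a ≤ tS B h₀ f s ξ / tS B h₀ (fun _ => 1) s ξ := by
    rw [le_div_iff₀ h1]; unfold tS; rw [Finset.mul_sum]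
    refine Finset.sum_le_sum fun x _ => ?_
    rw [mul_one, mul_comm]
    exact mul_le_mul_of_nonneg_left (ha x (Finset.mem_univ x)) (Real.exp_pos _).le
  have hhi : tS B h₀ f s ξ / tS B h₀ (fun _ => 1) s ξ ≤ f b := by
    rw [div_le_iff₀ h1]; unfold tS; rw [Finset.mul_sum]
    refine Finset.sum_le_sum fun x _ => ?_
    rw [mul_one, mul_comm (f b)]
    exact mul_le_mul_of_nonneg_left (hb x (Finset.mem_univ x)) (Real.exp_pos _).le
  refine ⟨?_, div_pos hF h1, hhi⟩
  have g1 := Real.log_le_log (hf a) hlo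
  have g2 := Real.log_le_log (div_pos hF h1) hhi
  rw [abs_le]
  constructor <;> linarith [neg_abs_le (Real.log (f a)), le_abs_self (Real.log (f b)),
    abs_nonneg (Real.log (f a)), abs_nonneg (Real.log (f b))]

lemma hasDerivAt_tPsi_time (hf : ∀ x, 0 < f x) (s : ℝ) (ξ : Fin n → ℝ) :
    HasDerivAt (fun u => tPsi B f h₀ u ξ)
      (∑ x, tW B h₀ s ξ x * tH B f h₀ s ξ x *
        (-s * (∑ k, bvec B x k ^ 2) + ∑ k, ξ k * bvec B x k)) s := by
  have hF := tS_pos B h₀ hf s ξ
  have hW := tS_pos B h₀ (fun _ => one_pos : ∀ _ : Fin n → Bool, (0:ℝ) < 1) s ξ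
  have d1 := hasDerivAt_tS_time B h₀ f s ξ
  have d2 := hasDerivAt_tS_time B h₀ (fun _ => 1) s ξ
  refine (d1.fun_mul ((d1.fun_div d2 hW.ne').log (div_pos hF hW).ne')).congr_deriv ?_
  set F := tS B h₀ f s ξ
  set W := tS B h₀ (fun _ => (1:ℝ)) s ξ
  set F' := ∑ x, tW B h₀ s ξ x * f x * (-s * (∑ k, bvec B x k ^ 2) + ∑ k, ξ k * bvec B x k) with hF'
  set W' := ∑ x, tW B h₀ s ξ x * 1 * (-s * (∑ k, bvec B x k ^ 2) + ∑ k, ξ k * bvec B x k) with hW'
  have e : ∑ x, tW B h₀ s ξ x * tH B f h₀ s ξ x *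
      (-s * (∑ k, bvec B x k ^ 2) + ∑ k, ξ k * bvec B x k) =
      (Real.log (F / W) + 1) * F' - F / W * W' := by
    rw [hF', hW', Finset.mul_sum, Finset.mul_sum, ← Finset.sum_sub_distrib]
    exact Finset.sum_congr rfl fun x _ => by simp only [tH, F, W]; ring
  rw [e]
  field_simp [hF.ne', hW.ne']
  ring

lemma hasDerivAt_tH_coord (hf : ∀ x, 0 < f x) (s : ℝ) (ξ : Fin n → ℝ) (k : Fin n) :
    HasDerivAt (fun u => ∑ x, tW B h₀ s (update ξ k u) x * (tH B f h₀ s (update ξ k u) x * bvec B x k))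
      (s * (∑ x, tW B h₀ s ξ x * tH B f h₀ s ξ x * bvec B x k ^ 2) +
        s * ((tS B h₀ (fun x => f x * bvec B x k) s ξ - tS B h₀ f s ξ / tS B h₀ (fun _ => 1) s ξ *
          tS B h₀ (fun x => bvec B x k) s ξ) ^ 2 / tS B h₀ f s ξ)) (ξ k) := by
  have hF := tS_pos B h₀ hf s ξ
  have hW := tS_pos B h₀ (fun _ => one_pos : ∀ _ : Fin n → Bool, (0:ℝ) < 1) s ξ
  have e : ∀ u, ∑ x, tW B h₀ s (update ξ k u) x * (tH B f h₀ s (update ξ k u) x * bvec B x k) =
      (Real.log (tS B h₀ f s (update ξ k u) / tS B h₀ (fun _ => 1) s (update ξ k u)) + 1) *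
        tS B h₀ (fun x => f x * bvec B x k) s (update ξ k u) -
      tS B h₀ f s (update ξ k u) / tS B h₀ (fun _ => 1) s (update ξ k u) *
        tS B h₀ (fun x => bvec B x k) s (update ξ k u) := fun u => by
    conv_rhs => simp only [tS, Finset.mul_sum]
    rw [← Finset.sum_sub_distrib]
    exact Finset.sum_congr rfl fun x _ => by simp only [tH, tS]; ring
  simp only [e]
  have dF := hasDerivAt_tS_coord B h₀ f s ξ k
  have dW := hasDerivAt_tS_coord B h₀ (fun _ => 1) s ξ k
  have dA := hasDerivAt_tS_coord B h₀ (fun x => f x * bvec B x k) s ξ k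
  have dC := hasDerivAt_tS_coord B h₀ (fun x => bvec B x k) s ξ k
  have dr := dF.fun_div dW (by simpa using hW.ne')
  refine ((((dr.log (by simpa using (div_pos hF hW).ne')).add_const 1).fun_mul dA).fun_sub
    (dr.fun_mul dC)).congr_deriv ?_
  have e2 : ∑ x, tW B h₀ s ξ x * tH B f h₀ s ξ x * bvec B x k ^ 2 =
      (Real.log (tS B h₀ f s ξ / tS B h₀ (fun _ => 1) s ξ) + 1) *
        tS B h₀ (fun x => f x * bvec B x k * bvec B x k) s ξ -
      tS B h₀ f s ξ / tS B h₀ (fun _ => 1) s ξ * tS B h₀ (fun x => bvec B x k * bvec B x k) s ξ := by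
    conv_rhs => simp only [tS, Finset.mul_sum]
    rw [← Finset.sum_sub_distrib]
    exact Finset.sum_congr rfl fun x _ => by simp only [tH, tS]; ring
  rw [e2]
  simp only [update_eq_self, one_mul]
  field_simp
  ring

lemma exists_tH_bound (hf : ∀ x, 0 < f x) :
    ∃ H : ℝ, 0 ≤ H ∧ ∀ (B : Matrix (Fin n) (Fin n) ℝ) s ξ x, |tH B f h₀ s ξ x| ≤ H := by
  obtain ⟨L, R, hL, hR, hb⟩ := exists_ratio_bounds (h₀ := h₀) hf
  refine ⟨(L + 1) * (∑ y, |f y|) + R, by positivity, fun B s ξ x => ?_⟩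
  obtain ⟨h1, h2, h3⟩ := hb B s ξ
  refine (abs_sub _ _).trans (add_le_add ?_ (by rw [abs_of_pos h2]; exact h3))
  rw [abs_mul]
  refine mul_le_mul ((abs_add_le _ _).trans (by rw [abs_one]; linarith)) ?_ (abs_nonneg _)
    (by linarith)
  exact Finset.single_le_sum (f := fun y => |f y|) (fun y _ => abs_nonneg _) (Finset.mem_univ x)

lemma continuous_tH (hf : ∀ x, 0 < f x) (s : ℝ) (x : Fin n → Bool) :
    Continuous fun ξ => tH B f h₀ s ξ x := by
  have hr : Continuous fun ξ => tS B h₀ f s ξ / tS B h₀ (fun _ => 1) s ξ :=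
    (continuous_tS B h₀ f s).div (continuous_tS B h₀ _ s) fun ξ =>
      (tS_pos B h₀ (fun _ => one_pos : ∀ _ : Fin n → Bool, (0:ℝ) < 1) s ξ).ne'
  exact (((hr.log fun ξ => (div_pos (tS_pos B h₀ hf s ξ)
    (tS_pos B h₀ (fun _ => one_pos : ∀ _ : Fin n → Bool, (0:ℝ) < 1) s ξ)).ne').add
      continuous_const).mul continuous_const).sub hr

lemma integrable_tPsi (hf : ∀ x, 0 < f x) (s : ℝ) :
    Integrable (tPsi B f h₀ s) (stdGauss (Fin n)) := by
  obtain ⟨L, R, hL, hR, hb⟩ := exists_ratio_bounds (h₀ := h₀) hf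
  refine ((integral_tS B h₀ f s).1.const_mul L).mono' ?_ (ae_of_all _ fun ξ => ?_)
  · refine ((continuous_tS B h₀ f s).mul (Continuous.log ((continuous_tS B h₀ f s).div
      (continuous_tS B h₀ _ s) fun ξ => ?_) fun ξ => ?_)).aestronglyMeasurable
    · exact (tS_pos B h₀ (fun _ => one_pos : ∀ _ : Fin n → Bool, (0:ℝ) < 1) s ξ).ne'
    · exact (hb B s ξ).2.1.ne'
  · rw [Real.norm_eq_abs, tPsi, entG, abs_mul, abs_of_pos (tS_pos B h₀ hf s ξ), mul_comm]
    exact mul_le_mul_of_nonneg_right (hb B s ξ).1 (tS_pos B h₀ hf s ξ).le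

/-- The derivative of the averaged integrand. -/
lemma hasDerivAt_integral_tPsi (hf : ∀ x, 0 < f x) {s : ℝ} (hs : |s| < 2) :
    Integrable (tGain B f h₀ s) (stdGauss (Fin n)) ∧
    HasDerivAt (fun u => ∫ ξ, tPsi B f h₀ u ξ ∂stdGauss (Fin n))
      (s * ∫ ξ, tGain B f h₀ s ξ ∂stdGauss (Fin n)) s := by
  obtain ⟨H, hH0, hH⟩ := exists_tH_bound (h₀ := h₀) hf
  set bd : ℝ := tConst B h₀ * H with hbd
  have hC0 : 0 ≤ tConst B h₀ := Finset.sum_nonneg fun _ _ => (Real.exp_pos _).le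
  have hbd0 : 0 ≤ bd := mul_nonneg hC0 hH0
  set E : (Fin n → ℝ) → ℝ := fun ξ => Real.exp (∑ k, tBound B k * |ξ k|) with hE
  have hWH : ∀ u, |u| ≤ 2 → ∀ ξ x, |tW B h₀ u ξ x * tH B f h₀ u ξ x| ≤ bd * E ξ := fun u hu ξ x => by
    rw [abs_mul, abs_of_pos (show 0 < tW B h₀ u ξ x from Real.exp_pos _), hbd,
      mul_right_comm (tConst B h₀) H]
    exact mul_le_mul (tW_le B h₀ hu ξ x) (hH B u ξ x) (abs_nonneg _)
      (mul_nonneg hC0 (Real.exp_pos _).le)
  have hcWH : ∀ x, Continuous fun ξ => tW B h₀ s ξ x * tH B f h₀ s ξ x := fun x =>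
    (continuous_tW B h₀ s x).mul (continuous_tH hf s x)
  have hI : ∀ x, Integrable (fun ξ => tW B h₀ s ξ x * tH B f h₀ s ξ x) (stdGauss (Fin n)) := fun x =>
    integrable_of_exp_bound (hcWH x) bd (tBound B) (hWH s hs.le · x)
  -- gain
  obtain ⟨L, R, hL, hR, hrb⟩ := exists_ratio_bounds (h₀ := h₀) hf
  have hGint : ∀ k, Integrable (fun ξ => (tS B h₀ (fun x => f x * bvec B x k) s ξ -
      tS B h₀ f s ξ / tS B h₀ (fun _ => 1) s ξ * tS B h₀ (fun x => bvec B x k) s ξ) ^ 2 / tS B h₀ f s ξ)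
      (stdGauss (Fin n)) := by
    intro k
    set Bk := ∑ y, |bvec B y k|
    refine ((integral_tS B h₀ f s).1.const_mul ((2 * Bk) ^ 2)).mono' ?_ (ae_of_all _ fun ξ => ?_)
    · refine Continuous.aestronglyMeasurable ?_
      refine Continuous.div ((((continuous_tS B h₀ _ s)).sub (((continuous_tS B h₀ f s).div
        (continuous_tS B h₀ _ s) fun ξ => ?_).mul (continuous_tS B h₀ _ s))).pow 2) (continuous_tS B h₀ f s)
        fun ξ => (tS_pos B h₀ hf s ξ).ne'
      exact (tS_pos B h₀ (fun _ => one_pos : ∀ _ : Fin n → Bool, (0:ℝ) < 1) s ξ).ne'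
    · have hF := tS_pos B h₀ hf s ξ
      have hW := tS_pos B h₀ (fun _ => one_pos : ∀ _ : Fin n → Bool, (0:ℝ) < 1) s ξ
      have r1 := abs_ratio_le (B := B) (h₀ := h₀) hf (fun x => bvec B x k) s ξ
      have r2 := abs_ratio_le (B := B) (h₀ := h₀) (f := fun _ => 1) (fun _ => one_pos) (fun x => bvec B x k) s ξ
      simp only [one_mul] at r2
      set A := tS B h₀ (fun x => f x * bvec B x k) s ξ
      set C := tS B h₀ (fun x => bvec B x k) s ξ
      set F := tS B h₀ f s ξ
      set W := tS B h₀ (fun _ => (1:ℝ)) s ξ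
      rw [Real.norm_eq_abs, abs_div, abs_of_nonneg (sq_nonneg _), abs_of_pos hF]
      have e : (A - F / W * C) ^ 2 / F = F * (A / F - C / W) ^ 2 := by field_simp
      rw [e, mul_comm]
      refine mul_le_mul_of_nonneg_right ?_ hF.le
      refine sq_le_sq' ?_ ?_ <;> linarith [abs_le.1 r1, abs_le.1 r2]
  have hGI : Integrable (tGain B f h₀ s) (stdGauss (Fin n)) :=
    integrable_finsetSum _ fun k _ => hGint k
  refine ⟨hGI, ?_⟩
  -- integration by parts in each coordinate
  have hq : ∀ k, Integrable (fun ξ => ξ k * ∑ x, tW B h₀ s ξ x * (tH B f h₀ s ξ x * bvec B x k))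
      (stdGauss (Fin n)) ∧
      ∫ ξ, ξ k * ∑ x, tW B h₀ s ξ x * (tH B f h₀ s ξ x * bvec B x k) ∂stdGauss (Fin n) =
      ∫ ξ, (s * (∑ x, tW B h₀ s ξ x * tH B f h₀ s ξ x * bvec B x k ^ 2) +
        s * ((tS B h₀ (fun x => f x * bvec B x k) s ξ - tS B h₀ f s ξ / tS B h₀ (fun _ => 1) s ξ *
          tS B h₀ (fun x => bvec B x k) s ξ) ^ 2 / tS B h₀ f s ξ)) ∂stdGauss (Fin n) := by
    intro k
    set Bk := ∑ y, |bvec B y k|
    have hFc : Continuous fun ξ => ∑ x, tW B h₀ s ξ x * (tH B f h₀ s ξ x * bvec B x k) :=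
      continuous_finsetSum _ fun x _ => by
        exact (continuous_tW B h₀ s x).mul ((continuous_tH hf s x).mul continuous_const)
    have hFb : ∀ ξ, |∑ x, tW B h₀ s ξ x * (tH B f h₀ s ξ x * bvec B x k)| ≤ bd * Bk * E ξ := fun ξ => by
      refine (Finset.abs_sum_le_sum_abs _ _).trans ?_
      calc ∑ x, |tW B h₀ s ξ x * (tH B f h₀ s ξ x * bvec B x k)|
          ≤ ∑ x, bd * E ξ * |bvec B x k| := Finset.sum_le_sum fun x _ => by
            rw [← mul_assoc, abs_mul]
            exact mul_le_mul_of_nonneg_right (hWH s hs.le ξ x) (abs_nonneg _)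
        _ = _ := by rw [← Finset.mul_sum]; ring
    have hBk : 0 ≤ Bk := Finset.sum_nonneg fun _ _ => abs_nonneg _
    have hz : Integrable (fun ξ => ξ k * ∑ x, tW B h₀ s ξ x * (tH B f h₀ s ξ x * bvec B x k))
        (stdGauss (Fin n)) := by
      refine integrable_of_exp_bound ((continuous_apply k).mul hFc) (bd * Bk)
        (fun j => tBound B j + if j = k then 1 else 0) fun ξ => ?_
      have e : ∑ j, (tBound B j + if j = k then (1:ℝ) else 0) * |ξ j| =
          |ξ k| + ∑ j, tBound B j * |ξ j| := by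
        simp [add_mul, Finset.sum_add_distrib, add_comm]
      rw [abs_mul, e, Real.exp_add]
      have h1 : |ξ k| ≤ Real.exp |ξ k| := by linarith [Real.add_one_le_exp |ξ k|]
      calc |ξ k| * _ ≤ Real.exp |ξ k| * (bd * Bk * E ξ) :=
            mul_le_mul h1 (hFb ξ) (abs_nonneg _) (Real.exp_pos _).le
        _ = _ := by simp only [hE]; ring
    refine ⟨hz, ibp k _ _ (fun ξ => hasDerivAt_tH_coord hf s ξ k)
      (integrable_of_exp_bound hFc _ _ hFb) hz ?_⟩
    exact ((integrable_finsetSum _ fun x _ => (hI x).mul_const _).const_mul s).add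
      ((hGint k).const_mul s)
  -- differentiate under the integral
  set D : ℝ → (Fin n → ℝ) → ℝ := fun u ξ => ∑ x, tW B h₀ u ξ x * tH B f h₀ u ξ x *
      (-u * (∑ k, bvec B x k ^ 2) + ∑ k, ξ k * bvec B x k) with hD
  set bound : (Fin n → ℝ) → ℝ := fun ξ => ∑ x, bd * E ξ *
      (2 * (∑ k, bvec B x k ^ 2) + ∑ k, |ξ k| * |bvec B x k|) with hbound
  have hbI : Integrable bound (stdGauss (Fin n)) := by
    have hb0 : Integrable E (stdGauss (Fin n)) := integrable_exp_abs _
    have hb1 : ∀ k, Integrable (fun ξ => E ξ * |ξ k|) (stdGauss (Fin n)) := fun k => by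
      refine integrable_of_exp_bound (by simp only [hE]; fun_prop) 1
        (fun j => tBound B j + if j = k then 1 else 0) fun ξ => ?_
      have e : ∑ j, (tBound B j + if j = k then (1:ℝ) else 0) * |ξ j| =
          (∑ j, tBound B j * |ξ j|) + |ξ k| := by
        simp [add_mul, Finset.sum_add_distrib]
      rw [e, Real.exp_add, abs_mul, abs_abs, abs_of_pos (Real.exp_pos _), one_mul]
      exact mul_le_mul_of_nonneg_left (by linarith [Real.add_one_le_exp |ξ k|]) (Real.exp_pos _).le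
    refine integrable_finsetSum _ fun x _ => ?_
    have e : ∀ ξ, bd * E ξ * (2 * (∑ k, bvec B x k ^ 2) + ∑ k, |ξ k| * |bvec B x k|) =
        bd * (2 * (∑ k, bvec B x k ^ 2)) * E ξ + ∑ k, bd * |bvec B x k| * (E ξ * |ξ k|) := fun ξ => by
      rw [mul_add]
      congr 1
      · ring
      · rw [Finset.mul_sum]
        exact Finset.sum_congr rfl fun k _ => by ring
    simp only [e]
    exact (hb0.const_mul _).add (integrable_finsetSum _ fun k _ => (hb1 k).const_mul _)
  have hd := hasDerivAt_integral_of_dominated_loc_of_deriv_le (F := fun u => tPsi B f h₀ u)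
    (F' := D) (x₀ := s) (s := Set.Ioo (-2) 2) (bound := bound)
    (Ioo_mem_nhds (abs_lt.1 hs).1 (abs_lt.1 hs).2)
    (Filter.Eventually.of_forall fun u => (integrable_tPsi hf u).aestronglyMeasurable)
    (integrable_tPsi hf s)
    (Continuous.aestronglyMeasurable (continuous_finsetSum _ fun x _ =>
      (hcWH x).mul (by fun_prop)))
    (ae_of_all _ fun ξ u hu => by
      rw [Real.norm_eq_abs]
      refine (Finset.abs_sum_le_sum_abs _ _).trans (Finset.sum_le_sum fun x _ => ?_)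
      rw [abs_mul]
      have hu2 : |u| ≤ 2 := abs_le.2 ⟨hu.1.le, hu.2.le⟩
      refine mul_le_mul (hWH u hu2 ξ x) ((abs_add_le _ _).trans (add_le_add ?_ ?_)) (abs_nonneg _)
        (by positivity)
      · rw [abs_mul, abs_neg, abs_of_nonneg (Finset.sum_nonneg fun k _ => sq_nonneg (bvec B x k))]
        exact mul_le_mul_of_nonneg_right hu2 (Finset.sum_nonneg fun k _ => sq_nonneg _)
      · exact (Finset.abs_sum_le_sum_abs _ _).trans_eq
          (Finset.sum_congr rfl fun k _ => abs_mul _ _))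
    hbI (ae_of_all _ fun ξ u _ => hasDerivAt_tPsi_time hf u ξ)
  refine hd.2.congr_deriv ?_
  have e : ∀ ξ, D s ξ = (∑ k, ξ k * ∑ x, tW B h₀ s ξ x * (tH B f h₀ s ξ x * bvec B x k)) -
      ∑ k, s * (∑ x, tW B h₀ s ξ x * tH B f h₀ s ξ x * bvec B x k ^ 2) := fun ξ => by
    simp only [hD, mul_add, Finset.mul_sum, Finset.sum_add_distrib]
    rw [Finset.sum_comm (f := fun k x => ξ k * (tW B h₀ s ξ x * (tH B f h₀ s ξ x * bvec B x k))),
      Finset.sum_comm (f := fun k x => s * (tW B h₀ s ξ x * tH B f h₀ s ξ x * bvec B x k ^ 2)),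
      sub_eq_add_neg, ← Finset.sum_neg_distrib, add_comm (∑ x, ∑ k, ξ k * _)]
    congr 1
    · refine Finset.sum_congr rfl fun x _ => ?_
      rw [← Finset.sum_neg_distrib]
      exact Finset.sum_congr rfl fun k _ => by ring
    · exact Finset.sum_congr rfl fun x _ => Finset.sum_congr rfl fun k _ => by ring
  have i2 : ∀ k, Integrable (fun ξ => s * ∑ x, tW B h₀ s ξ x * tH B f h₀ s ξ x * bvec B x k ^ 2)
      (stdGauss (Fin n)) := fun k =>
    (integrable_finsetSum _ fun x _ => (hI x).mul_const _).const_mul s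
  rw [integral_congr_ae (ae_of_all _ e), integral_sub (integrable_finsetSum _ fun k _ => (hq k).1)
    (integrable_finsetSum _ fun k _ => i2 k), integral_finsetSum _ fun k _ => (hq k).1,
    integral_finsetSum _ fun k _ => i2 k, ← Finset.sum_sub_distrib]
  unfold tGain
  rw [integral_finsetSum _ fun k _ => hGint k, Finset.mul_sum]
  refine Finset.sum_congr rfl fun k _ => ?_
  rw [(hq k).2, integral_add (i2 k) ((hGint k).const_mul s), integral_const_mul]
  rw [integral_const_mul]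
  ring

lemma tW_eq_isW {c : ℝ} {J : Matrix (Fin n) (Fin n) ℝ}
    (hB : ∀ v : Fin n → ℝ, ∑ k, (B *ᵥ v) k ^ 2 = v ⬝ᵥ J *ᵥ v + c * (v ⬝ᵥ v))
    (s : ℝ) (ξ : Fin n → ℝ) (x : Fin n → Bool) :
    tW B h₀ s ξ x = Real.exp ((1 - s ^ 2) * c * n / 2) *
      isW ((1 - s ^ 2) • J) (fun i => h₀ i + s * (Bᵀ *ᵥ ξ) i) x := by
  have e : ∑ k, ξ k * bvec B x k = (Bᵀ *ᵥ ξ) ⬝ᵥ spin x := by
    rw [Matrix.mulVec_transpose, ← Matrix.dotProduct_mulVec]; rfl
  have e2 : (fun i => h₀ i + s * (Bᵀ *ᵥ ξ) i) ⬝ᵥ spin x =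
      s * ((Bᵀ *ᵥ ξ) ⬝ᵥ spin x) + h₀ ⬝ᵥ spin x := by
    simp only [dotProduct, Finset.mul_sum, ← Finset.sum_add_distrib]
    exact Finset.sum_congr rfl fun i _ => by ring
  rw [tW, isW, ← Real.exp_add, e, e2, show (∑ k, bvec B x k ^ 2) = _ from hB (spin x),
    dot_spin_self, Matrix.smul_mulVec, dotProduct_smul, smul_eq_mul]
  congr 1; ring

/-- Approximate tensorisation of entropy. -/
theorem approx_tensor (h₀ : Fin n → ℝ) {J : Matrix (Fin n) (Fin n) ℝ} (hJ : Jᵀ = J) (hd : ∀ i, J i i = 0)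
    {c α : ℝ} (hα : 0 < α) (hc : ∀ v : Fin n → ℝ, |v ⬝ᵥ J *ᵥ v| ≤ c * (v ⬝ᵥ v))
    (hcov : ∀ a : ℝ, 0 ≤ a → a ≤ 1 → ∀ h' θ : Fin n → ℝ,
      isMean (a • J) h' (fun x => (θ ⬝ᵥ spin x - isMean (a • J) h' (fun y => θ ⬝ᵥ spin y)) ^ 2) ≤
        α * (θ ⬝ᵥ θ))
    (f : (Fin n → Bool) → ℝ) (hf : ∀ x, 0 < f x) :
    isMean J h₀ (fun x => f x * Real.log (f x)) - isMean J h₀ f * Real.log (isMean J h₀ f) ≤
      Real.exp (2 * c * α) *
        ∑ i, isMean J h₀ (fun x => (1 - isT J h₀ i x ^ 2) *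
          (isD f i x * isD (fun y => Real.log (f y)) i x)) := by
  have hpsd : (J + c • (1 : Matrix (Fin n) (Fin n) ℝ)).PosSemidef := by
    refine Matrix.PosSemidef.of_dotProduct_mulVec_nonneg ?_ fun x => ?_
    · simp [Matrix.IsHermitian, hJ]
    · simp only [star_trivial, Matrix.add_mulVec, Matrix.smul_mulVec, Matrix.one_mulVec,
        dotProduct_add, dotProduct_smul, smul_eq_mul]
      linarith [(abs_le.1 (hc x)).1]
  obtain ⟨B, hB'⟩ := CStarAlgebra.nonneg_iff_eq_star_mul_self.mp hpsd.nonneg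
  have hB : ∀ v : Fin n → ℝ, ∑ k, (B *ᵥ v) k ^ 2 = v ⬝ᵥ J *ᵥ v + c * (v ⬝ᵥ v) := fun v => by
    have e1 : v ⬝ᵥ (star B * B) *ᵥ v = ∑ k, (B *ᵥ v) k ^ 2 := by
      rw [← Matrix.mulVec_mulVec, Matrix.dotProduct_mulVec, Matrix.star_eq_conjTranspose,
        Matrix.conjTranspose_eq_transpose_of_trivial, Matrix.vecMul_transpose]
      simp [dotProduct, pow_two]
    rw [← e1, ← hB', Matrix.add_mulVec, Matrix.smul_mulVec, Matrix.one_mulVec, dotProduct_add,
      dotProduct_smul, smul_eq_mul]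
  set A0 : ℝ := ∑ x, Real.exp ((∑ k, bvec B x k ^ 2) / 2 + h₀ ⬝ᵥ spin x) * (f x * Real.log (f x))
  set Φ : ℝ → ℝ := fun s => A0 - ∫ ξ, tPsi B f h₀ s ξ ∂stdGauss (Fin n) with hΦ
  set ent : ℝ → (Fin n → ℝ) → ℝ := fun s ξ =>
    tS B h₀ (fun x => f x * Real.log (f x)) s ξ - tPsi B f h₀ s ξ with hent
  have hentI : ∀ s, Integrable (ent s) (stdGauss (Fin n)) ∧
      ∫ ξ, ent s ξ ∂stdGauss (Fin n) = Φ s := fun s => by
    refine ⟨(integral_tS B h₀ _ s).1.sub (integrable_tPsi hf s), ?_⟩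
    rw [hent, integral_sub (integral_tS B h₀ _ s).1 (integrable_tPsi hf s), (integral_tS B h₀ _ s).2]
  -- express in terms of normalised quantities
  have hnorm : ∀ s ξ, ∀ φ : (Fin n → Bool) → ℝ, tS B h₀ φ s ξ =
      (Real.exp ((1 - s ^ 2) * c * n / 2) *
        isZ ((1 - s ^ 2) • J) (fun i => h₀ i + s * (Bᵀ *ᵥ ξ) i)) *
        isMean ((1 - s ^ 2) • J) (fun i => h₀ i + s * (Bᵀ *ᵥ ξ) i) φ := fun s ξ φ => by
    simp only [tS, tW_eq_isW hB, isMean, Finset.mul_sum]
    refine Finset.sum_congr rfl fun x _ => ?_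
    field_simp [(isZ_pos ((1 - s ^ 2) • J) (fun i => h₀ i + s * (Bᵀ *ᵥ ξ) i)).ne']
  have hentN : ∀ s ξ, ent s ξ = (Real.exp ((1 - s ^ 2) * c * n / 2) *
        isZ ((1 - s ^ 2) • J) (fun i => h₀ i + s * (Bᵀ *ᵥ ξ) i)) *
      (isMean ((1 - s ^ 2) • J) (fun i => h₀ i + s * (Bᵀ *ᵥ ξ) i) (fun x => f x * Real.log (f x)) -
        isMean ((1 - s ^ 2) • J) (fun i => h₀ i + s * (Bᵀ *ᵥ ξ) i) f *
          Real.log (isMean ((1 - s ^ 2) • J) (fun i => h₀ i + s * (Bᵀ *ᵥ ξ) i) f)) := fun s ξ => by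
    have hK : Real.exp ((1 - s ^ 2) * c * n / 2) *
        isZ ((1 - s ^ 2) • J) (fun i => h₀ i + s * (Bᵀ *ᵥ ξ) i) ≠ 0 :=
      (mul_pos (Real.exp_pos _) (isZ_pos _ _)).ne'
    simp only [hent, tPsi, hnorm s ξ, entG_mul hK, isMean_const]
    rw [entG, div_one]; ring
  have hgain : ∀ s : ℝ, 0 ≤ s → s ≤ 1 → ∀ ξ, tGain B f h₀ s ξ ≤ 4 * c * α * ent s ξ := by
    intro s hs0 hs1 ξ
    set J' := (1 - s ^ 2) • J
    set h' : Fin n → ℝ := fun i => h₀ i + s * (Bᵀ *ᵥ ξ) i
    set K := Real.exp ((1 - s ^ 2) * c * n / 2) * isZ J' h'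
    have hK : 0 < K := mul_pos (Real.exp_pos _) (isZ_pos _ _)
    set m := isMean J' h' f
    have hm : 0 < m := Finset.sum_pos
      (fun x _ => mul_pos (div_pos (isW_pos _ _ x) (isZ_pos _ _)) (hf x)) Finset.univ_nonempty
    set Δ : Fin n → ℝ := fun i => isMean J' h' (fun x => f x * spin x i) / m -
      isMean J' h' (fun x => spin x i)
    have hst := entropic_stability (J := J') h' hα
      (hcov _ (by nlinarith) (by nlinarith)) f hf Δ (fun i => rfl)
    have hlin : ∀ (φ : (Fin n → Bool) → ℝ) k, isMean J' h' (fun x => φ x * bvec B x k) =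
        ∑ i, B k i * isMean J' h' (fun x => φ x * spin x i) := fun φ k => by
      simp only [bvec, Matrix.mulVec, dotProduct, Finset.mul_sum, isMean_sum, ← isMean_smul]
      exact Finset.sum_congr rfl fun i _ => by congr 1; funext x; ring
    have hG : tGain B f h₀ s ξ = K * m * ∑ k, (B *ᵥ Δ) k ^ 2 := by
      rw [tGain, Finset.mul_sum]
      refine Finset.sum_congr rfl fun k _ => ?_
      simp only [hnorm s ξ, isMean_const, mul_one]
      have e1 := hlin (fun _ => 1) k
      simp only [one_mul] at e1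
      rw [hlin f k, e1]
      have e3 : (B *ᵥ Δ) k = (∑ i, B k i * isMean J' h' (fun x => f x * spin x i)) / m -
          ∑ i, B k i * isMean J' h' (fun x => spin x i) := by
        simp only [Matrix.mulVec, dotProduct, Δ, Finset.sum_div, mul_sub, Finset.sum_sub_distrib,
          mul_div_assoc]
      rw [e3]
      change (K * _ - K * m / K * (K * _)) ^ 2 / (K * m) = _
      field_simp
    have hBD : ∑ k, (B *ᵥ Δ) k ^ 2 ≤ 2 * c * (Δ ⬝ᵥ Δ) := by
      rw [hB]; linarith [(abs_le.1 (hc Δ)).2]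
    rcases Nat.eq_zero_or_pos n with hn | hn
    · have h0 : ∀ v : Fin n → ℝ, ∑ k, v k ^ 2 = 0 := fun v => by subst hn; simp
      have hf0 : ∀ x y : Fin n → Bool, x = y := fun x y => by subst hn; exact funext fun i => i.elim0
      have e : ent s ξ = 0 := by
        rw [hentN]
        obtain ⟨x0⟩ := (inferInstance : Nonempty (Fin n → Bool))
        have ef : ∀ φ : (Fin n → Bool) → ℝ, isMean J' h' φ = φ x0 := fun φ => by
          rw [show φ = fun _ => φ x0 from funext fun x => by rw [hf0 x x0], isMean_const]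
        simp [ef, J', h']
      rw [hG, h0, e]; simp
    · have hc0 : 0 ≤ c := by
        have := (abs_nonneg _).trans (hc (Pi.single ⟨0, hn⟩ 1))
        simpa using this
      rw [hG, hentN]
      calc K * m * ∑ k, (B *ᵥ Δ) k ^ 2 ≤ K * m * (2 * c * (Δ ⬝ᵥ Δ)) :=
            mul_le_mul_of_nonneg_left hBD (mul_pos hK hm).le
        _ = K * (2 * c) * (m * (Δ ⬝ᵥ Δ)) := by ring
        _ ≤ K * (2 * c) * (2 * α * (isMean J' h' (fun x => f x * Real.log (f x)) -
              m * Real.log m)) := mul_le_mul_of_nonneg_left hst (by positivity)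
        _ = _ := by ring
  -- monotone along the interpolation
  have hderiv : ∀ s ∈ Set.Icc (0:ℝ) 1, HasDerivAt (fun u => Φ u * Real.exp (2 * c * α * u ^ 2))
      ((-(s * ∫ ξ, tGain B f h₀ s ξ ∂stdGauss (Fin n))) * Real.exp (2 * c * α * s ^ 2) +
        Φ s * (Real.exp (2 * c * α * s ^ 2) * (2 * c * α * (2 * s)))) s := fun s hs => by
    have h1 := (hasDerivAt_integral_tPsi (B := B) (h₀ := h₀) hf
      (show |s| < 2 by rw [abs_lt]; constructor <;> linarith [hs.1, hs.2])).2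
    have h := (h1.const_sub A0).fun_mul (((hasDerivAt_pow 2 s).const_mul (2 * c * α)).exp)
    simpa [hΦ] using h
  have hmono : MonotoneOn (fun u => Φ u * Real.exp (2 * c * α * u ^ 2)) (Set.Icc 0 1) := by
    refine monotoneOn_of_hasDerivWithinAt_nonneg (convex_Icc _ _)
      (fun s hs => (hderiv s hs).continuousAt.continuousWithinAt)
      (fun s hs => (hderiv s (interior_subset hs)).hasDerivWithinAt) fun s hs => ?_
    have hs' := interior_subset hs
    have hI := (hasDerivAt_integral_tPsi (B := B) (h₀ := h₀) hf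
      (show |s| < 2 by rw [abs_lt]; constructor <;> linarith [hs'.1, hs'.2])).1
    have h := integral_mono hI ((hentI s).1.const_mul (4 * c * α)) (hgain s hs'.1 hs'.2)
    rw [integral_const_mul, (hentI s).2] at h
    have h2 := mul_le_mul_of_nonneg_left h
      (mul_nonneg hs'.1 (Real.exp_pos (2 * c * α * s ^ 2)).le)
    linarith
  have h01 := hmono (Set.left_mem_Icc.2 zero_le_one) (Set.right_mem_Icc.2 zero_le_one) zero_le_one
  simp only [ne_eq, OfNat.ofNat_ne_zero, not_false_eq_true, zero_pow, mul_zero, Real.exp_zero,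
    mul_one, one_pow] at h01
  -- endpoint zero
  set κ := Real.exp (c * n / 2) with hκ
  set Z := isZ J h₀
  have h0 : Φ 0 = κ * Z * (isMean J h₀ (fun x => f x * Real.log (f x)) -
      isMean J h₀ f * Real.log (isMean J h₀ f)) := by
    rw [← (hentI 0).2, integral_congr_ae (ae_of_all _ (hentN 0)), hκ]
    simp [Z]
  -- endpoint one
  have hwbar : ∀ x, ∫ ξ, tW B h₀ 1 ξ x ∂stdGauss (Fin n) = κ * isW J h₀ x := fun x => by
    rw [(integral_tW B h₀ 1 x).2, hκ, isW, ← Real.exp_add,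
      show (∑ k, bvec B x k ^ 2) = _ from hB (spin x), dot_spin_self]
    congr 1; ring
  have h1 : Φ 1 ≤ ∑ i, κ * (Z * isMean J h₀ (isEnt J h₀ i f)) := by
    rw [← (hentI 1).2]
    have hz : (0 : Matrix (Fin n) (Fin n) ℝ)ᵀ = 0 := Matrix.transpose_zero
    have hprod : ∀ ξ, ent 1 ξ ≤ ∑ i, siteS (fun x => tW B h₀ 1 ξ x) f i := fun ξ => by
      have e : ∀ i, siteS (fun x => tW B h₀ 1 ξ x) f i = (Real.exp (0 * c * n / 2) *
          isZ 0 (fun i => h₀ i + 1 * (Bᵀ *ᵥ ξ) i)) *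
          isMean 0 (fun i => h₀ i + 1 * (Bᵀ *ᵥ ξ) i) (isEnt 0 (fun i => h₀ i + 1 * (Bᵀ *ᵥ ξ) i) i f) := fun i => by
        rw [mul_assoc, ← siteS_isW hz (fun _ => rfl) f hf i,
          ← siteS_mul _ _ _ (Real.exp_ne_zero _)]
        congr 1; funext x
        rw [tW_eq_isW hB, one_pow, sub_self, zero_smul]
      rw [Finset.sum_congr rfl fun i _ => e i, ← Finset.mul_sum, hentN, one_pow, sub_self,
        zero_smul]
      exact mul_le_mul_of_nonneg_left (product_tensor _ f hf)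
        (mul_pos (Real.exp_pos _) (isZ_pos _ _)).le
    set a : Fin n → (Fin n → Bool) → (Fin n → ℝ) → ℝ := fun i x ξ =>
      tW B h₀ 1 ξ (update x i true) * f (update x i true) +
        tW B h₀ 1 ξ (update x i false) * f (update x i false)
    set b : Fin n → (Fin n → Bool) → (Fin n → ℝ) → ℝ := fun i x ξ =>
      tW B h₀ 1 ξ (update x i true) + tW B h₀ 1 ξ (update x i false)
    have ha : ∀ i x ξ, 0 < a i x ξ := fun i x ξ =>
      add_pos (mul_pos (Real.exp_pos _) (hf _)) (mul_pos (Real.exp_pos _) (hf _))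
    have hb : ∀ i x ξ, 0 < b i x ξ := fun i x ξ => add_pos (Real.exp_pos _) (Real.exp_pos _)
    have iT : ∀ x, Integrable (fun ξ => tW B h₀ 1 ξ x) (stdGauss (Fin n)) := fun x =>
      (integral_tW B h₀ 1 x).1
    have ia : ∀ i x, Integrable (a i x) (stdGauss (Fin n)) := fun i x =>
      ((iT _).mul_const _).add ((iT _).mul_const _)
    have ib : ∀ i x, Integrable (b i x) (stdGauss (Fin n)) := fun i x => (iT _).add (iT _)
    have ie : ∀ i x, Integrable (fun ξ => entG (a i x ξ) (b i x ξ)) (stdGauss (Fin n)) := by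
      intro i x
      obtain ⟨Lb, hLb⟩ : ∃ Lb, ∀ ξ, |Real.log (a i x ξ / b i x ξ)| ≤ Lb := by
        set u := f (update x i true)
        set v := f (update x i false)
        refine ⟨|Real.log (min u v)| + |Real.log (max u v)|, fun ξ => ?_⟩
        have p1 : 0 < tW B h₀ 1 ξ (update x i true) := Real.exp_pos _
        have p2 : 0 < tW B h₀ 1 ξ (update x i false) := Real.exp_pos _
        have g1 : min u v ≤ a i x ξ / b i x ξ := by
          rw [le_div_iff₀ (hb i x ξ)]
          nlinarith [mul_le_mul_of_nonneg_left (min_le_left u v) p1.le,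
            mul_le_mul_of_nonneg_left (min_le_right u v) p2.le]
        have g2 : a i x ξ / b i x ξ ≤ max u v := by
          rw [div_le_iff₀ (hb i x ξ)]
          nlinarith [mul_le_mul_of_nonneg_left (le_max_left u v) p1.le,
            mul_le_mul_of_nonneg_left (le_max_right u v) p2.le]
        have k1 := Real.log_le_log (lt_min (hf _) (hf _)) g1
        have k2 := Real.log_le_log (div_pos (ha i x ξ) (hb i x ξ)) g2
        rw [abs_le]
        constructor <;> linarith [neg_abs_le (Real.log (min u v)), le_abs_self (Real.log (max u v)),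
          abs_nonneg (Real.log (min u v)), abs_nonneg (Real.log (max u v))]
      refine ((ia i x).const_mul Lb).mono' ?_ (ae_of_all _ fun ξ => ?_)
      · have ca : Continuous (a i x) := ((continuous_tW B h₀ 1 _).mul continuous_const).add
          ((continuous_tW B h₀ 1 _).mul continuous_const)
        have cb : Continuous (b i x) := (continuous_tW B h₀ 1 _).add (continuous_tW B h₀ 1 _)
        exact (ca.mul ((ca.div cb fun ξ => (hb i x ξ).ne').log
          fun ξ => (div_pos (ha i x ξ) (hb i x ξ)).ne')).aestronglyMeasurable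
      · rw [Real.norm_eq_abs, entG, abs_mul, abs_of_pos (ha i x ξ), mul_comm]
        exact mul_le_mul_of_nonneg_right (hLb ξ) (ha i x ξ).le
    have iS : ∀ i, Integrable (fun ξ => siteS (fun x => tW B h₀ 1 ξ x) f i) (stdGauss (Fin n)) :=
      fun i => (integrable_finsetSum _ fun x _ => (iT x).mul_const _).sub
        ((integrable_finsetSum _ fun x _ => ie i x).div_const 2)
    refine (integral_mono (hentI 1).1 (integrable_finsetSum _ fun i _ => iS i) hprod).trans ?_
    rw [integral_finsetSum _ fun i _ => iS i]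
    refine Finset.sum_le_sum fun i _ => ?_
    rw [← siteS_isW hJ hd f hf i, ← siteS_mul _ _ _ (Real.exp_ne_zero _)]
    unfold siteS
    rw [integral_sub (integrable_finsetSum _ fun x _ => (iT x).mul_const _)
      ((integrable_finsetSum _ fun x _ => ie i x).div_const 2),
      integral_finsetSum _ fun x _ => (iT x).mul_const _, integral_div,
      integral_finsetSum _ fun x _ => ie i x]
    simp only [integral_mul_const, hwbar]
    refine sub_le_sub_left (div_le_div_of_nonneg_right (Finset.sum_le_sum fun x _ => ?_) zero_le_two) _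
    -- tangent line
    set u := κ * isW J h₀ (update x i true) * f (update x i true) +
      κ * isW J h₀ (update x i false) * f (update x i false) with hu
    set w := κ * isW J h₀ (update x i true) + κ * isW J h₀ (update x i false) with hw
    have hκ0 : 0 < κ := Real.exp_pos _
    have hu0 : 0 < u := add_pos (mul_pos (mul_pos hκ0 (isW_pos _ _ _)) (hf _))
      (mul_pos (mul_pos hκ0 (isW_pos _ _ _)) (hf _))
    have hw0 : 0 < w := add_pos (mul_pos hκ0 (isW_pos _ _ _)) (mul_pos hκ0 (isW_pos _ _ _))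
    have hIa : ∫ ξ, a i x ξ ∂stdGauss (Fin n) = u := by
      rw [integral_add ((iT _).mul_const _) ((iT _).mul_const _), integral_mul_const,
        integral_mul_const, hwbar, hwbar]
    have hIb : ∫ ξ, b i x ξ ∂stdGauss (Fin n) = w := by
      rw [integral_add (iT _) (iT _), hwbar, hwbar]
    have hm := integral_mono (((ia i x).mul_const (Real.log (u / w) + 1)).sub
      ((ib i x).mul_const (u / w))) (ie i x) fun ξ =>
        entG_tangent (ha i x ξ) (hb i x ξ) (div_pos hu0 hw0)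
    rw [integral_sub' ((ia i x).mul_const _) ((ib i x).mul_const _), integral_mul_const,
      integral_mul_const, hIa, hIb] at hm
    refine le_trans (le_of_eq ?_) hm
    rw [entG]; field_simp; ring
  have hcov' : ∀ i, isMean J h₀ (isEnt J h₀ i f) ≤ isMean J h₀ (fun x => (1 - isT J h₀ i x ^ 2) *
      (isD f i x * isD (fun y => Real.log (f y)) i x)) := fun i =>
    isMean_mono J h₀ fun x => ent2_le_cov (abs_isT_lt J h₀ i x) (hf _) (hf _)
  have hsum : Φ 1 ≤ κ * Z * ∑ i, isMean J h₀ (fun x => (1 - isT J h₀ i x ^ 2) *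
      (isD f i x * isD (fun y => Real.log (f y)) i x)) := by
    refine h1.trans ?_
    rw [Finset.mul_sum]
    refine Finset.sum_le_sum fun i _ => ?_
    rw [← mul_assoc]
    exact mul_le_mul_of_nonneg_left (hcov' i) (mul_pos (Real.exp_pos _) (isZ_pos _ _)).le
  rw [h0] at h01
  have hKZ : 0 < κ * Z := mul_pos (Real.exp_pos _) (isZ_pos _ _)
  have := h01.trans (mul_le_mul_of_nonneg_right hsum (Real.exp_pos _).le)
  refine le_of_mul_le_mul_left ?_ hKZ
  linarith

end Vale.Agent.P150
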