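import Vale.Agent.P150.Main
import Vale.Agent.P150.Mixing

/-!
Combining the key estimate with the mixing bounds, for `β = 1` and for `β > 1`.
-/

namespace Vale.Agent.P150

open MeasureTheory Real Filter Topology Matrix

/-- The event that the gap exceeds `1 / T` or that the chain is mixed at some time up to `T`. -/
def FastEvent (n : ℕ) (β T : ℝ) : Set (Pairs n → ℝ) :=
  {g | 1 < spectralGap β g * T ∨ ∃ t ∈ Set.Icc 0 T, MixedAt β g t}

lemma not_fast {n : ℕ} (β : ℝ) (g : Pairs n → ℝ) {v : Fin n → ℝ} {K T : ℝ} (hK : 0 < K)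
    (hv : 0 < v ⬝ᵥ v) (h : K * (v ⬝ᵥ v) ≤ v ⬝ᵥ corrM β g *ᵥ v) (hT : 4 * T ≤ K) :
    g ∉ FastEvent n β T := by
  rintro (h1 | ⟨t, ht, hm⟩)
  · obtain ⟨hg0, hgap⟩ := spectralGap_mul_le β g hK hv h
    have := mul_le_mul_of_nonneg_left hT hg0
    linarith
  · refine not_mixedAt β g hK hv h ht.1 ?_ hm
    have h2 : (1:ℝ) / 2 < Real.log 2 := by
      have := Real.log_two_gt_d9; linarith
    have := mul_lt_mul_of_pos_right h2 hK
    linarith [ht.2]

lemma tendsto_exp_neg {a : ℝ} (ha : 0 < a) :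
    Tendsto (fun n : ℕ => Real.exp (-((n:ℝ) ^ a / 8))) atTop (𝓝 0) :=
  Real.tendsto_exp_neg_atTop_nhds_zero.comp
    (((tendsto_rpow_atTop ha).comp tendsto_natCast_atTop_atTop).atTop_div_const (by norm_num))

lemma tendsto_measure_zero {P : ℕ → ENNReal} {b : ℕ → ℝ} (h : ∀ᶠ n in atTop, P n ≤ ENNReal.ofReal (b n))
    (hb : Tendsto b atTop (𝓝 0)) : Tendsto P atTop (𝓝 0) := by
  have := ENNReal.tendsto_ofReal hb
  rw [ENNReal.ofReal_zero] at this
  exact tendsto_of_tendsto_of_tendsto_of_le_of_le' tendsto_const_nhds this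
    (Eventually.of_forall fun n => bot_le) h

lemma eventually_sqrt_ge (β : ℝ) : ∀ᶠ n : ℕ in atTop, 4 * β ≤ Real.sqrt n :=
  (Real.tendsto_sqrt_atTop.comp tendsto_natCast_atTop_atTop).eventually_ge_atTop _

/-- The linear lower bound for `β > 1`. -/
theorem slow_above_one {β : ℝ} (hβ : 1 < β) (ε : ℕ → ℝ) (hε : Tendsto ε atTop (𝓝 0)) :
    Tendsto (fun n => disorderLaw n (FastEvent n β (ε n * n))) atTop (𝓝 0) := by
  obtain ⟨C, _, hC⟩ := key_estimate hβ.le
  set δ := min 1 ((β - 1) ^ 2 / 2) with hδ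
  have hδ0 : 0 < δ := lt_min one_pos (by have := sub_pos.2 hβ; positivity)
  have hδ1 : δ ≤ 1 := min_le_left _ _
  have hδ2 : 2 * δ ≤ (β - 1) ^ 2 := by have := min_le_right 1 ((β - 1) ^ 2 / 2); linarith
  set L : ℝ := 2 / δ + 1 with hL
  set e : ℕ → ℝ := fun n => max (Real.sqrt (4 * |ε n|)) ((n:ℝ)⁻¹) with he
  have he0 : Tendsto e atTop (𝓝 0) := by
    have h1 : Tendsto (fun n => Real.sqrt (4 * |ε n|)) atTop (𝓝 0) := by
      simpa using ((hε.abs.const_mul 4).sqrt)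
    have := h1.max (tendsto_inv_atTop_nhds_zero_nat (𝕜 := ℝ))
    rw [max_self] at this
    exact this
  have hΓ : ∀ t : ℝ, 0 ≤ t → δ / 2 * t ≤ 1 →
      |(2 * β + δ) * t - 1 - β ^ 2 * t ^ 2| ≤ δ → 2 * β + δ - β ^ 2 - β ^ 2 * t ≤ 0 := by
    intro t _ _ hq
    by_contra hc
    rw [not_le] at hc
    have hq1 := (abs_le.1 hq).2
    set z := 2 * β + δ with hz
    set u := z - β ^ 2 - β ^ 2 * t with hu
    have key : β ^ 2 * (β ^ 2 * t ^ 2 - z * t + 1) =
        u ^ 2 + u * (2 * β ^ 2 - z) + β ^ 2 * ((β - 1) ^ 2 - δ) := by rw [hu, hz]; ring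
    have hz2 : z ≤ 2 * β ^ 2 := by
      rw [hz]; nlinarith
    have p1 : 0 < u ^ 2 := by positivity
    have p2 : 0 ≤ u * (2 * β ^ 2 - z) := mul_nonneg hc.le (by linarith)
    have p3 : β ^ 2 * δ ≤ β ^ 2 * ((β - 1) ^ 2 - δ) :=
      mul_le_mul_of_nonneg_left (by linarith) (sq_nonneg β)
    have p4 : β ^ 2 * (β ^ 2 * t ^ 2 - z * t + 1) ≤ β ^ 2 * δ :=
      mul_le_mul_of_nonneg_left (by linarith [(abs_le.1 hq).1]) (sq_nonneg β)
    linarith
  refine tendsto_measure_zero (b := fun n => C * (e n / δ ^ 3 + 1 / (n * δ ^ 6 * δ ^ 2) +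
    Real.exp (-(Real.sqrt n * δ / 8)))) ?_ ?_
  · filter_upwards [eventually_sqrt_ge β, eventually_gt_atTop 0,
      he0.eventually_le_const zero_lt_one] with n hn4 hn he1
    have hn0 : (0:ℝ) < n := by exact_mod_cast hn
    have hen : 0 < e n := (inv_pos.2 hn0).trans_le (le_max_right _ _)
    have h := hC n δ (e n) L δ 0 hn hn4 hδ0 hδ1 hen he1
      (by have : 0 ≤ 2 / δ := by positivity
          linarith) hδ0 hδ1 le_rfl hΓ
    rw [mul_zero, zero_add] at h
    refine le_trans (measure_mono (t := (LargeEvent (n := n) β δ (e n) L δ)ᶜ) fun g hg hgL => ?_) h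
    obtain ⟨hgood, -, hs | hR⟩ := hgL
    · obtain ⟨v, hv, hv'⟩ := exists_vector_of_overlap β g hn
      refine not_fast β g (K := n * e n ^ 2) (by positivity) hv ?_ ?_ hg
      · exact (mul_le_mul_of_nonneg_right (mul_le_mul_of_nonneg_left hs.le hn0.le) hv.le).trans hv'
      · have h4 : 4 * |ε n| ≤ e n ^ 2 := by
          rw [← Real.sq_sqrt (by positivity : 0 ≤ 4 * |ε n|)]
          exact pow_le_pow_left₀ (Real.sqrt_nonneg _) (le_max_left _ _) 2
        have := le_abs_self (ε n)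
        calc 4 * (ε n * n) = n * (4 * ε n) := by ring
          _ ≤ n * e n ^ 2 := mul_le_mul_of_nonneg_left (by linarith) hn0.le
    · have h1 := (hgood.resCorr_bounds (by positivity)).2
      have : resCorr β (2 * β + δ) g ≤ 2 / δ := by
        rw [le_div_iff₀ hδ0]; linarith
      linarith
  · have h2 : Tendsto (fun n : ℕ => 1 / ((n:ℝ) * δ ^ 6 * δ ^ 2)) atTop (𝓝 0) := by
      have := (tendsto_one_div_atTop_nhds_zero_nat (𝕜 := ℝ)).div_const (δ ^ 6 * δ ^ 2)
      rw [zero_div] at this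
      exact this.congr fun n => by rw [div_div, mul_assoc]
    have h3 : Tendsto (fun n : ℕ => Real.exp (-(Real.sqrt n * δ / 8))) atTop (𝓝 0) :=
      Real.tendsto_exp_neg_atTop_nhds_zero.comp (((Real.tendsto_sqrt_atTop.comp
        tendsto_natCast_atTop_atTop).atTop_mul_const hδ0).atTop_div_const (by norm_num))
    simpa using (((he0.div_const (δ ^ 3)).add h2).add h3).const_mul C

/-- The polynomial lower bound at `β = 1`. -/
theorem slow_at_one :
    Tendsto (fun n => disorderLaw n (FastEvent n 1 ((n:ℝ) ^ ((1:ℝ) / 256)))) atTop (𝓝 0) := by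
  obtain ⟨C, _, hC⟩ := key_estimate (le_refl (1:ℝ))
  set p : ℕ → ℝ := fun n => (n:ℝ) ^ (-((1:ℝ) / 128)) with hp
  refine tendsto_measure_zero (b := fun n => 6 * p n + C * (p n ^ 8 +
    (n:ℝ) ^ (-((3:ℝ) / 4)) + Real.exp (-((n:ℝ) ^ ((15:ℝ) / 32) / 8)))) ?_ ?_
  · filter_upwards [eventually_sqrt_ge 1, eventually_gt_atTop 0,
      ((tendsto_rpow_atTop (by norm_num : (0:ℝ) < 1 / 256)).comp
        tendsto_natCast_atTop_atTop).eventually_ge_atTop 16] with n hn4 hn hbig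
    have hn0 : (0:ℝ) < n := by exact_mod_cast hn
    have hn1 : (1:ℝ) ≤ n := by exact_mod_cast hn
    simp only [Function.comp_def] at hbig
    set δ : ℝ := (n:ℝ) ^ (-((1:ℝ) / 32)) with hδ
    have hδ0 : 0 < δ := Real.rpow_pos_of_pos hn0 _
    have hδ1 : δ ≤ 1 := Real.rpow_le_one_of_one_le_of_nonpos hn1 (by norm_num)
    set L : ℝ := (n:ℝ) ^ ((1:ℝ) / 128) with hL
    have hL1 : 1 ≤ L := Real.one_le_rpow hn1 (by norm_num)
    have hΓ : ∀ t : ℝ, 0 ≤ t → δ / 2 * t ≤ 1 →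
        |(2 * 1 + δ) * t - 1 - (1:ℝ) ^ 2 * t ^ 2| ≤ δ →
          2 * 1 + δ - (1:ℝ) ^ 2 - (1:ℝ) ^ 2 * t ≤ 3 * Real.sqrt δ := by
      intro t _ _ hq
      have h1 := (abs_le.1 hq).1
      have hs := Real.mul_self_sqrt hδ0.le
      have hs0 := Real.sqrt_nonneg δ
      have hsle : δ ≤ Real.sqrt δ := by
        have h2 : Real.sqrt δ ≤ 1 := Real.sqrt_le_one.2 hδ1
        nlinarith
      have hsq : ((2 + δ) / 2 - t) ^ 2 ≤ (2 * Real.sqrt δ) ^ 2 := by nlinarith
      have := (abs_le_of_sq_le_sq' hsq (by positivity)).2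
      linarith
    have h := hC n δ (δ ^ 5) L δ (3 * Real.sqrt δ) hn hn4 hδ0 hδ1 (pow_pos hδ0 5)
      (pow_le_one₀ hδ0.le hδ1) hL1 hδ0 hδ1 (by positivity) hΓ
    refine le_trans (measure_mono (t := (LargeEvent (n := n) 1 δ (δ ^ 5) L δ)ᶜ) fun g hg hgL => ?_)
      (h.trans (le_of_eq ?_))
    · obtain ⟨hgood, hQ, hs | hR⟩ := hgL
      · obtain ⟨v, hv, hv'⟩ := exists_vector_of_overlap 1 g hn
        refine not_fast 1 g (K := n * (δ ^ 5) ^ 2) (by positivity) hv ?_ ?_ hg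
        · exact (mul_le_mul_of_nonneg_right (mul_le_mul_of_nonneg_left hs.le hn0.le) hv.le).trans
            hv'
        · calc 4 * (n:ℝ) ^ ((1:ℝ) / 256) ≤ (n:ℝ) ^ ((1:ℝ) / 256) * (n:ℝ) ^ ((1:ℝ) / 256) := by
                gcongr; linarith
            _ = (n:ℝ) ^ ((1:ℝ) / 128) := by rw [← Real.rpow_add hn0]; norm_num
            _ ≤ (n:ℝ) ^ ((11:ℝ) / 16) := Real.rpow_le_rpow_of_exponent_le hn1 (by norm_num)
            _ = n * (δ ^ 5) ^ 2 := by
                rw [hδ, ← pow_mul, ← Real.rpow_natCast, ← Real.rpow_mul hn0.le]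
                nth_rewrite 2 [← Real.rpow_one (n:ℝ)]
                rw [← Real.rpow_add hn0]; norm_num
      · have hT := hgood.resTr_bounds (by positivity)
        have hT4 : resTr 1 (2 * 1 + δ) g ≤ 4 := by
          have h1 := (abs_le.1 hQ).1
          by_contra hc
          rw [not_le] at hc
          nlinarith [mul_le_mul_of_nonneg_left hc.le hT.1]
        have hlt : L / 4 * resTr 1 (2 * 1 + δ) g < resCorr 1 (2 * 1 + δ) g :=
          ((mul_le_mul_of_nonneg_left hT4 (by positivity)).trans (by linarith)).trans_lt hR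
        obtain ⟨v, hv, hv'⟩ := exists_vector_of_resCorr hgood (by positivity) hlt
        refine not_fast 1 g (K := L / 4) (by positivity) hv hv' ?_ hg
        have : L = (n:ℝ) ^ ((1:ℝ) / 256) * (n:ℝ) ^ ((1:ℝ) / 256) := by
          rw [hL, ← Real.rpow_add hn0]; norm_num
        rw [this]
        nlinarith
    · congr 1
      have e1 : L * Real.sqrt δ = p n := by
        rw [hL, hδ, hp, Real.sqrt_eq_rpow, ← Real.rpow_mul hn0.le, ← Real.rpow_add hn0]; norm_num
      have e2 : δ ^ 5 / δ ^ 3 = p n ^ 8 := by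
        have : δ = p n ^ 4 := by
          rw [hp, hδ, ← Real.rpow_natCast (_ ^ _) 4, ← Real.rpow_mul hn0.le]; norm_num
        rw [this]
        have : 0 < p n := Real.rpow_pos_of_pos hn0 _
        field_simp
      have e3 : 1 / ((n:ℝ) * δ ^ 6 * δ ^ 2) = (n:ℝ) ^ (-((3:ℝ) / 4)) := by
        rw [mul_assoc, ← pow_add, hδ, ← Real.rpow_natCast (_ ^ _), ← Real.rpow_mul hn0.le]
        nth_rewrite 1 [← Real.rpow_one (n:ℝ)]
        rw [← Real.rpow_add hn0, one_div, ← Real.rpow_neg hn0.le]; norm_num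
      have e4 : Real.sqrt n * δ = (n:ℝ) ^ ((15:ℝ) / 32) := by
        rw [hδ, Real.sqrt_eq_rpow, ← Real.rpow_add hn0]; norm_num
      rw [e3, e2, e4]
      linear_combination 6 * e1
  · have h1 : Tendsto p atTop (𝓝 0) :=
      (tendsto_rpow_neg_atTop (by norm_num : (0:ℝ) < 1 / 128)).comp tendsto_natCast_atTop_atTop
    have h2 : Tendsto (fun n : ℕ => (n:ℝ) ^ (-((3:ℝ) / 4))) atTop (𝓝 0) :=
      (tendsto_rpow_neg_atTop (by norm_num : (0:ℝ) < 3 / 4)).comp tendsto_natCast_atTop_atTop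
    simpa using (h1.const_mul 6).add ((((h1.pow 8).add h2).add
      (tendsto_exp_neg (by norm_num : (0:ℝ) < 15 / 32))).const_mul C)

/-- A positive polynomial lower bound for every `β ≥ 1`. -/
theorem slow_from_one {β : ℝ} (hβ : 1 ≤ β) :
    Tendsto (fun n => disorderLaw n (FastEvent n β ((n:ℝ) ^ ((1:ℝ) / 256)))) atTop (𝓝 0) := by
  rcases eq_or_lt_of_le hβ with h | h
  · subst h; exact slow_at_one
  · have hε : Tendsto (fun n : ℕ => (n:ℝ) ^ (-((255:ℝ) / 256))) atTop (𝓝 0) :=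
      (tendsto_rpow_neg_atTop (by norm_num : (0:ℝ) < 255 / 256)).comp tendsto_natCast_atTop_atTop
    refine (slow_above_one h _ hε).congr' ?_
    filter_upwards [eventually_gt_atTop 0] with n hn
    have hn0 : (0:ℝ) < n := by exact_mod_cast hn
    have e : (n:ℝ) ^ (-((255:ℝ) / 256)) * n = (n:ℝ) ^ ((1:ℝ) / 256) := by
      nth_rewrite 2 [← Real.rpow_one (n:ℝ)]
      rw [← Real.rpow_add hn0]; norm_num
    rw [e]

end Vale.Agent.P150
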