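import Vale.Agent.P150.Decay
import Vale.Agent.P150.Final

/-!
Fast mixing for every `β < 1 / 2`: the disorder event and the final combination.
-/

namespace Vale.Agent.P150

open MeasureTheory ProbabilityTheory Real Function Matrix Filter Topology

variable {n : ℕ}

lemma quad_smul_le {J : Matrix (Fin n) (Fin n) ℝ} {c a : ℝ} (ha : 0 ≤ a) (ha1 : a ≤ 1) (hc : 0 ≤ c)
    (h : ∀ v : Fin n → ℝ, v ⬝ᵥ J *ᵥ v ≤ c * (v ⬝ᵥ v)) (v : Fin n → ℝ) :
    v ⬝ᵥ (a • J) *ᵥ v ≤ c * (v ⬝ᵥ v) := by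
  rw [Matrix.smul_mulVec, dotProduct_smul, smul_eq_mul]
  refine (mul_le_mul_of_nonneg_left (h v) ha).trans (mul_le_of_le_one_left ?_ ha1)
  exact mul_nonneg hc (dotProduct_self_star_nonneg v)

lemma isNice_smul {J : Matrix (Fin n) (Fin n) ℝ} {c R η a : ℝ} (hN : IsNice J c R η) (ha : 0 ≤ a)
    (ha1 : a ≤ 1) (hc : 0 ≤ c) : IsNice (a • J) c R η where
  symm := by rw [Matrix.transpose_smul, hN.symm]
  diag i := by simp [hN.diag i]
  quad v := quad_smul_le ha ha1 hc hN.quad v
  row i := by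
    refine (Finset.sum_le_sum fun j _ => ?_).trans (hN.row i)
    rw [Matrix.smul_apply, smul_eq_mul, mul_pow]
    exact mul_le_of_le_one_left (sq_nonneg _) (pow_le_one₀ ha ha1)
  entry i j := by
    rw [Matrix.smul_apply, smul_eq_mul, abs_mul, abs_of_nonneg ha]
    exact (mul_le_of_le_one_left (abs_nonneg _) ha1).trans (hN.entry i j)

/-- On a nice disorder: gap and mixing. -/
theorem fast_of_nice : ∃ K τ0 : ℝ, 0 ≤ K ∧ 0 < τ0 ∧
    ∀ (n : ℕ) (β : ℝ) (g : Pairs n → ℝ) (c R η ρ t : ℝ), 0 < n → 0 ≤ c → 0 ≤ R → 0 ≤ η → η ≤ τ0 →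
      0 < ρ → ρ ≤ 1 - max c (2 * R) - K * η * R →
      (∀ v : Fin n → ℝ, |v ⬝ᵥ coupM β g *ᵥ v| ≤ c * (v ⬝ᵥ v)) →
      IsNice (coupM β g) c R η → 0 ≤ t →
      64 * ((n : ℝ) * (c + 1)) ≤ Real.exp (t / Real.exp (2 * c / ρ)) →
      ρ ≤ spectralGap β g ∧ MixedAt β g t := by
  obtain ⟨K, τ0, hK, hτ0, hcurv⟩ := curvature_bound
  refine ⟨K, τ0, hK, hτ0, fun n β g c R η ρ t hn hc0 hR hη hητ hρ hρle hc hN ht hT => ?_⟩
  have hcur : ∀ a : ℝ, 0 ≤ a → a ≤ 1 → ∀ (h : Fin n → ℝ) (f : (Fin n → Bool) → ℝ),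
      ρ * ∑ i, isE (a • coupM β g) h i f ≤
        isMean (a • coupM β g) h fun x => isL (a • coupM β g) h f x ^ 2 := fun a ha ha1 h f =>
    (mul_le_mul_of_nonneg_right hρle (Finset.sum_nonneg fun i _ => isE_nonneg _ _ i f)).trans
      (hcurv n _ h c R η (isNice_smul hN ha ha1 hc0) hR hη hητ f)
  constructor
  · refine le_spectralGap β g hn fun f => poincare_of_curvature hN.symm hN.diag hρ (fun f => ?_) f
    simpa using hcur 1 zero_le_one le_rfl 0 f
  · refine mixedAt_of_entropy β g (K := Real.exp (2 * c / ρ)) (Real.exp_pos _) hc (fun f hf => ?_)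
      ht hT
    have h := approx_tensor (0 : Fin n → ℝ) hN.symm hN.diag (α := 1 / ρ) (by positivity) hc
      (fun a ha ha1 h' θ => by
        have := covariance_bound (h := h') (isNice_smul hN ha ha1 hc0).symm
          (isNice_smul hN ha ha1 hc0).diag hρ (hcur a ha ha1 h') θ
        rw [one_div_mul_eq_div]; exact this)
      f hf
    rwa [mul_one_div] at h

lemma integral_exp_sum_sq (w : Pairs n → ℝ) (hw : ∀ p, w p < 1 / 2) :
    Integrable (fun g : Pairs n → ℝ => Real.exp (∑ p, w p * g p ^ 2)) (disorderLaw n) ∧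
    ∫ g, Real.exp (∑ p, w p * g p ^ 2) ∂disorderLaw n = ∏ p, 1 / Real.sqrt (1 - 2 * w p) := by
  simp only [Real.exp_sum]
  refine ⟨Integrable.fintype_prod fun p => integrable_exp_sq (hw p), ?_⟩
  rw [disorderLaw, integral_fintype_prod_eq_prod (fun p x => Real.exp (w p * x ^ 2))]
  exact Finset.prod_congr rfl fun p _ => integral_exp_sq (hw p)

/-- Weight `1` on the pairs containing `i`. -/
noncomputable def incid (i : Fin n) (p : Pairs n) : ℝ :=
  (if p.1.1 = i then 1 else 0) + if p.1.2 = i then 1 else 0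

lemma incid_mem (i : Fin n) (p : Pairs n) : incid i p = 0 ∨ incid i p = 1 := by
  have := p.2
  unfold incid
  by_cases h1 : p.1.1 = i
  · have h2 : p.1.2 ≠ i := fun e => this.ne (h1.trans e.symm)
    simp [h1, h2]
  · by_cases h2 : p.1.2 = i <;> simp [h1, h2]

lemma sum_symDisorder_sq (g : Pairs n → ℝ) (i : Fin n) :
    ∑ j, symDisorder g i j ^ 2 = ∑ p, incid i p * g p ^ 2 := by
  have h := two_mul_sum_pairs (fun a b => symDisorder g a b ^ 2 *
    ((if a = i then (1:ℝ) else 0) + if b = i then 1 else 0))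
    (fun a b => by rw [symDisorder_comm g a b, add_comm])
  simp only [symDisorder_pair, symDisorder_self, ne_eq, OfNat.ofNat_ne_zero, not_false_eq_true,
    zero_pow, zero_mul, Finset.sum_const_zero, sub_zero] at h
  have e1 : ∑ a, ∑ b, symDisorder g a b ^ 2 * (if a = i then (1:ℝ) else 0) =
      ∑ j, symDisorder g i j ^ 2 := by
    rw [Finset.sum_comm]; simp
  have e2 : ∑ a, ∑ b, symDisorder g a b ^ 2 * (if b = i then (1:ℝ) else 0) =
      ∑ j, symDisorder g i j ^ 2 := by
    simp [symDisorder_comm g i]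
  simp only [mul_add, Finset.sum_add_distrib, e1, e2] at h
  have e3 : ∑ p : Pairs n, incid i p * g p ^ 2 =
      ∑ p : Pairs n, g p ^ 2 * (if p.1.1 = i then (1:ℝ) else 0) +
        ∑ p : Pairs n, g p ^ 2 * (if p.1.2 = i then (1:ℝ) else 0) := by
    rw [← Finset.sum_add_distrib]
    exact Finset.sum_congr rfl fun p _ => by unfold incid; ring
  linarith

lemma sum_incid_le (i : Fin n) : ∑ p, incid i p ≤ (n : ℝ) := by
  have h := sum_symDisorder_sq (fun _ : Pairs n => (1:ℝ)) i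
  simp only [one_pow, mul_one] at h
  rw [← h]
  refine (Finset.sum_le_sum (g := fun _ => (1:ℝ)) fun j _ => ?_).trans (by simp)
  unfold symDisorder; split_ifs <;> norm_num

/-- The favourable disorder has probability close to one. -/
lemma prob_nice {β δ η : ℝ} (hβ : 0 ≤ β) (hn : 0 < n) (hn4 : 4 * β ≤ Real.sqrt n) (hδ : 0 < δ)
    (hδ1 : δ ≤ 1) (hη : 0 < η) :
    disorderLaw n {g | ¬ ((∀ v : Fin n → ℝ,
        |v ⬝ᵥ coupM β g *ᵥ v| ≤ (2 * β + δ / 2) * (v ⬝ᵥ v)) ∧
        IsNice (coupM β g) (2 * β + δ / 2) (2 * β ^ 2) η)} ≤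
      ENNReal.ofReal (2 * Real.exp (1 + 5 * β ^ 2 - Real.sqrt n * δ / 4) +
        (n : ℝ) * Real.exp (-((n : ℝ) * (1 - Real.log 2) / 2)) +
        (n : ℝ) ^ 2 * Real.sqrt 2 * Real.exp (-(η ^ 2 / (4 * (β ^ 2 + 1)) * n))) := by
  have hn0 : (0:ℝ) < n := by exact_mod_cast hn
  set ε := δ / (16 * (2 * β + 1)) with hε
  have hε0 : 0 < ε := by positivity
  obtain ⟨V, hVne, hV1, hVnet⟩ := exists_net hn hε0
  have : Nonempty V := hVne.to_subtype
  set sn := Real.sqrt n
  set b0 := 2 * β + δ / 4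
  set Ex : ℝ → (Pairs n → ℝ) → ℝ := fun s g => Real.exp (sn * netMax β s V g - sn * b0)
  set L := η ^ 2 / (4 * (β ^ 2 + 1)) * n with hL
  set W1 : Fin n → (Pairs n → ℝ) → ℝ := fun i g =>
    Real.exp (-((n:ℝ) / 2)) * Real.exp (∑ p, incid i p / 4 * g p ^ 2)
  set W2 : Pairs n → (Pairs n → ℝ) → ℝ := fun q g =>
    Real.exp (-L) * Real.exp (∑ p, (if p = q then (1:ℝ) / 4 else 0) * g p ^ 2)
  have hw1 : ∀ i (p : Pairs n), incid i p / 4 < 1 / 2 := fun i p => by
    rcases incid_mem i p with h | h <;> rw [h] <;> norm_num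
  have hw2 : ∀ q p : Pairs n, (if p = q then (1:ℝ) / 4 else 0) < 1 / 2 := fun q p => by
    split_ifs <;> norm_num
  set Φ : (Pairs n → ℝ) → ℝ := fun g => (Ex 1 g + Ex (-1) g) + ∑ i, W1 i g + ∑ q, W2 q g
  have iE : ∀ s, Integrable (Ex s) (disorderLaw n) := fun s =>
    integrable_exp_netMax (Real.sqrt_nonneg _) hn V
  have i1 : ∀ i, Integrable (W1 i) (disorderLaw n) := fun i =>
    (integral_exp_sum_sq _ (hw1 i)).1.const_mul _
  have i2 : ∀ q, Integrable (W2 q) (disorderLaw n) := fun q =>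
    (integral_exp_sum_sq _ (hw2 q)).1.const_mul _
  have iΦ : Integrable Φ (disorderLaw n) :=
    (((iE 1).add (iE (-1))).add (integrable_finsetSum _ fun i _ => i1 i)).add
      (integrable_finsetSum _ fun q _ => i2 q)
  have hΦ0 : ∀ g, 0 ≤ Φ g := fun g =>
    add_nonneg (add_nonneg (add_nonneg (Real.exp_pos _).le (Real.exp_pos _).le)
      (Finset.sum_nonneg fun i _ => mul_nonneg (Real.exp_pos _).le (Real.exp_pos _).le))
      (Finset.sum_nonneg fun q _ => mul_nonneg (Real.exp_pos _).le (Real.exp_pos _).le)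
  refine (measure_le_of_one_le iΦ hΦ0 fun g hg => ?_).trans (ENNReal.ofReal_le_ofReal ?_)
  · by_contra hlt
    rw [not_le] at hlt
    have hsum1 : 0 ≤ ∑ i, W1 i g :=
      Finset.sum_nonneg fun i _ => mul_nonneg (Real.exp_pos _).le (Real.exp_pos _).le
    have hsum2 : 0 ≤ ∑ q, W2 q g :=
      Finset.sum_nonneg fun q _ => mul_nonneg (Real.exp_pos _).le (Real.exp_pos _).le
    have hEx0 : ∀ s, 0 < Ex s g := fun s => Real.exp_pos _
    have hlt' : Ex 1 g + Ex (-1) g + ∑ i, W1 i g + ∑ q, W2 q g < 1 := hlt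
    have hb : ∀ s, Ex s g < 1 → netMax β s V g ≤ b0 := fun s h => by
      by_contra hc
      rw [not_le] at hc
      exact absurd h (not_lt.2 (Real.one_le_exp (by
        rw [← mul_sub]; exact mul_nonneg (Real.sqrt_nonneg _) (by linarith))))
    have hp := hb 1 (by linarith [hEx0 (-1)])
    have hm := hb (-1) (by linarith [hEx0 1])
    have hrow : ∀ i, ∑ j, symDisorder g i j ^ 2 ≤ 2 * n := fun i => by
      by_contra hc
      rw [not_le, sum_symDisorder_sq] at hc
      have h1 : 1 ≤ W1 i g := by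
        simp only [W1]
        rw [← Real.exp_add]
        refine Real.one_le_exp ?_
        have : ∑ p, incid i p / 4 * g p ^ 2 = (∑ p, incid i p * g p ^ 2) / 4 := by
          rw [Finset.sum_div]; exact Finset.sum_congr rfl fun p _ => by ring
        linarith
      have := Finset.single_le_sum (f := fun i => W1 i g)
        (fun i _ => mul_nonneg (Real.exp_pos _).le (Real.exp_pos _).le) (Finset.mem_univ i)
      linarith [hEx0 1, hEx0 (-1)]
    have hent : ∀ q : Pairs n, g q ^ 2 ≤ 4 * L := fun q => by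
      by_contra hc
      rw [not_le] at hc
      have h1 : 1 ≤ W2 q g := by
        simp only [W2]
        rw [← Real.exp_add]
        refine Real.one_le_exp ?_
        simp only [ite_mul, zero_mul, Finset.sum_ite_eq', Finset.mem_univ, if_true]
        linarith
      have := Finset.single_le_sum (f := fun q => W2 q g)
        (fun q _ => mul_nonneg (Real.exp_pos _).le (Real.exp_pos _).le) (Finset.mem_univ q)
      linarith [hEx0 1, hEx0 (-1)]
    apply hg
    obtain ⟨M, hM, hMq⟩ := quad_le_of_net (coupM_transpose β g) hn hε0 hVnet hV1 (b := b0)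
      fun w hw => by
        have h1 := (le_softMax (netTemp_pos hn V) (netForm β 1 V) g ⟨w, hw⟩).trans hp
        have h2 := (le_softMax (netTemp_pos hn V) (netForm β (-1) V) g ⟨w, hw⟩).trans hm
        rw [sum_netForm_mul] at h1 h2
        exact abs_le.2 ⟨by linarith, by linarith⟩
    have he2 : 2 * ε * (2 * β + δ / 2) ≤ δ / 4 := by rw [hε]; field_simp; nlinarith
    have hε1 : 0 < 1 - 2 * ε := by
      have : ε ≤ 1 / 16 := by rw [hε, div_le_iff₀ (by positivity)]; linarith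
      linarith
    have hMb : M ≤ 2 * β + δ / 2 :=
      le_of_mul_le_mul_right (hM.trans (by simp only [b0]; linarith)) hε1
    have hq : ∀ v : Fin n → ℝ, |v ⬝ᵥ coupM β g *ᵥ v| ≤ (2 * β + δ / 2) * (v ⬝ᵥ v) := fun v =>
      (hMq v).trans (mul_le_mul_of_nonneg_right hMb (dotProduct_self_star_nonneg v))
    refine ⟨hq, ⟨coupM_transpose β g, coupM_diag β g, fun v => (abs_le.1 (hq v)).2, fun i => ?_,
      fun i j => ?_⟩⟩
    · have hc2 : scaleC β n ^ 2 * n = β ^ 2 := by
        rw [scaleC, div_pow, Real.sq_sqrt hn0.le, div_mul_cancel₀ _ hn0.ne']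
      calc ∑ j, coupM β g i j ^ 2 = scaleC β n ^ 2 * ∑ j, symDisorder g i j ^ 2 := by
            rw [Finset.mul_sum]; exact Finset.sum_congr rfl fun j _ => by simp [coupM, mul_pow]
        _ ≤ scaleC β n ^ 2 * (2 * n) := mul_le_mul_of_nonneg_left (hrow i) (sq_nonneg _)
        _ = 2 * β ^ 2 := by rw [← hc2]; ring
    · have hs : symDisorder g i j ^ 2 ≤ 4 * L := by
        have hL0 : 0 ≤ 4 * L := by positivity
        unfold symDisorder; split_ifs
        · exact hent _
        · exact hent _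
        · simpa using hL0
      refine abs_le_of_sq_le_sq ?_ hη.le
      simp only [coupM, of_apply, mul_pow, scaleC, div_pow, Real.sq_sqrt hn0.le]
      calc β ^ 2 / n * symDisorder g i j ^ 2 ≤ β ^ 2 / n * (4 * L) :=
            mul_le_mul_of_nonneg_left hs (by positivity)
        _ = β ^ 2 / (β ^ 2 + 1) * η ^ 2 := by rw [hL]; field_simp
        _ ≤ 1 * η ^ 2 := mul_le_mul_of_nonneg_right
            ((div_le_one (by positivity)).2 (by linarith)) (sq_nonneg _)
        _ = η ^ 2 := one_mul _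
  have hEb : ∀ s : ℝ, s ^ 2 = 1 → ∫ g, Ex s g ∂disorderLaw n ≤
      Real.exp (1 + 5 * β ^ 2 - sn * δ / 4) := fun s hs => by
    have e0 : ∀ g, Ex s g = Real.exp (sn * netMax β s V g) * Real.exp (-(sn * b0)) :=
      fun g => by rw [← Real.exp_add]; simp [Ex, sub_eq_add_neg]
    rw [integral_congr_ae (ae_of_all _ e0), integral_mul_const]
    refine (mul_le_mul_of_nonneg_right (exp_moment_netMax hβ hn hn4 hs V hVne hV1)
      (Real.exp_pos _).le).trans (le_of_eq ?_)
    rw [← Real.exp_add]; congr 1; simp only [b0, sn]; ring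
  have h1b : ∀ i, ∫ g, W1 i g ∂disorderLaw n ≤ Real.exp (-((n:ℝ) * (1 - Real.log 2) / 2)) := by
    intro i
    rw [integral_const_mul, (integral_exp_sum_sq _ (hw1 i)).2]
    have hp : ∏ p, 1 / Real.sqrt (1 - 2 * (incid i p / 4)) ≤ Real.exp ((n:ℝ) * Real.log 2 / 2) := by
      have e : ∀ p, 1 / Real.sqrt (1 - 2 * (incid i p / 4)) =
          Real.exp (incid i p * Real.log 2 / 2) := fun p => by
        rcases incid_mem i p with h | h <;> rw [h]
        · simp
        · rw [one_mul, show (1:ℝ) - 2 * (1 / 4) = 2⁻¹ by norm_num, Real.sqrt_inv, one_div, inv_inv,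
            Real.exp_half, Real.exp_log two_pos]
      rw [Finset.prod_congr rfl fun p _ => e p, ← Real.exp_sum, Real.exp_le_exp, ← Finset.sum_div,
        ← Finset.sum_mul]
      gcongr
      exact sum_incid_le i
    refine (mul_le_mul_of_nonneg_left hp (Real.exp_pos _).le).trans (le_of_eq ?_)
    rw [← Real.exp_add]; congr 1; ring
  have h2b : ∀ q, ∫ g, W2 q g ∂disorderLaw n ≤ Real.sqrt 2 * Real.exp (-L) := fun q => by
    rw [integral_const_mul, (integral_exp_sum_sq _ (hw2 q)).2, mul_comm]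
    refine le_of_eq (congrArg (· * Real.exp (-L)) ?_)
    rw [Finset.prod_eq_single q (fun p _ hp => by simp [hp]) (by simp), if_pos rfl]
    rw [show (1:ℝ) - 2 * (1 / 4) = 2⁻¹ by norm_num, Real.sqrt_inv, one_div, inv_inv]
  simp only [Φ]
  rw [integral_add, integral_add, integral_add (iE 1) (iE (-1)),
    integral_finsetSum _ fun i _ => i1 i, integral_finsetSum _ fun q _ => i2 q]
  rotate_left
  · exact (iE 1).add (iE (-1))
  · exact integrable_finsetSum _ fun i _ => i1 i
  · exact ((iE 1).add (iE (-1))).add (integrable_finsetSum _ fun i _ => i1 i)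
  · exact integrable_finsetSum _ fun q _ => i2 q
  have c1 := Finset.sum_le_sum fun i (_ : i ∈ (Finset.univ : Finset (Fin n))) => h1b i
  have c2 := Finset.sum_le_sum fun q (_ : q ∈ (Finset.univ : Finset (Pairs n))) => h2b q
  simp only [Finset.sum_const, Finset.card_univ, nsmul_eq_mul, Fintype.card_fin] at c1 c2
  have c3 : (Fintype.card (Pairs n) : ℝ) * (Real.sqrt 2 * Real.exp (-L)) ≤
      (n : ℝ) ^ 2 * (Real.sqrt 2 * Real.exp (-L)) := by
    refine mul_le_mul_of_nonneg_right ?_ (by positivity)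
    linarith [card_pairs_le (n := n), Nat.cast_nonneg (α := ℝ) (Fintype.card (Pairs n))]
  have c4 : Real.exp (-L) = Real.exp (-(η ^ 2 / (4 * (β ^ 2 + 1)) * n)) := rfl
  rw [← c4]
  linarith [hEb 1 (one_pow 2), hEb (-1) (by norm_num)]

lemma tendsto_sq_mul_exp {a : ℝ} (ha : 0 < a) :
    Tendsto (fun n : ℕ => (n : ℝ) ^ 2 * Real.exp (-(a * n))) atTop (𝓝 0) := by
  have h := ((Real.tendsto_pow_mul_exp_neg_atTop_nhds_zero 2).comp
    (tendsto_natCast_atTop_atTop.const_mul_atTop ha)).div_const (a ^ 2)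
  rw [zero_div] at h
  refine h.congr fun n => ?_
  simp only [Function.comp_apply, mul_pow]
  field_simp

lemma tendsto_nice_bound (β : ℝ) {δ η : ℝ} (hδ0 : 0 < δ) (hη0 : 0 < η) :
    Tendsto (fun n : ℕ => 2 * Real.exp (1 + 5 * β ^ 2 - Real.sqrt n * δ / 4) +
      (n : ℝ) * Real.exp (-((n : ℝ) * (1 - Real.log 2) / 2)) +
      (n : ℝ) ^ 2 * Real.sqrt 2 * Real.exp (-(η ^ 2 / (4 * (β ^ 2 + 1)) * n))) atTop (𝓝 0) := by
  have h1 : Tendsto (fun n : ℕ => Real.exp (1 + 5 * β ^ 2 - Real.sqrt n * δ / 4)) atTop (𝓝 0) := by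
    refine Real.tendsto_exp_atBot.comp ?_
    refine tendsto_atBot_add_const_left _ _ (tendsto_neg_atTop_atBot.comp ?_)
    exact (((Real.tendsto_sqrt_atTop.comp tendsto_natCast_atTop_atTop).atTop_mul_const
      hδ0).atTop_div_const (by norm_num))
  have hl : 0 < (1 - Real.log 2) / 2 := by
    have := Real.log_two_lt_d9; linarith
  have h2 : Tendsto (fun n : ℕ => (n : ℝ) * Real.exp (-((n : ℝ) * (1 - Real.log 2) / 2)))
      atTop (𝓝 0) := by
    refine squeeze_zero (fun n => by positivity) (fun n => ?_) (tendsto_sq_mul_exp hl)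
    rw [show (n : ℝ) * (1 - Real.log 2) / 2 = (1 - Real.log 2) / 2 * n by ring]
    refine mul_le_mul_of_nonneg_right ?_ (Real.exp_pos _).le
    rcases Nat.eq_zero_or_pos n with h | h
    · simp [h]
    · have : (1:ℝ) ≤ n := by exact_mod_cast h
      nlinarith
  have h3 := (tendsto_sq_mul_exp (show 0 < η ^ 2 / (4 * (β ^ 2 + 1)) by positivity)).mul_const
    (Real.sqrt 2)
  rw [zero_mul] at h3
  have h4 : Tendsto (fun n : ℕ => (n : ℝ) ^ 2 * Real.sqrt 2 *
      Real.exp (-(η ^ 2 / (4 * (β ^ 2 + 1)) * n))) atTop (𝓝 0) :=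
    h3.congr fun n => by ring
  simpa using ((h1.const_mul 2).add h2).add h4

/-- Fast mixing for every `β < 1 / 2`. -/
theorem fast_below_half {β : ℝ} (hβ0 : 0 ≤ β) (hβ : β < 1 / 2) :
    ∃ ρ C : ℝ, 0 < ρ ∧ 0 < C ∧
      Tendsto (fun n => disorderLaw n
        {g | ¬ (ρ ≤ spectralGap β g ∧ MixedAt β g (C * Real.log n))}) atTop (𝓝 0) := by
  obtain ⟨K, τ0, hK, hτ0, hfast⟩ := fast_of_nice
  set δ := 1 - 2 * β with hδ
  have hδ0 : 0 < δ := by linarith
  set c := 2 * β + δ / 2 with hc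
  have hc1 : c < 1 := by linarith
  have hc0 : 0 ≤ c := by linarith
  set R := 2 * β ^ 2 with hR
  have hR0 : 0 ≤ R := by positivity
  have hR2 : max c (2 * R) = c := max_eq_left (by rw [hR]; nlinarith)
  set η := min τ0 ((1 - c) / (2 * (K * R + 1))) with hη
  have hη0 : 0 < η := lt_min hτ0 (div_pos (by linarith) (by positivity))
  set ρ := (1 - c) / 2 with hρ
  have hρ0 : 0 < ρ := by linarith
  have hρle : ρ ≤ 1 - max c (2 * R) - K * η * R := by
    have h1 : η * (2 * (K * R + 1)) ≤ 1 - c :=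
      (le_div_iff₀ (by positivity)).1 (min_le_right _ _)
    rw [hR2, hρ]
    nlinarith
  set Kt := Real.exp (2 * c / ρ) with hKt
  have hKt0 : 0 < Kt := Real.exp_pos _
  refine ⟨ρ, 2 * Kt, hρ0, by positivity, ?_⟩
  refine tendsto_measure_zero (b := fun n : ℕ =>
    2 * Real.exp (1 + 5 * β ^ 2 - Real.sqrt n * δ / 4) +
      (n : ℝ) * Real.exp (-((n : ℝ) * (1 - Real.log 2) / 2)) +
      (n : ℝ) ^ 2 * Real.sqrt 2 * Real.exp (-(η ^ 2 / (4 * (β ^ 2 + 1)) * n))) ?_ ?_
  · filter_upwards [eventually_gt_atTop 0, eventually_sqrt_ge β,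
      tendsto_natCast_atTop_atTop.eventually_ge_atTop (64 * (c + 1))] with n hn hn4 hbig
    refine le_trans (measure_mono ?_) (prob_nice hβ0 hn hn4 hδ0 (by linarith) hη0)
    intro g hg hgood
    refine hg ?_
    obtain ⟨hq, hN⟩ := hgood
    have hn0 : (0:ℝ) < n := by exact_mod_cast hn
    have hn1 : (1:ℝ) ≤ n := by exact_mod_cast hn
    refine hfast n β g c R η ρ _ hn hc0 hR0 hη0.le (min_le_left _ _) hρ0 hρle hq hN
      (mul_nonneg (by positivity) (Real.log_nonneg hn1)) ?_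
    have e : 2 * Kt * Real.log n / Kt = Real.log n + Real.log n := by field_simp; ring
    rw [← hKt, e, Real.exp_add, Real.exp_log hn0]
    calc 64 * ((n : ℝ) * (c + 1)) = n * (64 * (c + 1)) := by ring
      _ ≤ n * n := mul_le_mul_of_nonneg_left hbig hn0.le
  · exact tendsto_nice_bound β hδ0 hη0

end Vale.Agent.P150
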