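import Vale.Agent.P150.Fast

/-!
Gap at most one, and no mixing before `c log n`, for every inverse temperature.
-/

namespace Vale.Agent.P150

open MeasureTheory Real Function Matrix Filter Topology

variable {n : ℕ}

lemma tanh_pair (u w : ℝ) :
    Real.tanh u - Real.tanh w = Real.tanh (u - w) * (1 - Real.tanh u * Real.tanh w) := by
  have hu := (Real.cosh_pos u).ne'
  have hw := (Real.cosh_pos w).ne'
  have hs := (Real.cosh_pos (u - w)).ne'
  simp only [Real.tanh_eq_sinh_div_cosh]
  rw [Real.cosh_sub, Real.sinh_sub] at *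
  field_simp

/-- Half the jump of a conditional mean: size against the flip rate, and linearisation. -/
lemma jump_bounds {T T' d a : ℝ} (ha : |a| ≤ 1 / 4) (hd : |d| ≤ 2 * |a|)
    (hd3 : |2 * a - d| ≤ 8 * |a| ^ 3) (hT : |T| ≤ 1) (hT' : |T'| ≤ 1)
    (he : |T - T'| ≤ |d| * (1 - T * T')) (z : ℝ) (hz : |z| = 1) :
    (d / 2 * (1 - T * T')) ^ 2 ≤ 16 * a ^ 2 * ((1 - z * T) / 2) ∧
      |d / 2 * (1 - T * T') - a * (1 - T ^ 2)| ≤ 10 * a ^ 2 := by
  set w := 1 - T * T' with hw
  have hTT : |T * T'| ≤ 1 := by rw [abs_mul]; exact mul_le_one₀ hT (abs_nonneg _) hT'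
  have hw0 : 0 ≤ w := by linarith [(abs_le.1 hTT).2]
  have hw2 : w ≤ 2 := by linarith [(abs_le.1 hTT).1]
  have hs : T * (T - T') ≤ |T - T'| := by
    refine (le_abs_self _).trans ?_
    rw [abs_mul]; exact mul_le_of_le_one_left (abs_nonneg _) hT
  have hhalf : |d| * w ≤ 1 / 2 * w := mul_le_mul_of_nonneg_right (by linarith) hw0
  have hwT : w ≤ 2 * (1 - T ^ 2) := by
    have : w = 1 - T ^ 2 + T * (T - T') := by rw [hw]; ring
    linarith
  have hT2 : 1 - T ^ 2 ≤ 2 * (1 - |T|) := by
    nlinarith [sq_abs T, sq_nonneg (1 - |T|)]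
  have hzT : |T| ≥ z * T := by
    refine (le_abs_self _).trans ?_
    rw [abs_mul, hz, one_mul]
  constructor
  · have hd2 : d ^ 2 ≤ 4 * a ^ 2 := by
      nlinarith [sq_abs d, sq_abs a, abs_nonneg d, abs_nonneg a]
    have hw8 : w ≤ 8 * ((1 - z * T) / 2) := by linarith
    have hww : w ^ 2 ≤ 16 * ((1 - z * T) / 2) := by
      nlinarith [mul_le_mul_of_nonneg_right hw2 hw0]
    calc (d / 2 * w) ^ 2 = d ^ 2 / 4 * w ^ 2 := by ring
      _ ≤ a ^ 2 * (16 * ((1 - z * T) / 2)) :=
          mul_le_mul (by linarith) hww (sq_nonneg _) (sq_nonneg _)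
      _ = _ := by ring
  · have e : d / 2 * w - a * (1 - T ^ 2) =
        d / 2 * (T * (T - T')) - (2 * a - d) / 2 * (1 - T ^ 2) := by rw [hw]; ring
    have h1 : |d / 2 * (T * (T - T'))| ≤ 4 * a ^ 2 := by
      rw [abs_mul, abs_div, abs_two, abs_mul]
      have h2 : |T| * |T - T'| ≤ |d| * 2 :=
        (mul_le_of_le_one_left (abs_nonneg _) hT).trans
          (he.trans (mul_le_mul_of_nonneg_left hw2 (abs_nonneg _)))
      calc |d| / 2 * (|T| * |T - T'|) ≤ |d| / 2 * (|d| * 2) :=
            mul_le_mul_of_nonneg_left h2 (by positivity)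
        _ = |d| ^ 2 := by ring
        _ ≤ (2 * |a|) ^ 2 := pow_le_pow_left₀ (abs_nonneg _) hd 2
        _ = 4 * a ^ 2 := by rw [mul_pow, sq_abs]; norm_num
    have h3 : |(2 * a - d) / 2 * (1 - T ^ 2)| ≤ a ^ 2 := by
      have hT21 : |1 - T ^ 2| ≤ 1 := abs_le.2
        ⟨by linarith [(sq_le_one_iff_abs_le_one T).2 hT], by linarith [sq_nonneg T]⟩
      rw [abs_mul, abs_div, abs_two]
      calc |2 * a - d| / 2 * |1 - T ^ 2| ≤ 8 * |a| ^ 3 / 2 * 1 :=
            mul_le_mul (by linarith) hT21 (abs_nonneg _) (by positivity)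
        _ = 4 * |a| * |a| ^ 2 := by ring
        _ ≤ 1 * |a| ^ 2 := mul_le_mul_of_nonneg_right (by linarith) (sq_nonneg _)
        _ = a ^ 2 := by rw [one_mul, sq_abs]
    rw [e]
    refine (abs_sub _ _).trans ?_
    nlinarith [sq_nonneg a]

section commutator

variable {J : Matrix (Fin n) (Fin n) ℝ} {h : Fin n → ℝ}

lemma isD_isD_comm (f : (Fin n → Bool) → ℝ) {i j : Fin n} (hij : j ≠ i) (x : Fin n → Bool) :
    isD (isD f j) i x = isD (isD f i) j x := by
  simp only [isD, update_comm hij.symm]; ring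

/-- The commutator of the generator with a discrete derivative, one site. -/
lemma isP_comm (hd : ∀ i, J i i = 0) (f : (Fin n → Bool) → ℝ) {i j : Fin n} (hij : j ≠ i)
    (x : Fin n → Bool) :
    isD (isP J h j f) i x = isP J h j (isD f i) x -
      isD (isT J h j) i x * (isD f j x - 2 * spin x i * isD (isD f i) j x) := by
  rw [isP, ← isD_isD_comm f hij]
  have hs : ∀ b, spin (update x i b) j = spin x j := fun b => by simp [spin, hij]
  have hu : update x i (x i) = x := update_eq_self i x
  simp only [isP, isD, hs]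
  cases hb : x i <;> rw [hb] at hu
  · have : spin x i = -1 := by simp [spin, hb]
    rw [this]; simp only [hu]; ring
  · have : spin x i = 1 := by simp [spin, hb]
    rw [this]; simp only [hu]; ring

lemma isD_isL (hd : ∀ i, J i i = 0) (f : (Fin n → Bool) → ℝ) (i : Fin n) (x : Fin n → Bool) :
    isD (isL J h f) i x = isD f i x + isL J h (isD f i) x -
      ∑ j, (if j = i then 0 else
        isD (isT J h j) i x * (isD f j x - 2 * spin x i * isD (isD f i) j x)) := by
  have e : isD (isL J h f) i x = ∑ j, isD (isP J h j f) i x := by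
    simp only [isD, isL, ← Finset.sum_sub_distrib, Finset.sum_div]
  rw [e, isL, ← Finset.sum_add_sum_compl {i} (fun j => isD (isP J h j f) i x),
    ← Finset.sum_add_sum_compl {i} (fun j => isP J h j (isD f i) x),
    ← Finset.sum_add_sum_compl {i} (fun j => if j = i then (0:ℝ) else _)]
  simp only [Finset.sum_singleton, if_true, isD_isP hd, zero_add]
  have h0 : isP J h i (isD f i) x = 0 := by
    simp [isP, isD]
  rw [h0, zero_add, add_sub_assoc, ← Finset.sum_sub_distrib]
  refine congrArg _ (Finset.sum_congr rfl fun j hj => ?_)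
  have hji : j ≠ i := by simpa using hj
  rw [if_neg hji]
  exact isP_comm hd f hji x

/-- Flip rate. -/
lemma isP_sq (hd : ∀ i, J i i = 0) (v : (Fin n → Bool) → ℝ) (j : Fin n) (x : Fin n → Bool) :
    isP J h j (fun y => v y ^ 2) x =
      2 * v x * isP J h j v x - 4 * ((1 - spin x j * isT J h j x) / 2) * isD v j x ^ 2 := by
  have hu : update x j (x j) = x := update_eq_self j x
  simp only [isP, isD]
  cases hb : x j <;> rw [hb] at hu
  · have : spin x j = -1 := by simp [spin, hb]
    rw [this]; simp only [hu]; ring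
  · have : spin x j = 1 := by simp [spin, hb]
    rw [this]; simp only [hu]; ring

lemma isD_isT_bounds (hJ : Jᵀ = J) (hd : ∀ i, J i i = 0) {i j : Fin n} (hij : j ≠ i)
    (ha : |J i j| ≤ 1 / 4) (x : Fin n → Bool) :
    isD (isT J h j) i x ^ 2 ≤ 16 * J i j ^ 2 * ((1 - spin x j * isT J h j x) / 2) ∧
      |isD (isT J h j) i x - J i j * (1 - isT J h j x ^ 2)| ≤ 10 * J i j ^ 2 := by
  set A := h j + (J *ᵥ spin x) j - J i j * spin x i with hA
  have hji : J j i = J i j := congrFun (congrFun hJ i) j
  have hval : ∀ b, isT J h j (update x i b) = Real.tanh (A + J i j * sgn b) := fun b => by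
    simp only [isT, hA]
    congr 1
    rw [spin_update_eq, mulVec_add]
    simp [mulVec_single, hji]; ring
  have hu : update x i (x i) = x := update_eq_self i x
  have hx : isT J h j x = Real.tanh (A + J i j * sgn (x i)) := by rw [← hval, hu]
  have hD : isD (isT J h j) i x = Real.tanh (2 * J i j) / 2 *
      (1 - Real.tanh (A + J i j) * Real.tanh (A - J i j)) := by
    rw [isD, hval, hval]
    have := tanh_pair (A + J i j) (A - J i j)
    rw [show A + J i j - (A - J i j) = 2 * J i j by ring] at this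
    simp only [sgn, if_true, Bool.false_eq_true, if_false]
    rw [show A + J i j * 1 = A + J i j by ring, show A + J i j * -1 = A - J i j by ring, this]
    ring
  have hd2 : |Real.tanh (2 * J i j)| ≤ 2 * |J i j| :=
    (abs_tanh_le_abs _).trans_eq (by rw [abs_mul, abs_two])
  have hd3 : |2 * J i j - Real.tanh (2 * J i j)| ≤ 8 * |J i j| ^ 3 :=
    (abs_sub_tanh_le _).trans_eq (by rw [abs_mul, abs_two]; ring)
  have hl : ∀ y, |Real.tanh y| ≤ 1 := fun y =>
    abs_le.2 ⟨(Real.neg_one_lt_tanh y).le, (Real.tanh_lt_one y).le⟩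
  have hpos : ∀ y z, 0 ≤ 1 - Real.tanh y * Real.tanh z := fun y z => by
    have : |Real.tanh y * Real.tanh z| ≤ 1 := by
      rw [abs_mul]; exact mul_le_one₀ (hl y) (abs_nonneg _) (hl z)
    linarith [(abs_le.1 this).2]
  have hz := abs_spin x j
  have hdiff : |Real.tanh (A + J i j) - Real.tanh (A - J i j)| ≤ |Real.tanh (2 * J i j)| *
      (1 - Real.tanh (A + J i j) * Real.tanh (A - J i j)) := by
    rw [tanh_pair, show A + J i j - (A - J i j) = 2 * J i j by ring, abs_mul,
      abs_of_nonneg (hpos _ _)]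
  rw [hD, hx]
  cases hb : x i <;> simp only [sgn, if_true, Bool.false_eq_true, if_false]
  · rw [show A + J i j * -1 = A - J i j by ring, mul_comm (Real.tanh (A + J i j))]
    refine jump_bounds ha hd2 hd3 (hl _) (hl _) ?_ _ hz
    rw [abs_sub_comm, mul_comm (Real.tanh (A - J i j))]
    exact hdiff
  · rw [show A + J i j * 1 = A + J i j by ring]
    exact jump_bounds ha hd2 hd3 (hl _) (hl _) hdiff _ hz

lemma bilin_le {c : ℝ} (hJ : Jᵀ = J) (hc : ∀ v : Fin n → ℝ, |v ⬝ᵥ J *ᵥ v| ≤ c * (v ⬝ᵥ v))
    (u w : Fin n → ℝ) : 2 * (u ⬝ᵥ J *ᵥ w) ≤ c * (u ⬝ᵥ u + w ⬝ᵥ w) := by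
  have h1 := (abs_le.1 (hc (u + w))).2
  have h2 := (abs_le.1 (hc (u - w))).1
  have hs : w ⬝ᵥ J *ᵥ u = u ⬝ᵥ J *ᵥ w := by
    rw [Matrix.dotProduct_mulVec, ← Matrix.mulVec_transpose, hJ, dotProduct_comm]
  simp only [mulVec_add, mulVec_sub, dotProduct_add, add_dotProduct, dotProduct_sub,
    sub_dotProduct, hs, dotProduct_comm w u] at h1 h2
  linarith

/-- The gradient growth inequality. -/
lemma grad_growth {c R : ℝ} (hc0 : 0 ≤ c) (hR : 0 ≤ R) (hN : IsNice J c R (1 / 4))
    (hc : ∀ v : Fin n → ℝ, |v ⬝ᵥ J *ᵥ v| ≤ c * (v ⬝ᵥ v))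
    (f : (Fin n → Bool) → ℝ) (x : Fin n → Bool) :
    isL J h (fun y => ∑ i, isD f i y ^ 2) x - ∑ i, 2 * (isD f i x * isD (isL J h f) i x) ≤
      (2 * c + 40 * R) * ∑ i, isD f i x ^ 2 := by
  set v := fun i => isD f i x with hv
  set p := fun j => (1 - spin x j * isT J h j x) / 2 with hp
  set b := fun i j => isD (isD f i) j x with hb
  set S := fun j => 1 - isT J h j x ^ 2 with hS
  have hp0 : ∀ j, 0 ≤ p j := fun j => by
    have h1 : |spin x j * isT J h j x| ≤ 1 := by
      rw [abs_mul, abs_spin, one_mul]; exact abs_isT_le J h j x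
    simp only [hp]; linarith [(abs_le.1 h1).2]
  have hL : isL J h (fun y => ∑ i, isD f i y ^ 2) x =
      ∑ i, ∑ j, (2 * v i * isP J h j (isD f i) x - 4 * p j * b i j ^ 2) := by
    rw [Finset.sum_comm, isL]
    refine Finset.sum_congr rfl fun j _ => ?_
    rw [isP, isD, ← Finset.sum_sub_distrib, Finset.sum_div, Finset.mul_sum]
    exact Finset.sum_congr rfl fun i _ => isP_sq hN.diag (isD f i) j x
  have key : ∀ i j, -4 * p j * b i j ^ 2 + 2 * v i * (if j = i then (0:ℝ) else
      isD (isT J h j) i x * (v j - 2 * spin x i * b i j)) ≤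
      2 * (v i * (J i j * (S j * v j))) +
        (10 * J i j ^ 2 * v i ^ 2 + 10 * J i j ^ 2 * v j ^ 2) + 16 * J i j ^ 2 * v i ^ 2 := by
    intro i j
    by_cases hij : j = i
    · subst hij
      simp only [if_true, hN.diag, mul_zero, add_zero]
      nlinarith [mul_nonneg (hp0 j) (sq_nonneg (b j j))]
    · rw [if_neg hij]
      obtain ⟨h1, h2⟩ := isD_isT_bounds (h := h) hN.symm hN.diag hij (hN.entry i j) x
      set D := isD (isT J h j) i x
      have h3 : -4 * p j * b i j ^ 2 - 4 * v i * D * spin x i * b i j ≤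
          16 * J i j ^ 2 * v i ^ 2 := by
        have hs := spin_mul_self x i
        rcases (hp0 j).eq_or_lt with h0 | h0
        · have hD0 : D = 0 := by
            have : D ^ 2 ≤ 0 := by
              refine h1.trans (le_of_eq ?_)
              show 16 * J i j ^ 2 * p j = 0
              rw [← h0, mul_zero]
            nlinarith
          rw [hD0, ← h0]; simp; positivity
        · refine le_of_mul_le_mul_left ?_ h0
          have h4 := mul_le_mul_of_nonneg_left h1 (sq_nonneg (v i))
          have e : p j * (-4 * p j * b i j ^ 2 - 4 * v i * D * spin x i * b i j) =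
              v i ^ 2 * D ^ 2 * (spin x i * spin x i) -
                (2 * p j * b i j + v i * D * spin x i) ^ 2 := by ring
          rw [e, hs, mul_one]
          have h5 : p j * (16 * J i j ^ 2 * v i ^ 2) = v i ^ 2 * (16 * J i j ^ 2 * p j) := by ring
          rw [h5]
          have h7 : v i ^ 2 * D ^ 2 ≤ v i ^ 2 * (16 * J i j ^ 2 * p j) := h4
          linarith [sq_nonneg (2 * p j * b i j + v i * D * spin x i)]
      have h6 : 2 * (v i * v j) * (D - J i j * S j) ≤
          10 * J i j ^ 2 * v i ^ 2 + 10 * J i j ^ 2 * v j ^ 2 := by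
        refine (le_abs_self _).trans ?_
        rw [abs_mul]
        calc |2 * (v i * v j)| * |D - J i j * S j| ≤ (v i ^ 2 + v j ^ 2) * (10 * J i j ^ 2) := by
              refine mul_le_mul (abs_le.2 ⟨?_, ?_⟩) h2 (abs_nonneg _) (by positivity)
              · nlinarith [sq_nonneg (v i + v j)]
              · nlinarith [sq_nonneg (v i - v j)]
          _ = _ := by ring
      linarith
  have e : ∀ i, 2 * (v i * isD (isL J h f) i x) = 2 * v i ^ 2 +
      ∑ j, (2 * v i * isP J h j (isD f i) x - 2 * v i * (if j = i then (0:ℝ) else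
        isD (isT J h j) i x * (v j - 2 * spin x i * b i j))) := fun i => by
    rw [isD_isL hN.diag, Finset.sum_sub_distrib, ← Finset.mul_sum, ← Finset.mul_sum]
    simp only [isL, hv, hb]; ring
  rw [hL, Finset.sum_congr rfl fun i _ => e i, Finset.sum_add_distrib, sub_add_eq_sub_sub_swap,
    ← Finset.sum_sub_distrib]
  simp only [← Finset.sum_sub_distrib]
  have hsum := Finset.sum_le_sum fun i (_ : i ∈ (Finset.univ : Finset (Fin n))) =>
    Finset.sum_le_sum fun j (_ : j ∈ (Finset.univ : Finset (Fin n))) => key i j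
  have hrow : ∀ (a : ℝ) i, ∑ j, a * J i j ^ 2 * v i ^ 2 ≤ |a| * R * v i ^ 2 := fun a i => by
    rw [← Finset.sum_mul, ← Finset.mul_sum]
    refine mul_le_mul_of_nonneg_right ?_ (sq_nonneg _)
    exact (mul_le_mul_of_nonneg_right (le_abs_self a) (Finset.sum_nonneg fun _ _ => sq_nonneg _)).trans
      (mul_le_mul_of_nonneg_left (hN.row i) (abs_nonneg a))
  have hcol : ∑ i, ∑ j, 10 * J i j ^ 2 * v j ^ 2 ≤ ∑ i, 10 * R * v i ^ 2 := by
    rw [Finset.sum_comm]
    refine Finset.sum_le_sum fun j _ => ?_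
    have := hrow 10 j
    rw [abs_of_nonneg (by norm_num : (0:ℝ) ≤ 10)] at this
    refine le_trans (le_of_eq ?_) this
    refine Finset.sum_congr rfl fun i _ => ?_
    rw [show J i j = J j i from congrFun (congrFun hN.symm j) i]
  have hlin : ∑ i, ∑ j, 2 * (v i * (J i j * (S j * v j))) ≤ 2 * c * ∑ i, v i ^ 2 := by
    have h1 := bilin_le hN.symm hc v (fun j => S j * v j)
    have h2 : (fun j => S j * v j) ⬝ᵥ (fun j => S j * v j) ≤ v ⬝ᵥ v := by
      refine Finset.sum_le_sum fun j _ => ?_
      have hS0 : 0 ≤ S j := by simp only [hS]; linarith [isT_sq_lt J h j x]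
      have hS1 : S j ≤ 1 := by simp only [hS]; linarith [sq_nonneg (isT J h j x)]
      have : S j * S j ≤ 1 := mul_le_one₀ hS1 hS0 hS1
      nlinarith [mul_self_nonneg (v j)]
    have h3 : v ⬝ᵥ v = ∑ i, v i ^ 2 := by simp [dotProduct, pow_two]
    have h4 : ∑ i, ∑ j, 2 * (v i * (J i j * (S j * v j))) =
        2 * (v ⬝ᵥ J *ᵥ fun j => S j * v j) := by
      simp only [dotProduct, Matrix.mulVec, Finset.mul_sum]
    rw [h4]
    nlinarith [mul_le_mul_of_nonneg_left h2 hc0]
  have h10 := Finset.sum_le_sum fun i (_ : i ∈ (Finset.univ : Finset (Fin n))) => hrow 10 i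
  have h16 := Finset.sum_le_sum fun i (_ : i ∈ (Finset.univ : Finset (Fin n))) => hrow 16 i
  norm_num [Finset.sum_add_distrib, ← Finset.mul_sum] at hsum hlin h10 h16 hcol ⊢
  have hvv : 0 ≤ ∑ i, v i ^ 2 := Finset.sum_nonneg fun _ _ => sq_nonneg _
  nlinarith [mul_nonneg hR hvv]

end commutator

variable (β : ℝ) (g : Pairs n → ℝ)

lemma evolve_zero' (f : (Fin n → Bool) → ℝ) : evolve β g f 0 = f := by simp [evolve]

/-- Derivative of the semigroup at a running time applied to a running observable. -/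
lemma hasDerivAt_evolve_run {G : ℝ → (Fin n → Bool) → ℝ} {G' : (Fin n → Bool) → ℝ} {t u : ℝ}
    (hG : ∀ y, HasDerivAt (fun s => G s y) (G' y) u) (x : Fin n → Bool) :
    HasDerivAt (fun s => evolve β g (G s) (t - s) x)
      (evolve β g (fun y => G' y - (generator β g *ᵥ G u) y) (t - u) x) u := by
  set E := fun s y => evolve β g (Pi.single y 1) s x with hE
  have e0 : ∀ (F : (Fin n → Bool) → ℝ) s, evolve β g F s x = ∑ y, E s y * F y := fun F s => by
    simp [evolve, hE, Matrix.mulVec, dotProduct, Pi.single_apply]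
  have hfun : (fun s => evolve β g (G s) (t - s) x) = fun s => ∑ y, E (t - s) y * G s y :=
    funext fun s => e0 _ _
  rw [hfun]
  have hd : ∀ y, HasDerivAt (fun s => E (t - s) y)
      (-evolve β g (generator β g *ᵥ Pi.single y 1) (t - u) x) u := fun y =>
    ((hasDerivAt_evolve' β g (Pi.single y 1) (t - u) x).comp u
      ((hasDerivAt_id u).const_sub t)).congr_deriv (by simp)
  refine (HasDerivAt.fun_sum fun y _ => (hd y).fun_mul (hG y)).congr_deriv ?_
  rw [e0]
  simp only [mul_sub, Finset.sum_sub_distrib, Finset.sum_add_distrib, neg_mul,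
    Finset.sum_neg_distrib]
  rw [neg_add_eq_sub]
  congr 1
  simp only [Matrix.mulVec, dotProduct, Finset.mul_sum, evolve, hE, Pi.single_apply, mul_ite,
    mul_one, mul_zero, Finset.sum_ite_eq', Finset.mem_univ, if_true, Finset.sum_mul]
  rw [Finset.sum_comm]
  exact Finset.sum_congr rfl fun a _ => Finset.sum_congr rfl fun b _ => by ring

lemma evolve_mono {F F' : (Fin n → Bool) → ℝ} (hF : ∀ y, F y ≤ F' y) {t : ℝ} (ht : 0 ≤ t)
    (x : Fin n → Bool) : evolve β g F t x ≤ evolve β g F' t x :=
  Finset.sum_le_sum fun y _ => mul_le_mul_of_nonneg_left (hF y) (exp_gen_nonneg β g ht x y)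

lemma evolve_const (a t : ℝ) (x : Fin n → Bool) : evolve β g (fun _ => a) t x = a := by
  have h := evolve_one β g t x
  simp only [evolve, Matrix.mulVec, dotProduct, mul_one] at h ⊢
  rw [← Finset.sum_mul, h, one_mul]

/-- Variance of a linear statistic along the dynamics. -/
theorem variance_growth {c R : ℝ} (hc0 : 0 ≤ c) (hR : 0 ≤ R)
    (hN : IsNice (coupM β g) c R (1 / 4))
    (hc : ∀ v : Fin n → ℝ, |v ⬝ᵥ coupM β g *ᵥ v| ≤ c * (v ⬝ᵥ v))
    (σ x : Fin n → Bool) {t : ℝ} (ht : 0 ≤ t) :
    evolve β g (fun y => linObs (spin σ) y ^ 2) t x - evolve β g (linObs (spin σ)) t x ^ 2 ≤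
      4 * n * (t * Real.exp ((2 * c + 40 * R) * t)) := by
  set Λ := 2 * c + 40 * R with hΛdef
  have hΛ : 0 ≤ Λ := by positivity
  set F := evolve β g (linObs (spin σ)) with hF
  have hdF : ∀ u y, HasDerivAt (fun s => F s y) (-isL (coupM β g) 0 (F u) y) u := fun u y => by
    have := hasDerivAt_evolve β g (linObs (spin σ)) u y
    rwa [generator_mulVec_eq] at this
  have hG0 : ∀ y, ∑ i, isD (linObs (spin σ)) i y ^ 2 = n := fun y => by
    have : ∀ i, isD (linObs (spin σ)) i y = spin σ i := fun i => by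
      simp only [isD, linObs]
      rw [spin_update_eq, spin_update_eq]
      simp [dotProduct_add, dotProduct_single, sgn]; ring
    simp only [this, pow_two, spin_mul_self, Finset.sum_const, Finset.card_univ, Fintype.card_fin,
      nsmul_eq_mul, mul_one]
  have grad : ∀ u, 0 ≤ u → ∀ y, ∑ i, isD (F u) i y ^ 2 ≤ n * Real.exp (Λ * u) := by
    intro u hu y
    set G := fun s z => ∑ i, isD (F s) i z ^ 2 with hGdef
    have hdG : ∀ s z, HasDerivAt (fun s => G s z)
        (-∑ i, 2 * (isD (F s) i z * isD (isL (coupM β g) 0 (F s)) i z)) s := fun s z => by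
      refine (HasDerivAt.fun_sum fun i _ => ((((hdF s (update z i true)).fun_sub
        (hdF s (update z i false))).div_const 2).fun_pow 2)).congr_deriv ?_
      rw [← Finset.sum_neg_distrib]
      exact Finset.sum_congr rfl fun i _ => by simp [isD]; ring
    set ψ := fun s => evolve β g (G s) (u - s) y with hψ
    have hanti : AntitoneOn (fun s => ψ s * Real.exp (-(Λ * s))) (Set.Icc 0 u) := by
      refine antitoneOn_of_hasDerivWithinAt_nonpos (convex_Icc 0 u)
        (fun s hs => ((hasDerivAt_evolve_run β g (hdG s) y).fun_mul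
          (((hasDerivAt_id s).const_mul Λ).neg.exp)).continuousAt.continuousWithinAt)
        (fun s hs => ((hasDerivAt_evolve_run β g (hdG s) y).fun_mul
          (((hasDerivAt_id s).const_mul Λ).neg.exp)).hasDerivWithinAt) fun s hs => ?_
      have hs' := interior_subset hs
      have h1 : evolve β g (fun z => (-∑ i, 2 * (isD (F s) i z *
          isD (isL (coupM β g) 0 (F s)) i z)) - (generator β g *ᵥ G s) z) (u - s) y ≤
          Λ * ψ s := by
        refine (evolve_mono β g (F' := fun z => Λ * G s z) (fun z => ?_)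
          (by linarith [hs'.2]) y).trans (le_of_eq ?_)
        · have := grad_growth (h := (0 : Fin n → ℝ)) hc0 hR hN hc (F s) z
          rw [generator_mulVec_eq]
          simp only [hGdef] at this ⊢
          linarith
        · simp only [hψ, evolve, Matrix.mulVec, dotProduct, Finset.mul_sum]
          exact Finset.sum_congr rfl fun _ _ => by ring
      simp only [id_eq, mul_one, Pi.neg_apply, hψ] at h1 ⊢
      nlinarith [mul_le_mul_of_nonneg_right h1 (Real.exp_pos (-(Λ * s))).le]
    have h := hanti (Set.left_mem_Icc.2 hu) (Set.right_mem_Icc.2 hu) hu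
    simp only [hψ, sub_self, sub_zero, mul_zero, neg_zero, Real.exp_zero, mul_one,
      evolve_zero'] at h
    have e0 : G 0 = fun _ => (n:ℝ) := funext fun z => by
      simp only [hGdef, hF, evolve_zero', hG0]
    rw [e0, evolve_const] at h
    calc ∑ i, isD (F u) i y ^ 2 = G u y * Real.exp (-(Λ * u)) * Real.exp (Λ * u) := by
          rw [mul_assoc, ← Real.exp_add]; simp [hGdef]
      _ ≤ _ := mul_le_mul_of_nonneg_right h (Real.exp_pos _).le
  set M := 4 * (n:ℝ) * Real.exp (Λ * t) with hM
  set Φ := fun s => evolve β g (fun z => F s z ^ 2) (t - s) x with hΦ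
  have hdΦ : ∀ s, HasDerivAt (fun s => Φ s + M * s)
      (evolve β g (fun z => 2 * F s z * -isL (coupM β g) 0 (F s) z -
        (generator β g *ᵥ fun w => F s w ^ 2) z) (t - s) x + M) s := fun s => by
    simpa using (hasDerivAt_evolve_run β g (G := fun s z => F s z ^ 2)
      (fun z => ((hdF s z).fun_pow 2).congr_deriv (by ring)) x).fun_add
      ((hasDerivAt_id s).const_mul M)
  have hmono : MonotoneOn (fun s => Φ s + M * s) (Set.Icc 0 t) := by
    refine monotoneOn_of_hasDerivWithinAt_nonneg (convex_Icc 0 t)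
      (fun s _ => (hdΦ s).continuousAt.continuousWithinAt)
      (fun s _ => (hdΦ s).hasDerivWithinAt) fun s hs => ?_
    have hs' := interior_subset hs
    have h1 := evolve_mono β g (F := fun _ => -M)
      (F' := fun z => 2 * F s z * -isL (coupM β g) 0 (F s) z -
        (generator β g *ᵥ fun w => F s w ^ 2) z) (fun z => ?_) (by linarith [hs'.2] : 0 ≤ t - s) x
    · rw [evolve_const] at h1; linarith
    · rw [generator_mulVec_eq]
      simp only [isL, isP_sq (coupM_diag β g) (F s), Finset.sum_sub_distrib, ← Finset.mul_sum]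
      have h2 : ∑ j, 4 * ((1 - spin z j * isT (coupM β g) 0 j z) / 2) * isD (F s) j z ^ 2 ≤ M := by
        calc _ ≤ ∑ j, 4 * isD (F s) j z ^ 2 := by
              refine Finset.sum_le_sum fun j _ => mul_le_mul_of_nonneg_right ?_ (sq_nonneg _)
              have : |spin z j * isT (coupM β g) 0 j z| ≤ 1 := by
                rw [abs_mul, abs_spin, one_mul]; exact abs_isT_le _ _ j z
              linarith [(abs_le.1 this).1]
          _ ≤ 4 * (n * Real.exp (Λ * s)) := by
              rw [← Finset.mul_sum]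
              exact mul_le_mul_of_nonneg_left (grad s hs'.1 z) (by norm_num)
          _ ≤ M := by
              rw [hM, mul_assoc]
              gcongr
              exact hs'.2
      linarith
  have h := hmono (Set.left_mem_Icc.2 ht) (Set.right_mem_Icc.2 ht) ht
  simp only [hΦ, hF, evolve_zero', sub_zero, sub_self, mul_zero, add_zero] at h
  have e : 4 * (n:ℝ) * (t * Real.exp (Λ * t)) = M * t := by rw [hM]; ring
  rw [e]
  linarith

/-- Stationary autocorrelation of a spin is at least `exp (-t)`. -/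
lemma autocorr_ge (i : Fin n) {t : ℝ} (ht : 0 ≤ t) :
    Real.exp (-t) ≤
      ∑ x, gibbs β g x * spin x i * evolve β g (fun y => spin y i) t x := by
  set f : (Fin n → Bool) → ℝ := fun y => spin y i with hf
  set F := evolve β g f with hF
  -- the two-time correlation does not depend on where it is split
  set K := fun u => ∑ x, gibbs β g x * F u x * F (t - u) x with hK
  have hdK : ∀ u, HasDerivAt K 0 u := fun u => by
    have hs : ∀ x, HasDerivAt (fun s => F (t - s) x) (-(generator β g *ᵥ F (t - u)) x) u := fun x =>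
      ((hasDerivAt_evolve β g f (t - u) x).comp u
        ((hasDerivAt_id u).const_sub t)).congr_deriv (by simp [hF])
    refine (HasDerivAt.fun_sum fun x _ =>
      ((hasDerivAt_evolve β g f u x).const_mul (gibbs β g x)).fun_mul (hs x)).congr_deriv ?_
    rw [Finset.sum_add_distrib]
    have e1 : ∑ x, gibbs β g x * (generator β g *ᵥ F u) x * F (t - u) x =
        ∑ x, gibbs β g x * F (t - u) x * (generator β g *ᵥ F u) x :=
      Finset.sum_congr rfl fun x _ => by ring
    rw [e1, generator_symm β g (F (t - u)) (F u), ← Finset.sum_add_distrib]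
    exact Finset.sum_eq_zero fun x _ => by simp only [hF]; ring
  have hc := is_const_of_deriv_eq_zero (fun u => (hdK u).differentiableAt) (fun u => (hdK u).deriv)
    0 (t / 2)
  simp only [hK, hF, sub_zero, evolve_zero', show t - t / 2 = t / 2 by ring] at hc
  rw [hc]
  -- `exp (2u) * ‖P_u f‖²` is convex with nonnegative initial slope
  set w := fun u => ∑ x, gibbs β g x * (Real.exp u * F u x) *
    (Real.exp u * (F u x + (generator β g *ᵥ F u) x)) with hw
  set φ := fun u => ∑ x, gibbs β g x * (Real.exp u * F u x) ^ 2 with hφ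
  have hdE : ∀ u x, HasDerivAt (fun s => Real.exp s * F s x)
      (Real.exp u * (F u x + (generator β g *ᵥ F u) x)) u := fun u x =>
    ((Real.hasDerivAt_exp u).fun_mul (hasDerivAt_evolve β g f u x)).congr_deriv
      (by simp only [hF]; ring)
  have hdφ : ∀ u, HasDerivAt φ (2 * w u) u := fun u => by
    refine (HasDerivAt.fun_sum fun x _ => ((hdE u x).fun_pow 2).const_mul (gibbs β g x)).congr_deriv ?_
    rw [hw, Finset.mul_sum]
    exact Finset.sum_congr rfl fun x _ => by ring
  have hdw : ∀ u, HasDerivAt w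
      (2 * ∑ x, gibbs β g x * (Real.exp u * (F u x + (generator β g *ᵥ F u) x)) ^ 2) u := fun u => by
    have hg : ∀ x, HasDerivAt (fun s => (generator β g *ᵥ F s) x)
        ((generator β g *ᵥ (generator β g *ᵥ F u)) x) u := fun x =>
      HasDerivAt.fun_sum fun y _ => (hasDerivAt_evolve β g f u y).const_mul _
    refine (HasDerivAt.fun_sum fun x _ => ((hdE u x).const_mul (gibbs β g x)).fun_mul
      ((Real.hasDerivAt_exp u).fun_mul
        ((hasDerivAt_evolve β g f u x).fun_add (hg x)))).congr_deriv ?_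
    have hsym := generator_symm β g (F u) (generator β g *ᵥ F u)
    simp only [Finset.mul_sum]
    have hL : ∀ x, gibbs β g x * (Real.exp u * F u x) *
        (Real.exp u * (generator β g *ᵥ (generator β g *ᵥ F u)) x) =
        Real.exp u ^ 2 * (gibbs β g x * F u x * (generator β g *ᵥ (generator β g *ᵥ F u)) x) :=
      fun x => by ring
    have hR' : ∀ x, gibbs β g x * (Real.exp u * (generator β g *ᵥ F u) x) *
        (Real.exp u * (generator β g *ᵥ F u) x) =
        Real.exp u ^ 2 * (gibbs β g x * (generator β g *ᵥ F u) x * (generator β g *ᵥ F u) x) :=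
      fun x => by ring
    have hh : ∑ x, gibbs β g x * (Real.exp u * F u x) *
        (Real.exp u * (generator β g *ᵥ (generator β g *ᵥ F u)) x) =
        ∑ x, gibbs β g x * (Real.exp u * (generator β g *ᵥ F u) x) *
          (Real.exp u * (generator β g *ᵥ F u) x) := by
      simp only [hL, hR', ← Finset.mul_sum, hsym]
    rw [← sub_eq_zero, ← Finset.sum_sub_distrib]
    rw [← sub_eq_zero, ← Finset.sum_sub_distrib] at hh
    rw [← hh]
    exact Finset.sum_congr rfl fun x _ => by simp only [hF, evolve]; ring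
  have hw0 : 0 ≤ w 0 := by
    have h1 : dirichletForm β g f ≤ 1 := by
      rw [dirichletForm_eq_isE]
      have e : ∀ j, isE (coupM β g) 0 j f ≤ if j = i then 1 else 0 := fun j => by
        rcases eq_or_ne j i with rfl | hj
        · rw [if_pos rfl, ← isMean_const (coupM β g) 0 1]
          refine isMean_mono _ _ fun x => ?_
          simp [isD, hf, spin]
          positivity
        · rw [if_neg hj]
          simp [isE, isD, hf, spin, hj.symm, isMean_const]
      exact (Finset.sum_le_sum fun j _ => e j).trans (by simp)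
    have h2 : w 0 = 1 - dirichletForm β g f := by
      simp only [hw, hF, evolve_zero', Real.exp_zero, one_mul, mul_add, Finset.sum_add_distrib,
        dirichletForm, sub_neg_eq_add]
      congr 1
      rw [← sum_gibbs β g]
      exact Finset.sum_congr rfl fun x _ => by rw [mul_assoc, hf]; simp [spin_mul_self]
    linarith
  have hwmono : Monotone w := monotone_of_hasDerivAt_nonneg hdw fun u =>
    mul_nonneg zero_le_two (Finset.sum_nonneg fun x _ =>
      mul_nonneg (gibbs_pos β g x).le (sq_nonneg _))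
  have hφmono : MonotoneOn φ (Set.Ici 0) :=
    monotoneOn_of_hasDerivWithinAt_nonneg (convex_Ici 0)
      (fun u _ => (hdφ u).continuousAt.continuousWithinAt) (fun u _ => (hdφ u).hasDerivWithinAt)
      fun u hu => mul_nonneg zero_le_two
        (hw0.trans (hwmono (interior_subset (s := Set.Ici (0:ℝ)) hu)))
  have h := hφmono Set.self_mem_Ici (show t / 2 ∈ Set.Ici (0:ℝ) by simp; linarith) (by linarith)
  have e0 : φ 0 = 1 := by
    simp only [hφ, hF, evolve_zero', Real.exp_zero, one_mul]
    rw [← sum_gibbs β g]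
    exact Finset.sum_congr rfl fun x _ => by simp [hf, pow_two, spin_mul_self]
  have e1 : φ (t / 2) = Real.exp t * ∑ x, gibbs β g x * F (t / 2) x * F (t / 2) x := by
    rw [hφ, Finset.mul_sum]
    refine Finset.sum_congr rfl fun x _ => ?_
    have : Real.exp t = Real.exp (t / 2) * Real.exp (t / 2) := by rw [← Real.exp_add, add_halves]
    rw [this]; ring
  rw [e0, e1] at h
  have := mul_le_mul_of_nonneg_left h (Real.exp_pos (-t)).le
  rw [mul_one, ← mul_assoc, ← Real.exp_add, neg_add_cancel, Real.exp_zero, one_mul] at this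
  exact this

lemma indicator_cheb (a m : ℝ) {d : ℝ} (hd : 0 < d) (P : (a - m) ^ 2 < d ^ 2 → False) :
    1 ≤ (a - m) ^ 2 / d ^ 2 := by
  rw [le_div_iff₀ (by positivity), one_mul]
  exact not_lt.1 fun h => P h

/-- No mixing while `64 t exp ((Λ + 2) t) < n`. -/
theorem not_mixedAt_early {c R : ℝ} (hn : 0 < n) (hc0 : 0 ≤ c) (hR : 0 ≤ R)
    (hN : IsNice (coupM β g) c R (1 / 4))
    (hc : ∀ v : Fin n → ℝ, |v ⬝ᵥ coupM β g *ᵥ v| ≤ c * (v ⬝ᵥ v)) {t : ℝ} (ht : 0 ≤ t)
    (hbig : 64 * (t * Real.exp ((2 * c + 40 * R + 2) * t)) < n) : ¬ MixedAt β g t := by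
  intro hm
  have hn0 : (0:ℝ) < n := by exact_mod_cast hn
  set P := NormedSpace.exp (t • generator β g) with hP
  set F := fun x => evolve β g (linObs (spin x)) t x with hFd
  have hlin : ∀ σ y, evolve β g (linObs (spin σ)) t y =
      ∑ i, spin σ i * evolve β g (fun z => spin z i) t y := fun σ y => by
    simp only [evolve, linObs, Matrix.mulVec, dotProduct, Finset.mul_sum]
    rw [Finset.sum_comm]
    exact Finset.sum_congr rfl fun _ _ => Finset.sum_congr rfl fun _ _ => by ring
  obtain ⟨x, hx⟩ : ∃ x, (n:ℝ) * Real.exp (-t) ≤ F x := by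
    by_contra hh
    push Not at hh
    have h1 : ∑ x, gibbs β g x * F x < ∑ x, gibbs β g x * ((n:ℝ) * Real.exp (-t)) :=
      Finset.sum_lt_sum_of_nonempty Finset.univ_nonempty fun x _ =>
        mul_lt_mul_of_pos_left (hh x) (gibbs_pos β g x)
    rw [← Finset.sum_mul, sum_gibbs, one_mul] at h1
    have h2 : (n:ℝ) * Real.exp (-t) ≤ ∑ x, gibbs β g x * F x := by
      have h3 := Finset.sum_le_sum fun i (_ : i ∈ (Finset.univ : Finset (Fin n))) =>
        autocorr_ge β g i ht
      simp only [Finset.sum_const, Finset.card_univ, Fintype.card_fin, nsmul_eq_mul] at h3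
      refine h3.trans (le_of_eq ?_)
      rw [Finset.sum_comm]
      refine Finset.sum_congr rfl fun x _ => ?_
      simp only [hFd, hlin, Finset.mul_sum, mul_assoc]
    linarith
  set f := linObs (spin x) with hf
  obtain ⟨y, hy⟩ : ∃ y, evolve β g f t y ≤ 0 := by
    by_contra hh
    push Not at hh
    have h1 : 0 < gibbsMean β g (evolve β g f t) :=
      Finset.sum_pos (fun z _ => mul_pos (gibbs_pos β g z) (hh z)) Finset.univ_nonempty
    rw [gibbsMean_evolve, hf, gibbsMean_linObs] at h1
    exact lt_irrefl _ h1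
  set a := evolve β g f t x with ha
  set b := evolve β g f t y with hb
  have hne : 0 < (n:ℝ) * Real.exp (-t) := by positivity
  set d := (a - b) / 2 with hd
  have hax : (n:ℝ) * Real.exp (-t) ≤ a := hx
  have hd0 : 0 < d := by rw [hd]; linarith
  have hdb : (n:ℝ) * Real.exp (-t) / 2 ≤ d := by rw [hd]; linarith
  set mid := (a + b) / 2 with hmid
  set H := fun z => if mid < f z then (1:ℝ) / 2 else -(1 / 2) with hH
  set V := 4 * (n:ℝ) * (t * Real.exp ((2 * c + 40 * R) * t)) with hV
  have row : ∀ z, ∑ w, P z w = 1 := fun z => by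
    have := evolve_one β g t z
    simpa [evolve, hP, Matrix.mulVec, dotProduct] using this
  have hvar : ∀ z m, m = evolve β g f t z →
      ∑ w, P z w * (f w - m) ^ 2 ≤ V := fun z m hmz => by
    refine le_trans (le_of_eq ?_) (variance_growth β g hc0 hR hN hc x z ht)
    have hm' : ∑ w, P z w * f w = m := hmz ▸ rfl
    have e : ∀ w, P z w * (f w - m) ^ 2 =
        P z w * f w ^ 2 - 2 * m * (P z w * f w) + m ^ 2 * P z w := fun w => by ring
    simp only [e, Finset.sum_add_distrib, Finset.sum_sub_distrib, ← Finset.mul_sum, hm', row,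
      ← hf, ← hmz, evolve, Matrix.mulVec, dotProduct, ← hP]
    ring
  have tv : ∀ z, |∑ w, (P z w - gibbs β g w) * H w| ≤ 1 / 4 := fun z => by
    refine (Finset.abs_sum_le_sum_abs _ _).trans ((Finset.sum_le_sum fun w _ => ?_).trans
      ((le_of_eq (Finset.sum_div _ _ _).symm).trans (hm z)))
    rw [abs_mul]
    have : |H w| ≤ 1 / 2 := by simp only [hH]; split_ifs <;> norm_num
    calc |P z w - gibbs β g w| * |H w| ≤ |P z w - gibbs β g w| * (1 / 2) :=
          mul_le_mul_of_nonneg_left this (abs_nonneg _)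
      _ = _ := by rw [hP]; ring
  have hPnn : ∀ z w, 0 ≤ P z w := fun z w => exp_gen_nonneg β g ht z w
  have hup : 1 / 2 - V / d ^ 2 ≤ ∑ w, P x w * H w := by
    have h1 : ∀ w, P x w * (1 / 2 - (f w - a) ^ 2 / d ^ 2) ≤ P x w * H w := fun w => by
      refine mul_le_mul_of_nonneg_left ?_ (hPnn x w)
      simp only [hH]; split_ifs with hw
      · linarith [div_nonneg (sq_nonneg (f w - a)) (sq_nonneg d)]
      · have := indicator_cheb (f w) a hd0 fun hlt => by
          have := sq_lt_sq.1 hlt
          rw [abs_of_pos hd0, abs_lt] at this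
          apply hw; rw [hmid]; rw [hd] at this; linarith [this.1]
        linarith
    refine le_trans ?_ (Finset.sum_le_sum fun w _ => h1 w)
    simp only [mul_sub, Finset.sum_sub_distrib, ← mul_div_assoc, ← Finset.sum_div]
    rw [← Finset.sum_mul]
    gcongr
    · simp [row]
    · exact hvar x a rfl
  have hdn : ∑ w, P y w * H w ≤ -(1 / 2) + V / d ^ 2 := by
    have h1 : ∀ w, P y w * H w ≤ P y w * (-(1 / 2) + (f w - b) ^ 2 / d ^ 2) := fun w => by
      refine mul_le_mul_of_nonneg_left ?_ (hPnn y w)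
      simp only [hH]; split_ifs with hw
      · have := indicator_cheb (f w) b hd0 fun hlt => by
          have := sq_lt_sq.1 hlt
          rw [abs_of_pos hd0, abs_lt] at this
          rw [hmid] at hw; rw [hd] at this; linarith [this.2]
        linarith
      · linarith [div_nonneg (sq_nonneg (f w - b)) (sq_nonneg d)]
    refine le_trans (Finset.sum_le_sum fun w _ => h1 w) ?_
    simp only [mul_add, Finset.sum_add_distrib, ← mul_div_assoc, ← Finset.sum_div]
    rw [← Finset.sum_mul]
    gcongr
    · simp [row]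
    · exact hvar y b rfl
  have h1 := abs_le.1 (tv x)
  have h2 := abs_le.1 (tv y)
  simp only [sub_mul, Finset.sum_sub_distrib] at h1 h2
  have hkey : V / d ^ 2 < 1 / 4 := by
    rw [div_lt_iff₀ (by positivity)]
    have hd2 : ((n:ℝ) * Real.exp (-t) / 2) ^ 2 ≤ d ^ 2 := pow_le_pow_left₀ (by positivity) hdb 2
    refine lt_of_lt_of_le ?_ (mul_le_mul_of_nonneg_left hd2 (by norm_num : (0:ℝ) ≤ 1 / 4))
    have e : Real.exp ((2 * c + 40 * R + 2) * t) * Real.exp (-t) ^ 2 =
        Real.exp ((2 * c + 40 * R) * t) := by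
      rw [← Real.exp_nat_mul, ← Real.exp_add]; congr 1; push_cast; ring
    have h3 := mul_lt_mul_of_pos_right hbig (show 0 < (n:ℝ) * Real.exp (-t) ^ 2 / 16 by positivity)
    have h4 : 64 * (t * Real.exp ((2 * c + 40 * R + 2) * t)) * ((n:ℝ) * Real.exp (-t) ^ 2 / 16) =
        V := by rw [hV, ← e]; ring
    rw [h4] at h3
    linarith
  linarith

lemma spectralGap_le_one (hn : 0 < n) : spectralGap β g ≤ 1 := by
  set f := linObs (Pi.single (⟨0, hn⟩ : Fin n) 1) with hf
  have hv : gibbsVar β g f = 1 := by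
    rw [hf, gibbsVar_linObs]
    simp [corrM_self, single_dotProduct, Matrix.mulVec_single]
  have hb : BddBelow {r : ℝ | ∃ f : (Fin n → Bool) → ℝ, 0 < gibbsVar β g f ∧
      r = dirichletForm β g f / gibbsVar β g f} :=
    ⟨0, fun r ⟨q, hq, e⟩ => e ▸ div_nonneg (dirichletForm_nonneg β g q) hq.le⟩
  have hm : dirichletForm β g f / gibbsVar β g f ∈ {r : ℝ | ∃ f : (Fin n → Bool) → ℝ,
      0 < gibbsVar β g f ∧ r = dirichletForm β g f / gibbsVar β g f} :=
    ⟨f, by rw [hv]; exact one_pos, rfl⟩
  refine (csInf_le hb hm).trans ?_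
  rw [hv, div_one, dirichletForm_eq_isE]
  refine le_trans (Finset.sum_le_sum (g := fun j => if j = ⟨0, hn⟩ then (1:ℝ) else 0)
    fun j _ => ?_) (by simp)
  by_cases hj : j = ⟨0, hn⟩
  · rw [if_pos hj, ← isMean_const (coupM β g) 0 1]
    refine isMean_mono _ _ fun x => ?_
    subst hj
    simp [isD, hf, linObs, single_dotProduct, spin]
    positivity
  · rw [if_neg hj]
    simp [isE, isD, hf, linObs, single_dotProduct, spin, Ne.symm hj, isMean_const]

/-- For every `β`: gap at most one, and no mixing before `c log n`. -/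
theorem slow_log {β : ℝ} (hβ : 0 ≤ β) :
    ∃ γ : ℝ, 0 < γ ∧ Tendsto (fun n => disorderLaw n
      {g | ¬ (spectralGap β g ≤ 1 ∧ ∀ t ∈ Set.Icc 0 (γ * Real.log n), ¬ MixedAt β g t)})
      atTop (𝓝 0) := by
  set c := 2 * β + 1 / 2 with hc
  set R := 2 * β ^ 2 with hR
  set Λ := 2 * c + 40 * R + 3 with hΛ
  have hΛ0 : 0 < Λ := by positivity
  refine ⟨1 / (2 * Λ), by positivity, ?_⟩
  refine tendsto_measure_zero (b := fun n : ℕ =>
    2 * Real.exp (1 + 5 * β ^ 2 - Real.sqrt n * 1 / 4) +
      (n : ℝ) * Real.exp (-((n : ℝ) * (1 - Real.log 2) / 2)) +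
      (n : ℝ) ^ 2 * Real.sqrt 2 * Real.exp (-((1 / 4) ^ 2 / (4 * (β ^ 2 + 1)) * n))) ?_ ?_
  · filter_upwards [eventually_gt_atTop 0, eventually_sqrt_ge β, eventually_gt_atTop (64 ^ 2)]
      with n hn hn4 hbig
    refine le_trans (measure_mono ?_) (prob_nice hβ hn hn4 one_pos le_rfl (by norm_num : (0:ℝ) < 1 / 4))
    intro g hg hgood
    refine hg ⟨spectralGap_le_one β g hn, fun t ht => ?_⟩
    obtain ⟨hq, hN⟩ := hgood
    have hn0 : (0:ℝ) < n := by exact_mod_cast hn
    have hn1 : (1:ℝ) ≤ n := by exact_mod_cast hn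
    refine not_mixedAt_early β g hn (c := c) (R := R) (by positivity) (by positivity) hN hq ht.1 ?_
    have h1 : t * Real.exp ((2 * c + 40 * R + 2) * t) ≤ Real.exp (Λ * t) := by
      rw [show Λ * t = t + (2 * c + 40 * R + 2) * t by rw [hΛ]; ring, Real.exp_add]
      exact mul_le_mul_of_nonneg_right (by linarith [Real.add_one_le_exp t]) (Real.exp_pos _).le
    have h2 : Real.exp (Λ * t) ≤ Real.sqrt n := by
      rw [Real.sqrt_eq_rpow, Real.rpow_def_of_pos hn0, Real.exp_le_exp]
      calc Λ * t ≤ Λ * (1 / (2 * Λ) * Real.log n) := mul_le_mul_of_nonneg_left ht.2 hΛ0.le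
        _ = _ := by field_simp
    have h3 : (64:ℝ) < Real.sqrt n := by
      rw [Real.lt_sqrt (by norm_num)]
      exact_mod_cast hbig
    calc 64 * (t * Real.exp ((2 * c + 40 * R + 2) * t)) ≤ 64 * Real.sqrt n := by linarith
      _ < Real.sqrt n * Real.sqrt n := mul_lt_mul_of_pos_right h3 (by linarith)
      _ = n := Real.mul_self_sqrt hn0.le
  · exact tendsto_nice_bound (δ := 1) (η := 1 / 4) β one_pos (by norm_num)

/-- Both sides for `β < 1 / 2`. -/
theorem order_below_half {β : ℝ} (hβ0 : 0 ≤ β) (hβ : β < 1 / 2) :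
    ∃ ρ γ C : ℝ, 0 < ρ ∧ 0 < γ ∧ 0 < C ∧
      Tendsto (fun n => disorderLaw n {g | ¬ (ρ ≤ spectralGap β g ∧ spectralGap β g ≤ 1 ∧
        MixedAt β g (C * Real.log n) ∧
        ∀ t ∈ Set.Icc 0 (γ * Real.log n), ¬ MixedAt β g t)}) atTop (𝓝 0) := by
  obtain ⟨ρ, C, hρ, hC, hf⟩ := fast_below_half hβ0 hβ
  obtain ⟨γ, hγ, hs⟩ := slow_log hβ0
  refine ⟨ρ, γ, C, hρ, hγ, hC, ?_⟩
  have := hf.add hs
  rw [add_zero] at this
  refine tendsto_of_tendsto_of_tendsto_of_le_of_le tendsto_const_nhds this (fun n => bot_le)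
    fun n => le_trans (measure_mono ?_) (measure_union_le _ _)
  intro g hg
  simp only [Set.mem_union, Set.mem_setOf_eq] at hg ⊢
  tauto

end Vale.Agent.P150
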