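import Vale.Agent.P150.Decay

/-!
Semigroups of stochastic generators on the cube.
-/

namespace Vale.Agent.P150

open Real Function Matrix

attribute [local instance] Matrix.linftyOpNormedRing Matrix.linftyOpNormedAlgebra

variable {n : ℕ} (G : Matrix (Fin n → Bool) (Fin n → Bool) ℝ)

/-- The semigroup of a matrix applied to an observable. -/
noncomputable def semi (f : (Fin n → Bool) → ℝ) (t : ℝ) : (Fin n → Bool) → ℝ :=
  NormedSpace.exp (t • G) *ᵥ f

/-- A generator: rows sum to zero, nonnegative off the diagonal. -/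
structure IsGen : Prop where
  row : G *ᵥ (fun _ => (1 : ℝ)) = 0
  off : ∀ x y, x ≠ y → 0 ≤ G x y

lemma semi_zero (f : (Fin n → Bool) → ℝ) : semi G f 0 = f := by simp [semi]

lemma hasDerivAt_semi (f : (Fin n → Bool) → ℝ) (t : ℝ) (x : Fin n → Bool) :
    HasDerivAt (fun s => semi G f s x) ((G *ᵥ semi G f t) x) t := by
  let ev : Matrix (Fin n → Bool) (Fin n → Bool) ℝ →ₗ[ℝ] ℝ :=
    { toFun := fun M => (M *ᵥ f) x
      map_add' := fun A B => by simp [Matrix.add_mulVec]
      map_smul' := fun a A => by simp [Matrix.smul_mulVec] }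
  have h := ev.toContinuousLinearMap.hasFDerivAt.comp_hasDerivAt t
    (hasDerivAt_exp_smul_const' (𝕂 := ℝ) G t)
  have hfun : ∀ M, ev.toContinuousLinearMap M = (M *ᵥ f) x := fun M => rfl
  simp only [hfun, Function.comp_def] at h
  exact h.congr_deriv (congrFun (Matrix.mulVec_mulVec f G _).symm x)

lemma hasDerivAt_semi' (f : (Fin n → Bool) → ℝ) (t : ℝ) (x : Fin n → Bool) :
    HasDerivAt (fun s => semi G f s x) (semi G (G *ᵥ f) t x) t := by
  let ev : Matrix (Fin n → Bool) (Fin n → Bool) ℝ →ₗ[ℝ] ℝ :=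
    { toFun := fun M => (M *ᵥ f) x
      map_add' := fun A B => by simp [Matrix.add_mulVec]
      map_smul' := fun a A => by simp [Matrix.smul_mulVec] }
  have h := ev.toContinuousLinearMap.hasFDerivAt.comp_hasDerivAt t
    (hasDerivAt_exp_smul_const (𝕂 := ℝ) G t)
  have hfun : ∀ M, ev.toContinuousLinearMap M = (M *ᵥ f) x := fun M => rfl
  simp only [hfun, Function.comp_def] at h
  exact h.congr_deriv (congrFun (Matrix.mulVec_mulVec f _ G).symm x)

variable {G}

lemma IsGen.exp_nonneg (hG : IsGen G) {t : ℝ} (ht : 0 ≤ t) (x y : Fin n → Bool) :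
    0 ≤ NormedSpace.exp (t • G) x y := by
  set m := ∑ z, |G z z|
  have e : t • G = t • (G + m • (1 : Matrix _ _ ℝ)) + (-(t * m)) • (1 : Matrix _ _ ℝ) := by
    rw [smul_add, smul_smul, add_assoc, ← add_smul, add_neg_cancel, zero_smul, add_zero]
  rw [e, Matrix.exp_add_of_commute _ _ ((Commute.one_right _).smul_right _), Matrix.mul_apply]
  refine Finset.sum_nonneg fun z _ => mul_nonneg (exp_entry_nonneg (fun a b => ?_) x z) ?_
  · rw [Matrix.smul_apply, Matrix.add_apply, Matrix.smul_apply, Matrix.one_apply]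
    refine mul_nonneg ht ?_
    split_ifs with hab
    · subst hab
      have := Finset.single_le_sum (f := fun z => |G z z|) (fun _ _ => abs_nonneg _)
        (Finset.mem_univ a)
      rw [smul_eq_mul, mul_one]
      linarith [neg_abs_le (G a a)]
    · simpa using hG.off a b hab
  · rw [show (-(t * m)) • (1 : Matrix (Fin n → Bool) (Fin n → Bool) ℝ) =
      Matrix.diagonal fun _ => -(t * m) by ext a b; simp [Matrix.diagonal, Matrix.one_apply],
      Matrix.exp_diagonal, Matrix.diagonal_apply]
    split_ifs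
    · rw [Pi.exp_def, ← Real.exp_eq_exp_ℝ]; exact (Real.exp_pos _).le
    · exact le_rfl

lemma IsGen.row_exp (hG : IsGen G) (t : ℝ) (x : Fin n → Bool) :
    ∑ y, NormedSpace.exp (t • G) x y = 1 := by
  have hd : ∀ s, HasDerivAt (fun s => semi G (fun _ => 1) s x) 0 s := fun s => by
    have h := hasDerivAt_semi' G (fun _ => 1) s x
    rw [hG.row] at h
    simpa [semi] using h
  have := is_const_of_deriv_eq_zero (fun s => (hd s).differentiableAt) (fun s => (hd s).deriv) t 0
  rw [semi_zero] at this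
  simpa [semi, Matrix.mulVec, dotProduct] using this

lemma IsGen.abs_semi_le (hG : IsGen G) {f : (Fin n → Bool) → ℝ} {B : ℝ} (hf : ∀ y, |f y| ≤ B)
    {t : ℝ} (ht : 0 ≤ t) (x : Fin n → Bool) : |semi G f t x| ≤ B := by
  calc |semi G f t x| ≤ ∑ y, |NormedSpace.exp (t • G) x y * f y| := Finset.abs_sum_le_sum_abs _ _
    _ ≤ ∑ y, NormedSpace.exp (t • G) x y * B := Finset.sum_le_sum fun y _ => by
        rw [abs_mul, abs_of_nonneg (hG.exp_nonneg ht x y)]
        exact mul_le_mul_of_nonneg_left (hf y) (hG.exp_nonneg ht x y)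
    _ = B := by rw [← Finset.sum_mul, hG.row_exp, one_mul]

/-- Two semigroups are close if the generators are. -/
theorem semi_dist {G' : Matrix (Fin n → Bool) (Fin n → Bool) ℝ} (hG : IsGen G) (hG' : IsGen G')
    {Δ : ℝ} (hΔ : ∀ x, ∑ y, |G x y - G' x y| ≤ Δ) {t : ℝ} (ht : 0 ≤ t) (x : Fin n → Bool) :
    ∑ y, |NormedSpace.exp (t • G) x y - NormedSpace.exp (t • G') x y| ≤ t * Δ := by
  set f : (Fin n → Bool) → ℝ := fun y =>
    if NormedSpace.exp (t • G') x y ≤ NormedSpace.exp (t • G) x y then 1 else -1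
  have hf : ∀ y, |f y| ≤ 1 := fun y => by simp only [f]; split_ifs <;> simp
  set E : ℝ → (Fin n → Bool) → ℝ := fun s y => semi G (Pi.single y 1) s x
  set ψ : ℝ → ℝ := fun s => ∑ y, E (t - s) y * semi G' f s y with hψ
  have hsemi : ∀ (F : (Fin n → Bool) → ℝ) s, semi G F s x = ∑ y, E s y * F y := fun F s => by
    simp [semi, E, Matrix.mulVec, dotProduct, Pi.single_apply]
  have hd : ∀ s, HasDerivAt ψ
      (semi G (fun y => (G' *ᵥ semi G' f s) y - (G *ᵥ semi G' f s) y) (t - s) x) s := fun s => by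
    refine (HasDerivAt.fun_sum fun y _ =>
      (((hasDerivAt_semi' G (Pi.single y 1) (t - s) x).comp s
        ((hasDerivAt_id s).const_sub t)).congr_deriv (by simp) :
          HasDerivAt (fun s => E (t - s) y) (-semi G (G *ᵥ Pi.single y 1) (t - s) x) s).fun_mul
        (hasDerivAt_semi G' f s y)).congr_deriv ?_
    rw [hsemi]
    simp only [mul_sub, Finset.sum_sub_distrib, Finset.sum_add_distrib, neg_mul,
      Finset.sum_neg_distrib]
    rw [neg_add_eq_sub]
    congr 1
    rw [← hsemi]
    set F := semi G' f s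
    simp only [semi, Matrix.mulVec, dotProduct, Pi.single_apply, mul_ite, mul_one, mul_zero,
      Finset.sum_ite_eq', Finset.mem_univ, if_true, Finset.mul_sum, Finset.sum_mul]
    rw [Finset.sum_comm]
    exact Finset.sum_congr rfl fun a _ => Finset.sum_congr rfl fun b _ => by ring
  have hmono : MonotoneOn (fun s => ψ s + Δ * s) (Set.Icc 0 t) := by
    refine monotoneOn_of_hasDerivWithinAt_nonneg (convex_Icc 0 t)
      (fun s _ => ((hd s).fun_add ((hasDerivAt_id s).const_mul Δ)).continuousAt.continuousWithinAt)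
      (fun s _ => ((hd s).fun_add ((hasDerivAt_id s).const_mul Δ)).hasDerivWithinAt) fun s hs => ?_
    have hs' := interior_subset hs
    have := hG.abs_semi_le (f := fun y => (G' *ᵥ semi G' f s) y - (G *ᵥ semi G' f s) y) (B := Δ)
      (fun y => ?_) (by linarith [hs'.2] : 0 ≤ t - s) x
    · linarith [(abs_le.1 this).1]
    · simp only [Matrix.mulVec, dotProduct, ← Finset.sum_sub_distrib, ← sub_mul]
      refine (Finset.abs_sum_le_sum_abs _ _).trans ((Finset.sum_le_sum fun z _ => ?_).trans (hΔ y))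
      rw [abs_mul, abs_sub_comm]
      exact mul_le_of_le_one_right (abs_nonneg _) (hG'.abs_semi_le hf hs'.1 z)
  have h := hmono (Set.left_mem_Icc.2 ht) (Set.right_mem_Icc.2 ht) ht
  simp only [hψ, ← hsemi, sub_zero, sub_self, semi_zero, mul_zero, add_zero] at h
  have e : semi G f t x - semi G' f t x =
      ∑ y, |NormedSpace.exp (t • G) x y - NormedSpace.exp (t • G') x y| := by
    simp only [semi, Matrix.mulVec, dotProduct, ← Finset.sum_sub_distrib, ← sub_mul]
    refine Finset.sum_congr rfl fun y _ => ?_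
    simp only [f]
    split_ifs with hy
    · rw [abs_of_nonneg (sub_nonneg.2 hy), mul_one]
    · rw [abs_of_neg (by linarith : NormedSpace.exp (t • G) x y - NormedSpace.exp (t • G') x y < 0)]
      ring
  linarith [mul_comm t Δ]

end Vale.Agent.P150
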