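import Vale.Agent.P150.FieldDefs
import Vale.Agent.P150.Semi
import Vale.Agent.P150.Lower

/-!
Fast mixing below one half, uniformly over external fields.
-/

namespace Vale.Agent.P150

open MeasureTheory Real Function Matrix Filter Topology

attribute [local instance] Matrix.linftyOpNormedRing Matrix.linftyOpNormedAlgebra

variable {n : ℕ} (β : ℝ) (g : Pairs n → ℝ) (h : Fin n → ℝ)

lemma fieldGibbs_eq (x : Fin n → Bool) :
    fieldGibbs β g h x = isW (coupM β g) h x / isZ (coupM β g) h := by
  simp only [fieldGibbs, isW, isZ, energy_eq, dotProduct]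

lemma fieldMean_eq (f : (Fin n → Bool) → ℝ) : fieldMean β g h f = isMean (coupM β g) h f := by
  simp only [fieldMean, fieldGibbs_eq, isMean]

lemma fieldHeat_pair (i : Fin n) (x : Fin n → Bool) (φ : (Fin n → Bool) → ℝ) :
    ∑ y, fieldHeatBath β g h i x y * φ y =
      (1 + isT (coupM β g) h i x) / 2 * φ (update x i true) +
        (1 - isT (coupM β g) h i x) / 2 * φ (update x i false) := by
  have hset : (Finset.univ.filter fun y : Fin n → Bool => ∀ j, j ≠ i → y j = x j) =
      {update x i true, update x i false} := by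
    ext y
    simp only [Finset.mem_filter, Finset.mem_univ, true_and, Finset.mem_insert,
      Finset.mem_singleton]
    constructor
    · intro h
      cases hy : y i
      · right; funext j; by_cases hj : j = i
        · subst hj; simp [hy]
        · simp [hj, h j hj]
      · left; funext j; by_cases hj : j = i
        · subst hj; simp [hy]
        · simp [hj, h j hj]
    · rintro (rfl | rfl) j hj <;> simp [hj]
  have hne : update x i true ≠ update x i false := fun h => by
    simpa using congrFun h i
  simp only [fieldHeatBath, of_apply, ite_mul, zero_mul]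
  rw [← Finset.sum_filter, hset, Finset.sum_pair hne]
  have hs : ∀ b, spin (update x i b) i = sgn b := fun b => by simp [spin, sgn]
  have hT : isT (coupM β g) h i x = Real.tanh (localField β g x i + h i) := by
    simp [isT, localField_eq, add_comm]
  have hc := (Real.cosh_pos (localField β g x i + h i)).ne'
  rw [hs, hs, mul_comm (sgn true), mul_comm (sgn false), exp_mul_sgn, exp_mul_sgn, hT]
  simp only [sgn, if_true, Bool.false_eq_true, if_false]
  field_simp
  ring

lemma fieldGen_mulVec (f : (Fin n → Bool) → ℝ) (x : Fin n → Bool) :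
    (fieldGen β g h *ᵥ f) x = -isL (coupM β g) h f x := by
  simp only [fieldGen, Matrix.sum_mulVec, Finset.sum_apply, Matrix.sub_mulVec,
    Matrix.one_mulVec, Pi.sub_apply, isL, ← Finset.sum_neg_distrib]
  refine Finset.sum_congr rfl fun i _ => ?_
  change ∑ y, fieldHeatBath β g h i x y * f y - f x = _
  rw [fieldHeat_pair]
  have hu : update x i (x i) = x := update_eq_self i x
  simp only [isP, isD]
  cases hb : x i <;> rw [hb] at hu
  · have : spin x i = -1 := by simp [spin, hb]
    rw [this, hu]; ring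
  · have : spin x i = 1 := by simp [spin, hb]
    rw [this, hu]; ring

lemma isGen_fieldGen : IsGen (fieldGen β g h) where
  row := by
    funext x
    rw [fieldGen_mulVec]
    simp [isL, isP, isD]
  off x y hxy := by
    simp only [fieldGen, Matrix.sum_apply, Matrix.sub_apply, Matrix.one_apply_ne hxy, sub_zero]
    refine Finset.sum_nonneg fun i _ => ?_
    simp only [fieldHeatBath, of_apply]
    split_ifs
    · have := Real.cosh_pos (localField β g x i + h i); positivity
    · exact le_rfl

lemma fieldGen_sym (a b : (Fin n → Bool) → ℝ) :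
    isMean (coupM β g) h (fun x => a x * (fieldGen β g h *ᵥ b) x) =
      isMean (coupM β g) h fun x => b x * (fieldGen β g h *ᵥ a) x := by
  have e : ∀ a b : (Fin n → Bool) → ℝ,
      isMean (coupM β g) h (fun x => a x * (fieldGen β g h *ᵥ b) x) =
        -∑ i, isMean (coupM β g) h fun x =>
          (1 - isT (coupM β g) h i x ^ 2) * (isD a i x * isD b i x) := fun a b => by
    rw [← isMean_mul_isL (coupM_transpose β g) (coupM_diag β g)]
    simp only [fieldGen_mulVec, mul_neg, isMean, Finset.sum_neg_distrib]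
  rw [e, e]
  exact congrArg _ (Finset.sum_congr rfl fun i _ => by congr 1; funext x; ring)

lemma isMean_semi (f : (Fin n → Bool) → ℝ) (t : ℝ) :
    isMean (coupM β g) h (semi (fieldGen β g h) f t) = isMean (coupM β g) h f := by
  set G := fieldGen β g h
  have hd : ∀ s, HasDerivAt (fun s => isMean (coupM β g) h (semi G f s)) 0 s := fun s => by
    refine (HasDerivAt.fun_sum fun x _ => (hasDerivAt_semi G f s x).const_mul
      (isW (coupM β g) h x / isZ (coupM β g) h)).congr_deriv ?_
    have h1 := fieldGen_sym β g h (fun _ => 1) (semi G f s)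
    rw [(isGen_fieldGen β g h).row] at h1
    simpa [isMean] using h1
  have := is_const_of_deriv_eq_zero (fun s => (hd s).differentiableAt) (fun s => (hd s).deriv) t 0
  rw [this, semi_zero]

lemma field_exp_symm (t : ℝ) (x y : Fin n → Bool) :
    fieldGibbs β g h x * NormedSpace.exp (t • fieldGen β g h) x y =
      fieldGibbs β g h y * NormedSpace.exp (t • fieldGen β g h) y x := by
  set G := fieldGen β g h
  set a : (Fin n → Bool) → ℝ := Pi.single x 1
  set b : (Fin n → Bool) → ℝ := Pi.single y 1
  set K : ℝ → ℝ := fun u => isMean (coupM β g) h fun z => semi G a u z * semi G b (t - u) z with hK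
  have hd : ∀ u, HasDerivAt K 0 u := fun u => by
    have hs : ∀ z, HasDerivAt (fun s => semi G b (t - s) z) (-(G *ᵥ semi G b (t - u)) z) u := fun z =>
      ((hasDerivAt_semi G b (t - u) z).comp u ((hasDerivAt_id u).const_sub t)).congr_deriv (by simp)
    refine (HasDerivAt.fun_sum fun z _ => ((hasDerivAt_semi G a u z).fun_mul (hs z)).const_mul
      (isW (coupM β g) h z / isZ (coupM β g) h)).congr_deriv ?_
    have h1 := fieldGen_sym β g h (semi G b (t - u)) (semi G a u)
    simp only [isMean] at h1
    rw [← sub_eq_zero, ← Finset.sum_sub_distrib] at h1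
    rw [← h1]
    exact Finset.sum_congr rfl fun z _ => by ring
  have hc := is_const_of_deriv_eq_zero (fun u => (hd u).differentiableAt) (fun u => (hd u).deriv) 0 t
  simp only [hK, sub_zero, sub_self, semi_zero, isMean] at hc
  simp only [a, b, semi, Matrix.mulVec_single_one, Pi.single_apply, mul_ite, ite_mul, mul_one,
    mul_zero, zero_mul, one_mul, Finset.sum_ite_eq', Finset.mem_univ, if_true] at hc
  simpa [fieldGibbs_eq, Matrix.col, Matrix.transpose_apply] using hc

/-- Entropy decay gives mixing, with precision `1 / 16`. -/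
theorem fieldMixed_of_entropy {K : ℝ} (hK : 0 < K) {c M : ℝ} (hM : 0 ≤ M)
    (hh : ∀ i, |h i| ≤ M)
    (hc : ∀ v : Fin n → ℝ, |v ⬝ᵥ coupM β g *ᵥ v| ≤ c * (v ⬝ᵥ v))
    (hE : ∀ f : (Fin n → Bool) → ℝ, (∀ x, 0 < f x) →
      isMean (coupM β g) h (fun x => f x * Real.log (f x)) -
          isMean (coupM β g) h f * Real.log (isMean (coupM β g) h f) ≤
        K * ∑ i, isMean (coupM β g) h (fun x => (1 - isT (coupM β g) h i x ^ 2) *
          (isD f i x * isD (fun y => Real.log (f y)) i x)))
    {t : ℝ} (ht : 0 ≤ t) (hT : 1024 * ((n : ℝ) * (c + 2 * M + 1)) ≤ Real.exp (t / K))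
    (x : Fin n → Bool) :
    ∑ y, |NormedSpace.exp (t • fieldGen β g h) x y - fieldGibbs β g h y| ≤ 1 / 8 := by
  set G := fieldGen β g h
  have hG := isGen_fieldGen β g h
  set μ := fieldGibbs β g h with hμdef
  have hμW : ∀ y, μ y = isW (coupM β g) h y / isZ (coupM β g) h := fieldGibbs_eq β g h
  have hμ : ∀ y, 0 < μ y := fun y => by
    rw [hμW]; exact div_pos (isW_pos _ _ y) (isZ_pos _ _)
  have hsum : ∑ y, μ y = 1 := by
    simpa [isMean, hμW] using isMean_const (coupM β g) h 1
  have hμ1 : ∀ y, μ y ≤ 1 := fun y =>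
    (Finset.single_le_sum (fun z _ => (hμ z).le) (Finset.mem_univ y)).trans hsum.le
  set f0 : (Fin n → Bool) → ℝ := fun y => 1 / 2 + if y = x then 1 / (2 * μ x) else 0
  have hf0 : ∀ y, 1 / 2 ≤ f0 y := fun y => by
    have := hμ x
    simp only [f0]; split_ifs <;> simp
    positivity
  set F : ℝ → (Fin n → Bool) → ℝ := fun s => semi G f0 s with hFdef
  have hFpos : ∀ s, 0 ≤ s → ∀ y, 0 < F s y := fun s hs y => by
    refine lt_of_lt_of_le (by norm_num : (0:ℝ) < 1 / 2) ?_
    calc (1 / 2 : ℝ) = ∑ z, NormedSpace.exp (s • G) y z * (1 / 2) := by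
          rw [← Finset.sum_mul, hG.row_exp, one_mul]
      _ ≤ _ := Finset.sum_le_sum fun z _ =>
          mul_le_mul_of_nonneg_left (hf0 z) (hG.exp_nonneg hs y z)
  have hm0 : ∑ y, μ y * f0 y = 1 := by
    simp only [f0, mul_add, Finset.sum_add_distrib, mul_ite, mul_zero,
      Finset.sum_ite_eq', Finset.mem_univ, if_true, ← Finset.sum_mul, hsum]
    field_simp [(hμ x).ne']; ring
  have hmean : ∀ s, ∑ y, μ y * F s y = 1 := fun s => by
    have := isMean_semi β g h f0 s
    simp only [isMean, ← hμW] at this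
    exact this.trans hm0
  set ent : ℝ → ℝ := fun s => ∑ y, μ y * (F s y * Real.log (F s y)) with hent
  set D : ℝ → ℝ := fun s =>
    -∑ i, isMean (coupM β g) h (fun z => (1 - isT (coupM β g) h i z ^ 2) *
      (isD (F s) i z * isD (fun y => Real.log (F s y)) i z))
  have hd : ∀ s, 0 ≤ s → HasDerivAt ent (D s) s := fun s hs => by
    refine (HasDerivAt.fun_sum fun y _ => ((hasDerivAt_semi G f0 s y).fun_mul
      ((hasDerivAt_semi G f0 s y).log (hFpos s hs y).ne')).const_mul (μ y)).congr_deriv ?_
    have h0 : isMean (coupM β g) h (isL (coupM β g) h (F s)) = 0 := by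
      have := isMean_mul_isL (h := h) (coupM_transpose β g) (coupM_diag β g) (F s) (fun _ => 1)
      simpa [isD, isMean_const] using this
    have h1 := isMean_mul_isL (h := h) (coupM_transpose β g) (coupM_diag β g) (F s)
      (fun y => Real.log (F s y))
    have e : D s = -(isMean (coupM β g) h fun y => Real.log (F s y) * isL (coupM β g) h (F s) y) -
        isMean (coupM β g) h (isL (coupM β g) h (F s)) := by
      rw [h0, h1, sub_zero]
      simp only [D]
      congr 1
      exact Finset.sum_congr rfl fun i _ => by congr 1; funext z; ring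
    rw [e]
    simp only [isMean, ← hμW, ← Finset.sum_neg_distrib, ← Finset.sum_sub_distrib]
    refine Finset.sum_congr rfl fun y _ => ?_
    have hg : (G *ᵥ semi G f0 s) y = -isL (coupM β g) h (semi G f0 s) y := fieldGen_mulVec β g h _ y
    rw [hg]
    have := (hFpos s hs y).ne'
    simp only [hFdef] at this ⊢
    field_simp
    ring
  have hineq : ∀ s, 0 ≤ s → D s ≤ -(ent s / K) := fun s hs => by
    have h2 := hE (F s) (hFpos s hs)
    have e1 : isMean (coupM β g) h (F s) = 1 := by simp only [isMean, ← hμW]; exact hmean s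
    rw [e1, Real.log_one, mul_zero, sub_zero] at h2
    have h' : ent s ≤ K * -D s := by
      simp only [D, neg_neg]
      refine le_trans (le_of_eq ?_) h2
      simp only [hent, isMean, ← hμW]
    rw [le_neg, div_le_iff₀ hK]; linarith
  have hanti : AntitoneOn (fun s => ent s * Real.exp (s / K)) (Set.Ici 0) := by
    have hd' : ∀ s, 0 ≤ s → HasDerivAt (fun s => ent s * Real.exp (s / K))
        (D s * Real.exp (s / K) + ent s * (Real.exp (s / K) * (1 / K))) s := fun s hs =>
      (hd s hs).fun_mul (((hasDerivAt_id s).div_const K).exp)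
    refine antitoneOn_of_hasDerivWithinAt_nonpos (convex_Ici 0)
      (fun s hs => (hd' s hs).continuousAt.continuousWithinAt)
      (fun s hs => (hd' s (interior_subset hs)).hasDerivWithinAt) fun s hs => ?_
    have := mul_le_mul_of_nonneg_right (hineq s (interior_subset (s := Set.Ici (0:ℝ)) hs))
      (Real.exp_pos (s / K)).le
    have e : -(ent s / K) * Real.exp (s / K) = -(ent s * (Real.exp (s / K) * (1 / K))) := by ring
    linarith
  have h01 := hanti Set.self_mem_Ici (Set.mem_Ici.2 ht) ht
  simp only [zero_div, Real.exp_zero, mul_one] at h01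
  -- initial entropy
  have hlb : ∀ y, Real.exp (-((n : ℝ) * (c + 2 * M + 1))) ≤ μ y := by
    intro y
    have hW : ∀ z : Fin n → Bool,
        |spin z ⬝ᵥ coupM β g *ᵥ spin z / 2 + h ⬝ᵥ spin z| ≤ (n : ℝ) * (c / 2 + M) := fun z => by
      have h1 := hc (spin z)
      rw [dot_spin_self] at h1
      have h2 : |h ⬝ᵥ spin z| ≤ (n : ℝ) * M := by
        refine (Finset.abs_sum_le_sum_abs _ _).trans
          ((Finset.sum_le_sum fun i _ => ?_).trans_eq (b := (∑ _i : Fin n, M)) (by simp))
        rw [abs_mul, abs_spin, mul_one]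
        exact hh i
      refine (abs_add_le _ _).trans ?_
      rw [abs_div, abs_two]
      linarith
    have hZ : isZ (coupM β g) h ≤ Real.exp ((n : ℝ) + (n : ℝ) * (c / 2 + M)) := by
      calc isZ (coupM β g) h ≤ ∑ _z : Fin n → Bool, Real.exp ((n : ℝ) * (c / 2 + M)) :=
            Finset.sum_le_sum fun z _ => Real.exp_le_exp.2 (abs_le.1 (hW z)).2
        _ = 2 ^ n * Real.exp ((n : ℝ) * (c / 2 + M)) := by simp
        _ ≤ Real.exp (n : ℝ) * Real.exp ((n : ℝ) * (c / 2 + M)) := by
            refine mul_le_mul_of_nonneg_right ?_ (Real.exp_pos _).le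
            calc (2:ℝ) ^ n ≤ Real.exp 1 ^ n :=
                  pow_le_pow_left₀ (by norm_num) (by linarith [Real.add_one_le_exp (1:ℝ)]) n
              _ = _ := by rw [← Real.exp_nat_mul, mul_one]
        _ = _ := (Real.exp_add _ _).symm
    rw [hμW, le_div_iff₀ (isZ_pos _ _)]
    calc Real.exp (-((n : ℝ) * (c + 2 * M + 1))) * isZ (coupM β g) h
        ≤ Real.exp (-((n : ℝ) * (c + 2 * M + 1))) * Real.exp ((n : ℝ) + (n : ℝ) * (c / 2 + M)) :=
          mul_le_mul_of_nonneg_left hZ (Real.exp_pos _).le
      _ ≤ isW (coupM β g) h y := by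
          rw [← Real.exp_add, isW, Real.exp_le_exp]; linarith [(abs_le.1 (hW y)).1]
  have hent0 : ent 0 ≤ (n : ℝ) * (c + 2 * M + 1) := by
    have hle : ∀ y, Real.log (f0 y) ≤ (n : ℝ) * (c + 2 * M + 1) := fun y => by
      have h1 : f0 y ≤ 1 / μ x := by
        have h1' : (1:ℝ) ≤ 1 / μ x := (one_le_div (hμ x)).2 (hμ1 x)
        have h2 : 1 / (2 * μ x) = (1 / μ x) / 2 := by ring
        simp only [f0]; split_ifs
        · linarith
        · linarith
      refine (Real.log_le_log (lt_of_lt_of_le (by norm_num) (hf0 y)) h1).trans ?_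
      rw [one_div, Real.log_inv, neg_le]
      calc -((n : ℝ) * (c + 2 * M + 1)) =
            Real.log (Real.exp (-((n : ℝ) * (c + 2 * M + 1)))) := (Real.log_exp _).symm
        _ ≤ _ := Real.log_le_log (Real.exp_pos _) (hlb x)
    calc ent 0 = ∑ y, μ y * f0 y * Real.log (f0 y) := by
          simp [hent, hFdef, semi_zero, mul_assoc]
      _ ≤ ∑ y, μ y * f0 y * ((n : ℝ) * (c + 2 * M + 1)) := Finset.sum_le_sum fun y _ =>
          mul_le_mul_of_nonneg_left (hle y) (mul_nonneg (hμ y).le (by linarith [hf0 y]))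
      _ = _ := by rw [← Finset.sum_mul, hm0, one_mul]
  have hentT : ent t ≤ 1 / 1024 := by
    have h2 := h01.trans hent0
    rcases le_or_gt (ent t) 0 with h0 | h0
    · linarith
    · have := mul_le_mul_of_nonneg_left hT h0.le
      have hp : 0 < (n : ℝ) * (c + 2 * M + 1) := (mul_pos h0 (Real.exp_pos _)).trans_le h2
      nlinarith
  -- Hellinger bound
  set A := ∑ y, μ y * |F t y - 1| with hA
  have hAb : A ^ 2 ≤ ent t * 4 := by
    set u : (Fin n → Bool) → ℝ := fun y => Real.sqrt (μ y) * |Real.sqrt (F t y) - 1|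
    set w : (Fin n → Bool) → ℝ := fun y => Real.sqrt (μ y) * (Real.sqrt (F t y) + 1)
    have hsq : ∀ y, Real.sqrt (F t y) ^ 2 = F t y := fun y => Real.sq_sqrt (hFpos t ht y).le
    have hsm : ∀ y, Real.sqrt (μ y) ^ 2 = μ y := fun y => Real.sq_sqrt (hμ y).le
    have e : A = ∑ y, u y * w y := Finset.sum_congr rfl fun y _ => by
      simp only [u, w]
      rw [mul_mul_mul_comm, ← pow_two, hsm]
      have h0 : 0 ≤ Real.sqrt (F t y) + 1 := by positivity
      rw [← abs_of_nonneg h0, ← abs_mul]
      congr 2
      linear_combination (-(1:ℝ)) * hsq y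
    rw [e]
    refine (Finset.sum_mul_sq_le_sq_mul_sq _ _ _).trans ?_
    have hu : ∑ y, u y ^ 2 ≤ ent t := by
      have key : ∀ y, u y ^ 2 ≤ μ y * (F t y * Real.log (F t y)) - μ y * F t y + μ y := fun y => by
        simp only [u, mul_pow, hsm, sq_abs]
        have hr0 := Real.sqrt_pos.2 (hFpos t ht y)
        have h1 := Real.log_le_sub_one_of_pos (inv_pos.2 hr0)
        rw [Real.log_inv] at h1
        have h2 : Real.log (F t y) = 2 * Real.log (Real.sqrt (F t y)) := by
          rw [Real.log_sqrt (hFpos t ht y).le]; ring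
        set r := Real.sqrt (F t y)
        have h3 : r ^ 2 - r ≤ r ^ 2 * Real.log r := by
          have := mul_le_mul_of_nonneg_left h1 (sq_nonneg r)
          have e2 : r ^ 2 * (r⁻¹ - 1) = r - r ^ 2 := by field_simp
          linarith
        have h4 : (r - 1) ^ 2 ≤ F t y * Real.log (F t y) - F t y + 1 := by
          rw [h2, ← hsq y]
          linarith
        linarith [mul_le_mul_of_nonneg_left h4 (hμ y).le]
      refine (Finset.sum_le_sum fun y _ => key y).trans (le_of_eq ?_)
      rw [Finset.sum_add_distrib, Finset.sum_sub_distrib, hmean t, hsum]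
      simp only [hent]; ring
    have hw : ∑ y, w y ^ 2 ≤ 4 := by
      calc ∑ y, w y ^ 2 ≤ ∑ y, (2 * (μ y * F t y) + 2 * μ y) := Finset.sum_le_sum fun y _ => by
            simp only [w, mul_pow, hsm]
            have : (Real.sqrt (F t y) + 1) ^ 2 ≤ 2 * F t y + 2 := by
              linarith [sq_nonneg (Real.sqrt (F t y) - 1), hsq y]
            linarith [mul_le_mul_of_nonneg_left this (hμ y).le]
        _ = _ := by
            rw [Finset.sum_add_distrib, ← Finset.mul_sum, ← Finset.mul_sum, hmean t, hsum]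
            norm_num
    have hu0 : 0 ≤ ∑ y, u y ^ 2 := Finset.sum_nonneg fun _ _ => sq_nonneg _
    exact mul_le_mul hu hw (Finset.sum_nonneg fun _ _ => sq_nonneg _) (hu0.trans hu)
  have hA4 : A ≤ 1 / 16 := by
    have : A ^ 2 ≤ (1 / 16) ^ 2 := by linarith
    exact (abs_le_of_sq_le_sq' this (by norm_num)).2
  -- back to total variation
  have hF : ∀ y, μ y * (F t y - 1) = (NormedSpace.exp (t • G) x y - μ y) / 2 := fun y => by
    have h1 : F t y = 1 / 2 + NormedSpace.exp (t • G) y x * (1 / (2 * μ x)) := by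
      simp only [hFdef, semi, Matrix.mulVec, dotProduct, f0, mul_add, mul_ite, mul_zero,
        Finset.sum_add_distrib, Finset.sum_ite_eq', Finset.mem_univ, if_true, ← Finset.sum_mul,
        hG.row_exp, one_mul]
      rw [show (∑ i, NormedSpace.exp (t • G) y i) = 1 from hG.row_exp t y, one_mul]
    have hs := field_exp_symm β g h t x y
    rw [h1]
    have := (hμ x).ne'
    simp only [hμdef] at *
    field_simp
    linear_combination (-(1:ℝ)) * hs
  have e : A = (∑ y, |NormedSpace.exp (t • G) x y - μ y|) / 2 := by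
    rw [hA, Finset.sum_div]
    refine Finset.sum_congr rfl fun y _ => ?_
    rw [← abs_of_pos (hμ y), ← abs_mul, hF y, abs_div, abs_two, abs_of_pos (hμ y)]
  linarith

lemma tanh_shift_le {u v : ℝ} (hv : 0 ≤ v) (huv : v ≤ u) :
    |Real.tanh u - Real.tanh v| ≤ 2 * Real.exp (-(2 * v)) := by
  have h1 : 1 - Real.tanh v ≤ 2 * Real.exp (-(2 * v)) := by
    have hc := Real.cosh_pos v
    rw [Real.tanh_eq_sinh_div_cosh, one_sub_div hc.ne', Real.cosh_sub_sinh, div_le_iff₀ hc,
      Real.cosh_eq]
    have e : Real.exp (-(2 * v)) * Real.exp v = Real.exp (-v) := by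
      rw [← Real.exp_add]; congr 1; ring
    linear_combination (-1 : ℝ) * e + mul_pos (Real.exp_pos (-(2 * v))) (Real.exp_pos (-v))
  have hm : Monotone Real.tanh := monotone_of_hasDerivAt_nonneg hasDerivAt_tanh' fun y => by
    have : Real.tanh y ^ 2 ≤ 1 := (sq_le_one_iff_abs_le_one _).2
      (abs_le.2 ⟨(Real.neg_one_lt_tanh y).le, (Real.tanh_lt_one y).le⟩)
    simp only [Pi.zero_apply]
    linarith
  have := hm huv
  rw [abs_of_nonneg (by linarith)]
  linarith [Real.tanh_lt_one u]

/-- Clipping the field changes each generator row by little. -/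
lemma fieldGen_clip {a M : ℝ} (hA : ∀ i x, |localField β g x i| ≤ a) (haM : a ≤ M)
    (x : Fin n → Bool) :
    ∑ y, |fieldGen β g h x y - fieldGen β g (fun i => max (-M) (min M (h i))) x y| ≤
      (n : ℝ) * (2 * Real.exp (-(2 * (M - a)))) := by
  set h' := fun i => max (-M) (min M (h i)) with hh'
  have hpt : ∀ i, |Real.tanh (localField β g x i + h i) - Real.tanh (localField β g x i + h' i)| ≤
      2 * Real.exp (-(2 * (M - a))) := fun i => by
    have hl := abs_le.1 (hA i x)
    rcases le_or_gt (h i) (-M) with h1 | h1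
    · have e : h' i = -M := by simp only [hh']; rw [min_eq_right (by linarith), max_eq_left h1]
      rw [e]
      have := tanh_shift_le (u := -(localField β g x i + h i)) (v := -(localField β g x i + -M))
        (by linarith) (by linarith)
      rw [Real.tanh_neg, Real.tanh_neg, ← neg_sub', abs_neg] at this
      refine this.trans ?_
      gcongr
      linarith
    rcases le_or_gt (h i) M with h2 | h2
    · have e : h' i = h i := by simp only [hh']; rw [min_eq_right h2, max_eq_right h1.le]
      rw [e, sub_self, abs_zero]; positivity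
    · have e : h' i = M := by simp only [hh']; rw [min_eq_left h2.le, max_eq_right (by linarith)]
      rw [e]
      refine (tanh_shift_le (u := localField β g x i + h i) (v := localField β g x i + M)
        (by linarith) (by linarith)).trans ?_
      gcongr
      linarith
  have e : ∀ y, fieldGen β g h x y - fieldGen β g h' x y =
      ∑ i, (fieldHeatBath β g h i x y - fieldHeatBath β g h' i x y) := fun y => by
    simp only [fieldGen, Matrix.sum_apply, Matrix.sub_apply, ← Finset.sum_sub_distrib]
    exact Finset.sum_congr rfl fun i _ => by ring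
  simp only [e]
  calc ∑ y, |∑ i, (fieldHeatBath β g h i x y - fieldHeatBath β g h' i x y)|
      ≤ ∑ y, ∑ i, |fieldHeatBath β g h i x y - fieldHeatBath β g h' i x y| :=
        Finset.sum_le_sum fun y _ => Finset.abs_sum_le_sum_abs _ _
    _ = ∑ i, ∑ y, |fieldHeatBath β g h i x y - fieldHeatBath β g h' i x y| := Finset.sum_comm
    _ ≤ ∑ _i : Fin n, 2 * Real.exp (-(2 * (M - a))) := by
        refine Finset.sum_le_sum fun i _ => le_trans (le_of_eq ?_) (hpt i)
        set D := fun y => fieldHeatBath β g h i x y - fieldHeatBath β g h' i x y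
        set σ : (Fin n → Bool) → ℝ := fun y => if 0 ≤ D y then 1 else -1
        have h1 : ∑ y, |D y| = ∑ y, fieldHeatBath β g h i x y * σ y -
            ∑ y, fieldHeatBath β g h' i x y * σ y := by
          rw [← Finset.sum_sub_distrib]
          refine Finset.sum_congr rfl fun y _ => ?_
          rw [← sub_mul]
          change |D y| = D y * σ y
          simp only [σ]; split_ifs with hy
          · rw [abs_of_nonneg hy, mul_one]
          · rw [abs_of_neg (not_le.1 hy)]; ring
        rw [h1, fieldHeat_pair, fieldHeat_pair]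
        have hT : ∀ k : Fin n → ℝ,
            isT (coupM β g) k i x = Real.tanh (localField β g x i + k i) := fun k => by
          simp [isT, localField_eq, add_comm]
        have hne : update x i true ≠ update x i false := fun h => by
          simpa using congrFun h i
        have hDt : D (update x i true) = (Real.tanh (localField β g x i + h i) -
            Real.tanh (localField β g x i + h' i)) / 2 := by
          have k1 := fieldHeat_pair β g h i x (Pi.single (update x i true) 1)
          have k2 := fieldHeat_pair β g h' i x (Pi.single (update x i true) 1)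
          simp only [Pi.single_apply, mul_ite, mul_one, mul_zero, Finset.sum_ite_eq', Finset.mem_univ,
            if_true, if_neg hne.symm, add_zero] at k1 k2
          simp only [D]; rw [k1, k2, hT, hT]; ring
        have hDf : D (update x i false) = -((Real.tanh (localField β g x i + h i) -
            Real.tanh (localField β g x i + h' i)) / 2) := by
          have k1 := fieldHeat_pair β g h i x (Pi.single (update x i false) 1)
          have k2 := fieldHeat_pair β g h' i x (Pi.single (update x i false) 1)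
          simp only [Pi.single_apply, mul_ite, mul_one, mul_zero, Finset.sum_ite_eq', Finset.mem_univ,
            if_true, if_neg hne, zero_add] at k1 k2
          simp only [D]; rw [k1, k2, hT, hT]; ring
        simp only [σ, hDt, hDf, hT]
        rcases lt_trichotomy (Real.tanh (localField β g x i + h i))
          (Real.tanh (localField β g x i + h' i)) with h3 | h3 | h3
        · rw [abs_of_neg (sub_neg.2 h3), if_neg (by linarith), if_pos (by linarith)]; ring
        · rw [h3]; simp
        · rw [abs_of_pos (sub_pos.2 h3), if_pos (by linarith), if_neg (by linarith)]; ring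
    _ = _ := by simp

lemma abs_localField_le {R : ℝ} (hR : ∀ i, ∑ j, coupM β g i j ^ 2 ≤ R) (i : Fin n)
    (x : Fin n → Bool) : |localField β g x i| ≤ (n : ℝ) + R := by
  rw [localField_eq, Matrix.mulVec, dotProduct]
  refine (Finset.abs_sum_le_sum_abs _ _).trans ?_
  have : ∀ j, |coupM β g i j * spin x j| ≤ 1 + coupM β g i j ^ 2 := fun j => by
    rw [abs_mul, abs_spin, mul_one]
    nlinarith [sq_abs (coupM β g i j), sq_nonneg (|coupM β g i j| - 1), abs_nonneg (coupM β g i j)]
  refine (Finset.sum_le_sum fun j _ => this j).trans ?_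
  rw [Finset.sum_add_distrib]
  simp only [Finset.sum_const, Finset.card_univ, Fintype.card_fin, nsmul_eq_mul, mul_one]
  linarith [hR i]

lemma le_fieldGap (hn : 0 < n) {ρ : ℝ}
    (hp : ∀ f : (Fin n → Bool) → ℝ,
      ρ * isMean (coupM β g) h (fun x => (f x - isMean (coupM β g) h f) ^ 2) ≤
        ∑ i, isE (coupM β g) h i f) :
    ρ ≤ fieldGap β g h := by
  have hE : ∀ f, fieldDirichlet β g h f = ∑ i, isE (coupM β g) h i f := fun f => by
    have h1 := isMean_mul_isL (h := h) (coupM_transpose β g) (coupM_diag β g) f f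
    have e : fieldDirichlet β g h f =
        isMean (coupM β g) h fun x => f x * isL (coupM β g) h f x := by
      simp only [fieldDirichlet, isMean, fieldGibbs_eq, fieldGen_mulVec, mul_neg,
        Finset.sum_neg_distrib, neg_neg, mul_assoc]
    rw [e, h1]
    exact Finset.sum_congr rfl fun i _ => by simp only [isE, pow_two]
  have hV : ∀ f, fieldVar β g h f =
      isMean (coupM β g) h (fun x => (f x - isMean (coupM β g) h f) ^ 2) := fun f => by
    simp only [fieldVar, fieldMean_eq]
    simp only [isMean, fieldGibbs_eq]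
  refine le_csInf ?_ ?_
  · refine ⟨_, fun y => spin y ⟨0, hn⟩, ?_, rfl⟩
    set m := fieldMean β g h fun y => spin y ⟨0, hn⟩
    obtain ⟨y, hy⟩ : ∃ y : Fin n → Bool, spin y ⟨0, hn⟩ - m ≠ 0 := by
      by_contra hh
      push Not at hh
      have h1 := hh fun _ => true
      have h2 := hh fun _ => false
      simp [spin] at h1 h2
      linarith
    refine Finset.sum_pos' (fun z _ => ?_) ⟨y, Finset.mem_univ y, ?_⟩
    · rw [fieldGibbs_eq]; exact mul_nonneg (div_pos (isW_pos _ _ z) (isZ_pos _ _)).le (sq_nonneg _)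
    · rw [fieldGibbs_eq]; exact mul_pos (div_pos (isW_pos _ _ y) (isZ_pos _ _)) (sq_pos_of_ne_zero hy)
  · rintro r ⟨f, hf, rfl⟩
    rw [le_div_iff₀ hf, hE, hV]
    exact hp f

/-- On a nice disorder, every external field. -/
theorem fast_field_of_nice : ∃ K τ0 : ℝ, 0 ≤ K ∧ 0 < τ0 ∧
    ∀ (n : ℕ) (β : ℝ) (g : Pairs n → ℝ) (c R η ρ t : ℝ), 0 < n → 0 ≤ c → 0 ≤ R → 0 ≤ η → η ≤ τ0 →
      0 < ρ → ρ ≤ 1 - max c (2 * R) - K * η * R →
      (∀ v : Fin n → ℝ, |v ⬝ᵥ coupM β g *ᵥ v| ≤ c * (v ⬝ᵥ v)) →
      IsNice (coupM β g) c R η → 0 ≤ t →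
      1024 * ((n : ℝ) * (c + 2 * ((n : ℝ) + R + 2 * Real.log n) + 1)) ≤
        Real.exp (t / Real.exp (2 * c / ρ)) →
      t * ((n : ℝ) * (2 * Real.exp (-(2 * (2 * Real.log n))))) ≤ 1 / 16 →
      ∀ h : Fin n → ℝ, ρ ≤ fieldGap β g h ∧ FieldMixedAt β g h t := by
  obtain ⟨K, τ0, hK, hτ0, hcurv⟩ := curvature_bound
  refine ⟨K, τ0, hK, hτ0,
    fun n β g c R η ρ t hn hc0 hR hη hητ hρ hρle hc hN ht hT hΔt h => ?_⟩
  have hcur : ∀ a : ℝ, 0 ≤ a → a ≤ 1 → ∀ (h : Fin n → ℝ) (f : (Fin n → Bool) → ℝ),
      ρ * ∑ i, isE (a • coupM β g) h i f ≤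
        isMean (a • coupM β g) h fun x => isL (a • coupM β g) h f x ^ 2 := fun a ha ha1 h f =>
    (mul_le_mul_of_nonneg_right hρle (Finset.sum_nonneg fun i _ => isE_nonneg _ _ i f)).trans
      (hcurv n _ h c R η (isNice_smul hN ha ha1 hc0) hR hη hητ f)
  refine ⟨le_fieldGap β g h hn fun f => poincare_of_curvature hN.symm hN.diag hρ (fun f => ?_) f, ?_⟩
  · simpa using hcur 1 zero_le_one le_rfl h f
  set a := (n : ℝ) + R with ha
  set M := a + 2 * Real.log n with hM
  have hln : 0 ≤ Real.log n := Real.log_natCast_nonneg n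
  have ha0 : 0 ≤ a := by positivity
  set h' : Fin n → ℝ := fun i => max (-M) (min M (h i)) with hh'
  have hb : ∀ i, |h' i| ≤ M := fun i =>
    abs_le.2 ⟨le_max_left _ _, max_le (by linarith) (min_le_left _ _)⟩
  have hEn : ∀ f : (Fin n → Bool) → ℝ, (∀ x, 0 < f x) →
      isMean (coupM β g) h' (fun x => f x * Real.log (f x)) -
          isMean (coupM β g) h' f * Real.log (isMean (coupM β g) h' f) ≤
        Real.exp (2 * c / ρ) * ∑ i, isMean (coupM β g) h' (fun x =>
          (1 - isT (coupM β g) h' i x ^ 2) *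
            (isD f i x * isD (fun y => Real.log (f y)) i x)) := fun f hf => by
    have h2 := approx_tensor h' hN.symm hN.diag (α := 1 / ρ) (by positivity) hc
      (fun a ha ha1 k θ => by
        have := covariance_bound (h := k) (isNice_smul hN ha ha1 hc0).symm
          (isNice_smul hN ha ha1 hc0).diag hρ (hcur a ha ha1 k) θ
        rw [one_div_mul_eq_div]; exact this)
      f hf
    rwa [mul_one_div] at h2
  have hmix := fieldMixed_of_entropy β g h' (Real.exp_pos _) (M := M) (by positivity) hb hc hEn ht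
    (by rw [hM, ha]; exact hT)
  have hΔ := fieldGen_clip β g h (a := a) (M := M) (abs_localField_le β g hN.row)
    (by linarith)
  have hdist := semi_dist (isGen_fieldGen β g h) (isGen_fieldGen β g h') hΔ ht
  have hsmall : t * ((n:ℝ) * (2 * Real.exp (-(2 * (M - a))))) ≤ 1 / 16 := by
    rw [show M - a = 2 * Real.log n by rw [hM]; ring]; exact hΔt
  set P := NormedSpace.exp (t • fieldGen β g h)
  set P' := NormedSpace.exp (t • fieldGen β g h')
  set μ := fieldGibbs β g h
  set μ' := fieldGibbs β g h'
  have hinv : ∀ y, μ y = ∑ z, μ z * P z y := fun y => by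
    have h1 := isMean_semi β g h (Pi.single y 1) t
    simp only [semi, Matrix.mulVec_single_one, isMean, Pi.single_apply, mul_ite, mul_one, mul_zero,
      Finset.sum_ite_eq', Finset.mem_univ, if_true, ← fieldGibbs_eq, Matrix.col,
      Matrix.transpose_apply] at h1
    exact h1.symm
  have hμ0 : ∀ z, 0 ≤ μ z := fun z => by
    simp only [μ, fieldGibbs_eq]; exact (div_pos (isW_pos _ _ z) (isZ_pos _ _)).le
  have hμ1 : ∑ z, μ z = 1 := by
    simpa [isMean, μ, fieldGibbs_eq] using isMean_const (coupM β g) h 1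
  have hx : ∀ z, ∑ y, |P z y - μ' y| ≤ 1 / 16 + 1 / 8 := fun z => by
    refine (Finset.sum_le_sum fun y _ => abs_sub_le (P z y) (P' z y) (μ' y)).trans ?_
    rw [Finset.sum_add_distrib]
    exact add_le_add ((hdist z).trans hsmall) (hmix z)
  have hμμ : ∑ y, |μ y - μ' y| ≤ 1 / 16 + 1 / 8 := by
    calc ∑ y, |μ y - μ' y| = ∑ y, |∑ z, μ z * (P z y - μ' y)| := by
          refine Finset.sum_congr rfl fun y _ => ?_
          rw [Finset.sum_congr rfl fun z _ => mul_sub (μ z) (P z y) (μ' y), Finset.sum_sub_distrib,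
            ← hinv, ← Finset.sum_mul, hμ1, one_mul]
      _ ≤ ∑ y, ∑ z, μ z * |P z y - μ' y| := Finset.sum_le_sum fun y _ =>
          (Finset.abs_sum_le_sum_abs _ _).trans_eq
            (Finset.sum_congr rfl fun z _ => by rw [abs_mul, abs_of_nonneg (hμ0 z)])
      _ = ∑ z, μ z * ∑ y, |P z y - μ' y| := by
          rw [Finset.sum_comm]; simp only [Finset.mul_sum]
      _ ≤ ∑ z, μ z * (1 / 16 + 1 / 8) :=
          Finset.sum_le_sum fun z _ => mul_le_mul_of_nonneg_left (hx z) (hμ0 z)
      _ = _ := by rw [← Finset.sum_mul, hμ1, one_mul]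
  intro x
  have : ∑ y, |P x y - μ y| ≤ ∑ y, |P x y - μ' y| + ∑ y, |μ y - μ' y| := by
    rw [← Finset.sum_add_distrib]
    exact Finset.sum_le_sum fun y _ => (abs_sub_le _ (μ' y) _).trans_eq (by rw [abs_sub_comm (μ' y)])
  linarith [hx x]

/-- Fast mixing below one half, all external fields at once. -/
theorem fast_below_half_field {β : ℝ} (hβ0 : 0 ≤ β) (hβ : β < 1 / 2) :
    ∃ ρ C : ℝ, 0 < ρ ∧ 0 < C ∧
      Tendsto (fun n => disorderLaw n
        {g | ¬ ∀ h : Fin n → ℝ, ρ ≤ fieldGap β g h ∧ FieldMixedAt β g h (C * Real.log n)})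
        atTop (𝓝 0) := by
  obtain ⟨K, τ0, hK, hτ0, hfast⟩ := fast_field_of_nice
  set δ := 1 - 2 * β with hδ
  have hδ0 : 0 < δ := by linarith
  set c := 2 * β + δ / 2 with hc
  have hc1 : c < 1 := by linarith
  have hc0 : 0 ≤ c := by linarith
  set R := 2 * β ^ 2 with hR
  have hR0 : 0 ≤ R := by positivity
  have hR1 : R ≤ 1 := by rw [hR]; nlinarith
  have hR2 : max c (2 * R) = c := max_eq_left (by rw [hR]; nlinarith)
  set η := min τ0 ((1 - c) / (2 * (K * R + 1))) with hη
  have hη0 : 0 < η := lt_min hτ0 (div_pos (by linarith) (by positivity))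
  set ρ := (1 - c) / 2 with hρ
  have hρ0 : 0 < ρ := by linarith
  have hρle : ρ ≤ 1 - max c (2 * R) - K * η * R := by
    have h1 : η * (2 * (K * R + 1)) ≤ 1 - c :=
      (le_div_iff₀ (by positivity)).1 (min_le_right _ _)
    rw [hR2, hρ]
    nlinarith
  set Kt := Real.exp (2 * c / ρ) with hKt
  have hKt0 : 0 < Kt := Real.exp_pos _
  refine ⟨ρ, 4 * Kt, hρ0, by positivity, ?_⟩
  refine tendsto_measure_zero ?_ (tendsto_nice_bound (δ := δ) (η := η) β hδ0 hη0)
  filter_upwards [eventually_gt_atTop 0, eventually_sqrt_ge β,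
    tendsto_natCast_atTop_atTop.eventually_ge_atTop (1024 * 12 : ℝ),
    tendsto_natCast_atTop_atTop.eventually_ge_atTop (128 * Kt)] with n hn hn4 hbig hbig2
  refine le_trans (measure_mono ?_) (prob_nice hβ0 hn hn4 hδ0 (by linarith) hη0)
  intro g hg hgood
  refine hg ?_
  obtain ⟨hq, hN⟩ := hgood
  have hn0 : (0:ℝ) < n := by exact_mod_cast hn
  have hn1 : (1:ℝ) ≤ n := by exact_mod_cast hn
  have hl0 := Real.log_nonneg hn1
  have hl : Real.log n ≤ n := (Real.log_le_sub_one_of_pos hn0).trans (by linarith)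
  refine hfast n β g c R η ρ _ hn hc0 hR0 hη0.le (min_le_left _ _) hρ0 hρle hq hN
    (mul_nonneg (by positivity) hl0) ?_ ?_
  · have e : 4 * Kt * Real.log n / Kt = Real.log n * (4 : ℕ) := by field_simp; push_cast; ring
    rw [← hKt, e, mul_comm (Real.log n), Real.exp_nat_mul, Real.exp_log hn0]
    have h1 : c + 2 * ((n:ℝ) + R + 2 * Real.log n) + 1 ≤ 12 * n := by linarith
    calc 1024 * ((n:ℝ) * (c + 2 * ((n:ℝ) + R + 2 * Real.log n) + 1))
        ≤ 1024 * ((n:ℝ) * (12 * n)) := by gcongr
      _ = (1024 * 12) * (n:ℝ) ^ 2 := by ring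
      _ ≤ n * (n:ℝ) ^ 2 := by gcongr
      _ ≤ (n:ℝ) ^ 4 := by nlinarith [pow_nonneg hn0.le 3]
  · have e : Real.exp (-(2 * (2 * Real.log n))) = 1 / (n:ℝ) ^ 4 := by
      rw [Real.exp_neg, one_div, show 2 * (2 * Real.log n) = ((4 : ℕ) : ℝ) * Real.log n by push_cast; ring,
        Real.exp_nat_mul, Real.exp_log hn0]
    rw [e]
    calc 4 * Kt * Real.log n * ((n:ℝ) * (2 * (1 / (n:ℝ) ^ 4)))
        ≤ 4 * Kt * n * ((n:ℝ) * (2 * (1 / (n:ℝ) ^ 4))) := by gcongr
      _ = 8 * Kt / (n:ℝ) ^ 2 := by field_simp; ring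
      _ ≤ 1 / 16 := by
          rw [div_le_iff₀ (by positivity)]
          nlinarith

end Vale.Agent.P150
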