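import Vale.Agent.P150.Defs

/-!
The model in an external field and its continuous-time heat-bath dynamics.
-/

namespace Vale.Agent.P150

open MeasureTheory ProbabilityTheory Matrix

/-- The Gibbs probability in the external field `h`: proportional to
`exp (energy + ∑ i, h i * x i)`. -/
noncomputable def fieldGibbs {n : ℕ} (β : ℝ) (g : Pairs n → ℝ) (h : Fin n → ℝ)
    (x : Fin n → Bool) : ℝ :=
  Real.exp (energy β g x + ∑ i, h i * spin x i) /
    ∑ z : Fin n → Bool, Real.exp (energy β g z + ∑ i, h i * spin z i)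

/-- Resampling the spin at site `i` given the others, in the external field `h`: to a configuration
`y` agreeing with `x` off `i` it gives mass `exp (y i * a) / (2 * cosh a)`, with
`a = localField x i + h i`. -/
noncomputable def fieldHeatBath {n : ℕ} (β : ℝ) (g : Pairs n → ℝ) (h : Fin n → ℝ) (i : Fin n) :
    Matrix (Fin n → Bool) (Fin n → Bool) ℝ :=
  Matrix.of fun x y => if ∀ j, j ≠ i → y j = x j then
    Real.exp (spin y i * (localField β g x i + h i)) /
      (2 * Real.cosh (localField β g x i + h i)) else 0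

/-- The generator `∑ i, (Q i - 1)` in the external field `h`. -/
noncomputable def fieldGen {n : ℕ} (β : ℝ) (g : Pairs n → ℝ) (h : Fin n → ℝ) :
    Matrix (Fin n → Bool) (Fin n → Bool) ℝ :=
  ∑ i : Fin n, (fieldHeatBath β g h i - 1)

/-- Gibbs expectation in the external field `h`. -/
noncomputable def fieldMean {n : ℕ} (β : ℝ) (g : Pairs n → ℝ) (h : Fin n → ℝ)
    (f : (Fin n → Bool) → ℝ) : ℝ :=
  ∑ x, fieldGibbs β g h x * f x

/-- Gibbs variance in the external field `h`. -/
noncomputable def fieldVar {n : ℕ} (β : ℝ) (g : Pairs n → ℝ) (h : Fin n → ℝ)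
    (f : (Fin n → Bool) → ℝ) : ℝ :=
  ∑ x, fieldGibbs β g h x * (f x - fieldMean β g h f) ^ 2

/-- The Dirichlet form `⟨f, -L f⟩` in the external field `h`. -/
noncomputable def fieldDirichlet {n : ℕ} (β : ℝ) (g : Pairs n → ℝ) (h : Fin n → ℝ)
    (f : (Fin n → Bool) → ℝ) : ℝ :=
  -∑ x, fieldGibbs β g h x * f x * (fieldGen β g h *ᵥ f) x

/-- The spectral gap in the external field `h`. -/
noncomputable def fieldGap {n : ℕ} (β : ℝ) (g : Pairs n → ℝ) (h : Fin n → ℝ) : ℝ :=
  sInf {r : ℝ | ∃ f : (Fin n → Bool) → ℝ, 0 < fieldVar β g h f ∧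
    r = fieldDirichlet β g h f / fieldVar β g h f}

/-- Being mixed at time `t` in the external field `h`: from every start the kernel is within `1/4`
of the Gibbs measure in total variation. -/
def FieldMixedAt {n : ℕ} (β : ℝ) (g : Pairs n → ℝ) (h : Fin n → ℝ) (t : ℝ) : Prop :=
  ∀ x : Fin n → Bool,
    (∑ y, |(NormedSpace.exp (t • fieldGen β g h)) x y - fieldGibbs β g h y|) / 2 ≤ 1 / 4

end Vale.Agent.P150
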