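import Mathlib

/-!
Gaussian integration by parts for finitely many independent standard normal variables.
-/

namespace Vale.Agent.P150

open MeasureTheory ProbabilityTheory Real Function

/-- The law of independent standard normal variables indexed by `ι`. -/
noncomputable def stdGauss (ι : Type*) [Fintype ι] : Measure (ι → ℝ) :=
  Measure.pi fun _ : ι => gaussianReal 0 1

instance (ι : Type*) [Fintype ι] : IsProbabilityMeasure (stdGauss ι) := by
  unfold stdGauss; infer_instance

lemma hasDerivAt_pdf (x : ℝ) :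
    HasDerivAt (gaussianPDFReal 0 1) (-x * gaussianPDFReal 0 1 x) x := by
  rw [gaussianPDFReal_def]
  have h : HasDerivAt (fun x : ℝ => -(x - 0) ^ 2 / (2 * ((1 : NNReal) : ℝ))) (-x) x := by
    have := ((((hasDerivAt_id x).sub_const 0).pow 2).neg).div_const (2 * ((1 : NNReal) : ℝ))
    refine this.congr_deriv ?_
    simp; ring
  simpa [mul_comm, mul_assoc, mul_left_comm] using (h.exp).const_mul (√(2 * π * ((1 : NNReal) : ℝ)))⁻¹

lemma integrable_gaussian_iff (f : ℝ → ℝ) :
    Integrable f (gaussianReal 0 1) ↔ Integrable (fun x => gaussianPDFReal 0 1 x * f x) := by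
  rw [gaussianReal_of_var_ne_zero 0 (one_ne_zero),
    integrable_withDensity_iff_integrable_smul' (measurable_gaussianPDF 0 1)
      (ae_of_all _ fun _ => gaussianPDF_lt_top)]
  simp [toReal_gaussianPDF, smul_eq_mul]

lemma ibp_one (f f' : ℝ → ℝ) (hd : ∀ x, HasDerivAt f (f' x) x)
    (hf : Integrable f (gaussianReal 0 1))
    (hxf : Integrable (fun x => x * f x) (gaussianReal 0 1))
    (hf' : Integrable f' (gaussianReal 0 1)) :
    ∫ x, x * f x ∂gaussianReal 0 1 = ∫ x, f' x ∂gaussianReal 0 1 := by
  rw [integral_gaussianReal_eq_integral_smul one_ne_zero,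
    integral_gaussianReal_eq_integral_smul one_ne_zero]
  rw [integrable_gaussian_iff] at hf hxf hf'
  simp only [smul_eq_mul]
  have hd2 : ∀ x, HasDerivAt (fun x => gaussianPDFReal 0 1 x * f x)
      (gaussianPDFReal 0 1 x * f' x - gaussianPDFReal 0 1 x * (x * f x)) x := fun x => by
    refine ((hasDerivAt_pdf x).mul (hd x)).congr_deriv ?_; ring
  have := integral_eq_zero_of_hasDerivAt_of_integrable hd2 (hf'.sub hxf) hf
  rw [integral_sub hf' hxf] at this
  linarith

variable {ι : Type*} [Fintype ι] [DecidableEq ι]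

/-- Splitting off the coordinate `k`. -/
lemma split_coord (k : ι) :
    ∃ (T : ℝ × ({i // ¬ i = k} → ℝ) → (ι → ℝ)),
      MeasurableEmbedding T ∧
      MeasurePreserving T ((gaussianReal 0 1).prod (stdGauss {i // ¬ i = k})) (stdGauss ι) ∧
      (∀ x r, T (x, r) k = x) ∧ (∀ x y r, update (T (x, r)) k y = T (y, r)) := by
  let e1 := MeasurableEquiv.piEquivPiSubtypeProd (fun _ : ι => ℝ) (fun i => i = k)
  let e2 := (MeasurableEquiv.funUnique {i // i = k} ℝ).prodCongr
    (MeasurableEquiv.refl ({i // ¬ i = k} → ℝ))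
  refine ⟨fun p => e1.symm (e2.symm p), e1.symm.measurableEmbedding.comp
    e2.symm.measurableEmbedding, ?_, ?_, ?_⟩
  · have h1 := (measurePreserving_piEquivPiSubtypeProd (fun _ : ι => gaussianReal 0 1)
      (fun i => i = k)).symm
    have h2 := (measurePreserving_funUnique (gaussianReal 0 1) {i // i = k}).symm
    rw [show (Unique.fintype : Fintype {i // i = k}) = Subtype.fintype (fun i => i = k) from
      Subsingleton.elim _ _] at h2
    exact h1.comp (h2.prod (MeasurePreserving.id (stdGauss {i // ¬ i = k})))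
  · intro x r; simp [e1, e2, MeasurableEquiv.piEquivPiSubtypeProd, MeasurableEquiv.prodCongr,
      MeasurableEquiv.funUnique, Equiv.piEquivPiSubtypeProd]
  · intro x y r; ext i; by_cases h : i = k
    · subst h; simp [e1, e2, MeasurableEquiv.piEquivPiSubtypeProd, MeasurableEquiv.prodCongr,
        MeasurableEquiv.funUnique, Equiv.piEquivPiSubtypeProd]
    · simp [e1, e2, MeasurableEquiv.piEquivPiSubtypeProd, MeasurableEquiv.prodCongr,
        MeasurableEquiv.funUnique, Equiv.piEquivPiSubtypeProd, h]

/-- Gaussian integration by parts in coordinate `k`. -/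
theorem ibp (k : ι) (F F' : (ι → ℝ) → ℝ)
    (hd : ∀ z, HasDerivAt (fun s => F (update z k s)) (F' z) (z k))
    (hF : Integrable F (stdGauss ι))
    (hzF : Integrable (fun z => z k * F z) (stdGauss ι))
    (hF' : Integrable F' (stdGauss ι)) :
    ∫ z, z k * F z ∂stdGauss ι = ∫ z, F' z ∂stdGauss ι := by
  obtain ⟨T, hemb, hT, hk, hu⟩ := split_coord k
  rw [← hT.integral_comp hemb, ← hT.integral_comp hemb]
  have i1 := (hT.integrable_comp_emb hemb).2 hF
  have i2 := (hT.integrable_comp_emb hemb).2 hzF
  have i3 := (hT.integrable_comp_emb hemb).2 hF'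
  simp only [comp_def] at i1 i2 i3
  rw [integral_prod_symm _ i2, integral_prod_symm _ i3]
  apply integral_congr_ae
  filter_upwards [i1.prod_left_ae, i2.prod_left_ae, i3.prod_left_ae] with r a1 a2 a3
  simp only [hk] at a1 a2 a3 ⊢
  refine ibp_one _ _ (fun x => ?_) a1 a2 a3
  have h := hd (T (x, r))
  rw [hk] at h
  simpa only [hu] using h

omit [DecidableEq ι] in
/-- Exponential of a weighted sum of absolute values is integrable. -/
lemma integrable_exp_abs (C : ι → ℝ) :
    Integrable (fun z : ι → ℝ => Real.exp (∑ i, C i * |z i|)) (stdGauss ι) := by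
  simp_rw [Real.exp_sum]
  refine Integrable.fintype_prod (f := fun i x => Real.exp (C i * |x|)) (fun i => ?_)
  exact integrable_exp_mul_abs (integrable_exp_mul_gaussianReal _) (integrable_exp_mul_gaussianReal _)

/-- A continuous function dominated by a constant times such an exponential is integrable. -/
lemma integrable_of_exp_bound {F : (ι → ℝ) → ℝ} (hF : Continuous F) (K : ℝ) (C : ι → ℝ)
    (h : ∀ z, |F z| ≤ K * Real.exp (∑ i, C i * |z i|)) : Integrable F (stdGauss ι) :=
  ((integrable_exp_abs C).const_mul K).mono' hF.aestronglyMeasurable (ae_of_all _ h)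

lemma integrable_of_bound {F : (ι → ℝ) → ℝ} (hF : Continuous F) (K : ℝ)
    (h : ∀ z, |F z| ≤ K) : Integrable F (stdGauss ι) :=
  integrable_of_exp_bound hF K 0 (by simpa using h)

lemma integrable_coord_mul {F : (ι → ℝ) → ℝ} (hF : Continuous F) (K : ℝ) (k : ι)
    (h : ∀ z, |F z| ≤ K) : Integrable (fun z => z k * F z) (stdGauss ι) := by
  refine integrable_of_exp_bound (C := fun i => if i = k then 1 else 0) (by fun_prop) K fun z => ?_
  have : |z k| ≤ Real.exp |z k| := by linarith [Real.add_one_le_exp |z k|]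
  rw [abs_mul]
  have hs : (∑ i, (if i = k then (1 : ℝ) else 0) * |z i|) = |z k| := by simp
  rw [hs, mul_comm]
  exact mul_le_mul (h z) this (abs_nonneg _) ((abs_nonneg _).trans (h z))

/-- Integration by parts for bounded functions with bounded derivative. -/
theorem ibp_bounded (k : ι) (F F' : (ι → ℝ) → ℝ) (K K' : ℝ)
    (hd : ∀ z, HasDerivAt (fun s => F (update z k s)) (F' z) (z k))
    (hF : Continuous F) (hb : ∀ z, |F z| ≤ K) (hF' : Continuous F') (hb' : ∀ z, |F' z| ≤ K') :
    ∫ z, z k * F z ∂stdGauss ι = ∫ z, F' z ∂stdGauss ι :=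
  ibp k F F' hd (integrable_of_bound hF K hb) (integrable_coord_mul hF K k hb)
    (integrable_of_bound hF' K' hb')

end Vale.Agent.P150
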