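import Vale.Agent.P150.Matrix

/-!
Gibbs averages, correlation and resolvent matrices with their derivatives in the disorder.
-/

namespace Vale.Agent.P150

open MeasureTheory ProbabilityTheory Real Function Matrix Filter Topology

variable {n : ℕ} {β z m : ℝ} {g : Pairs n → ℝ}

/-- The product of the two spins of a pair. -/
noncomputable def pairSpin (p : Pairs n) (x : Fin n → Bool) : ℝ := spin x p.1.1 * spin x p.1.2

/-- The correlation matrix. -/
noncomputable def corrM (β : ℝ) (g : Pairs n → ℝ) : Matrix (Fin n) (Fin n) ℝ :=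
  Matrix.of fun i j => gibbsMean β g fun x => spin x i * spin x j

/-- The resolvent. -/
noncomputable def resM (β z : ℝ) (g : Pairs n → ℝ) : Matrix (Fin n) (Fin n) ℝ :=
  (z • (1 : Matrix (Fin n) (Fin n) ℝ) - coupM β g)⁻¹

/-- `z - J` is bounded below by `m`. -/
def IsGood (β z m : ℝ) (g : Pairs n → ℝ) : Prop :=
  ∀ v : Fin n → ℝ, m * (v ⬝ᵥ v) ≤ v ⬝ᵥ (z • (1 : Matrix (Fin n) (Fin n) ℝ) - coupM β g) *ᵥ v

/-- The sum of the squares of all entries. -/
noncomputable def frob (M : Matrix (Fin n) (Fin n) ℝ) : ℝ := ∑ i, ∑ j, M i j ^ 2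

/-- The overlap second moment. -/
noncomputable def overlapSq (β : ℝ) (g : Pairs n → ℝ) : ℝ := frob (corrM β g) / (n : ℝ) ^ 2

/-- The normalised trace of the resolvent. -/
noncomputable def resTr (β z : ℝ) (g : Pairs n → ℝ) : ℝ := (resM β z g).trace / n

/-- The normalised trace of resolvent times correlation. -/
noncomputable def resCorr (β z : ℝ) (g : Pairs n → ℝ) : ℝ :=
  (resM β z g * corrM β g).trace / n

lemma spin_mul_self (x : Fin n → Bool) (i : Fin n) : spin x i * spin x i = 1 := by
  unfold spin; split_ifs <;> norm_num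

lemma abs_spin (x : Fin n → Bool) (i : Fin n) : |spin x i| = 1 := by
  unfold spin; split_ifs <;> norm_num

lemma partitionFn_pos (β : ℝ) (g : Pairs n → ℝ) : 0 < partitionFn β g :=
  Finset.sum_pos (fun _ _ => Real.exp_pos _) Finset.univ_nonempty

lemma gibbs_pos (β : ℝ) (g : Pairs n → ℝ) (x : Fin n → Bool) : 0 < gibbs β g x :=
  div_pos (Real.exp_pos _) (partitionFn_pos β g)

lemma sum_gibbs (β : ℝ) (g : Pairs n → ℝ) : ∑ x, gibbs β g x = 1 := by
  simp only [gibbs, ← Finset.sum_div]; exact div_self (partitionFn_pos β g).ne'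

lemma gibbsMean_const (β : ℝ) (g : Pairs n → ℝ) (a : ℝ) : gibbsMean β g (fun _ => a) = a := by
  simp [gibbsMean, ← Finset.sum_mul, sum_gibbs]

lemma gibbsMean_mono (β : ℝ) (g : Pairs n → ℝ) {f h : (Fin n → Bool) → ℝ} (H : ∀ x, f x ≤ h x) :
    gibbsMean β g f ≤ gibbsMean β g h :=
  Finset.sum_le_sum fun x _ => mul_le_mul_of_nonneg_left (H x) (gibbs_pos β g x).le

lemma abs_gibbsMean_le (β : ℝ) (g : Pairs n → ℝ) {f h : (Fin n → Bool) → ℝ}
    (H : ∀ x, |f x| ≤ h x) : |gibbsMean β g f| ≤ gibbsMean β g h :=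
  (Finset.abs_sum_le_sum_abs _ _).trans (Finset.sum_le_sum fun x _ => by
    rw [abs_mul, abs_of_pos (gibbs_pos β g x)]
    exact mul_le_mul_of_nonneg_left (H x) (gibbs_pos β g x).le)

lemma corrM_transpose (β : ℝ) (g : Pairs n → ℝ) : (corrM β g)ᵀ = corrM β g := by
  ext i j; simp only [transpose_apply, corrM, of_apply]; congr 1; funext x; ring

lemma corrM_self (β : ℝ) (g : Pairs n → ℝ) (i : Fin n) : corrM β g i i = 1 := by
  simp only [corrM, of_apply, spin_mul_self, gibbsMean_const]

lemma abs_corrM_le (β : ℝ) (g : Pairs n → ℝ) (i j : Fin n) : |corrM β g i j| ≤ 1 := by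
  refine (abs_gibbsMean_le β g (h := fun _ => 1) fun x => ?_).trans (gibbsMean_const β g 1).le
  rw [abs_mul, abs_spin, abs_spin, one_mul]

lemma trace_corrM (β : ℝ) (g : Pairs n → ℝ) : (corrM β g).trace = n := by
  simp [Matrix.trace, corrM_self]

lemma dot_spin_self (x : Fin n → Bool) : spin x ⬝ᵥ spin x = n := by
  simp [dotProduct, spin_mul_self]

lemma mul_corrM_apply (A : Matrix (Fin n) (Fin n) ℝ) (β : ℝ) (g : Pairs n → ℝ) (i j : Fin n) :
    (A * corrM β g) i j = gibbsMean β g fun x => (A *ᵥ spin x) i * spin x j := by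
  simp only [Matrix.mul_apply, corrM, of_apply, gibbsMean, Matrix.mulVec, dotProduct,
    Finset.mul_sum, Finset.sum_mul]
  rw [Finset.sum_comm]
  exact Finset.sum_congr rfl fun x _ => Finset.sum_congr rfl fun k _ => by ring

lemma trace_mul_corrM (A : Matrix (Fin n) (Fin n) ℝ) (β : ℝ) (g : Pairs n → ℝ) :
    (A * corrM β g).trace = gibbsMean β g fun x => spin x ⬝ᵥ A *ᵥ spin x := by
  simp only [Matrix.trace, Matrix.diag, mul_corrM_apply, gibbsMean, dotProduct, Finset.mul_sum]
  rw [Finset.sum_comm]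
  exact Finset.sum_congr rfl fun x _ => Finset.sum_congr rfl fun k _ => by ring

lemma quad_corrM (β : ℝ) (g : Pairs n → ℝ) (v : Fin n → ℝ) :
    v ⬝ᵥ corrM β g *ᵥ v = gibbsMean β g fun x => (v ⬝ᵥ spin x) ^ 2 := by
  simp only [dotProduct, Matrix.mulVec, corrM, of_apply, gibbsMean, Finset.mul_sum,
    Finset.sum_mul, pow_two]
  conv_rhs => rw [Finset.sum_comm]
  refine Finset.sum_congr rfl fun i _ => ?_
  rw [Finset.sum_comm]
  exact Finset.sum_congr rfl fun x _ => Finset.sum_congr rfl fun k _ => by ring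

lemma trace_corrM_mul_self (β : ℝ) (g : Pairs n → ℝ) :
    (corrM β g * corrM β g).trace = frob (corrM β g) := by
  simp only [Matrix.trace, Matrix.diag, Matrix.mul_apply, frob]
  refine Finset.sum_congr rfl fun i _ => Finset.sum_congr rfl fun j _ => ?_
  rw [pow_two]; congr 1; exact (congrFun (congrFun (corrM_transpose β g) i) j)

lemma quad_corrM_nonneg (β : ℝ) (g : Pairs n → ℝ) (v : Fin n → ℝ) :
    0 ≤ v ⬝ᵥ corrM β g *ᵥ v := by
  rw [quad_corrM]
  exact (gibbsMean_const β g 0).symm.trans_le (gibbsMean_mono β g fun x => sq_nonneg _)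

lemma frob_nonneg (M : Matrix (Fin n) (Fin n) ℝ) : 0 ≤ frob M :=
  Finset.sum_nonneg fun _ _ => Finset.sum_nonneg fun _ _ => sq_nonneg _

lemma frob_transpose (M : Matrix (Fin n) (Fin n) ℝ) : frob Mᵀ = frob M := Finset.sum_comm

lemma overlapSq_nonneg (β : ℝ) (g : Pairs n → ℝ) : 0 ≤ overlapSq β g :=
  div_nonneg (frob_nonneg _) (sq_nonneg _)

lemma frob_corrM (hn : 0 < n) (β : ℝ) (g : Pairs n → ℝ) :
    frob (corrM β g) = (n : ℝ) ^ 2 * overlapSq β g := by
  rw [overlapSq, mul_div_cancel₀]; positivity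

lemma overlapSq_le_one (β : ℝ) (g : Pairs n → ℝ) : overlapSq β g ≤ 1 := by
  refine div_le_one_of_le₀ ?_ (sq_nonneg _)
  calc frob (corrM β g) ≤ ∑ _i : Fin n, ∑ _j : Fin n, (1:ℝ) :=
        Finset.sum_le_sum fun i _ => Finset.sum_le_sum fun j _ =>
          (sq_le_one_iff_abs_le_one _).2 (abs_corrM_le β g i j)
    _ = _ := by simp [pow_two]

lemma sum_pairs_sq_le (M : Matrix (Fin n) (Fin n) ℝ) :
    ∑ p : Pairs n, (M p.1.1 p.1.2 + M p.1.2 p.1.1) ^ 2 ≤ 2 * frob M := by
  have h := two_mul_sum_pairs (fun i j => (M i j + M j i) ^ 2) (fun i j => by ring)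
  have h1 : ∑ i, ∑ j, (M i j + M j i) ^ 2 ≤ ∑ i, ∑ j, (2 * M i j ^ 2 + 2 * M j i ^ 2) :=
    Finset.sum_le_sum fun i _ => Finset.sum_le_sum fun j _ => by
      nlinarith [sq_nonneg (M i j - M j i)]
  have h2 : ∑ i, ∑ j, M j i ^ 2 = frob M := Finset.sum_comm
  have h3 : 0 ≤ ∑ i, (M i i + M i i) ^ 2 := Finset.sum_nonneg fun _ _ => sq_nonneg _
  simp only [Finset.sum_add_distrib, ← Finset.mul_sum, h2] at h1
  unfold frob at h1 ⊢
  linarith

lemma card_pairs_le : (2 : ℝ) * Fintype.card (Pairs n) ≤ (n : ℝ) ^ 2 := by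
  have h := two_mul_sum_pairs (n := n) (fun _ _ => (1:ℝ)) (fun _ _ => rfl)
  simp at h
  rw [pow_two]; linarith [Nat.cast_nonneg (α := ℝ) n]

lemma abs_pairSpin (p : Pairs n) (x : Fin n → Bool) : |pairSpin p x| = 1 := by
  rw [pairSpin, abs_mul, abs_spin, abs_spin, one_mul]

/-- The covariance of `a` with the product of a pair of spins. -/
noncomputable def covPair (β : ℝ) (g : Pairs n → ℝ) (p : Pairs n)
    (a : (Fin n → Bool) → ℝ) : ℝ :=
  gibbsMean β g (fun x => a x * pairSpin p x) - gibbsMean β g a * gibbsMean β g (pairSpin p)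

lemma sum_covPair_sq_le (β : ℝ) (g : Pairs n → ℝ) {a : (Fin n → Bool) → ℝ} (ha : ∀ x, 0 ≤ a x) :
    ∑ p, covPair β g p a ^ 2 ≤ 2 * (n : ℝ) ^ 2 * gibbsMean β g a ^ 2 := by
  have ha0 : 0 ≤ gibbsMean β g a := (gibbsMean_const β g 0).symm.trans_le (gibbsMean_mono β g ha)
  have h : ∀ p, |covPair β g p a| ≤ 2 * gibbsMean β g a := fun p => by
    have h1 : |gibbsMean β g (fun x => a x * pairSpin p x)| ≤ gibbsMean β g a :=
      abs_gibbsMean_le β g fun x => by rw [abs_mul, abs_pairSpin, mul_one, abs_of_nonneg (ha x)]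
    have h2 : |gibbsMean β g (pairSpin p)| ≤ 1 :=
      (abs_gibbsMean_le β g (h := fun _ => 1) fun x => (abs_pairSpin p x).le).trans
        (gibbsMean_const β g 1).le
    refine (abs_sub _ _).trans ?_
    rw [abs_mul, abs_of_nonneg ha0]
    nlinarith
  calc ∑ p, covPair β g p a ^ 2 ≤ ∑ _p : Pairs n, (2 * gibbsMean β g a) ^ 2 :=
        Finset.sum_le_sum fun p _ => sq_le_sq' (abs_le.1 (h p)).1 (abs_le.1 (h p)).2
    _ ≤ _ := by
        simp only [Finset.sum_const, Finset.card_univ, nsmul_eq_mul]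
        nlinarith [card_pairs_le (n := n), sq_nonneg (gibbsMean β g a)]

lemma continuous_gibbsMean (β : ℝ) (f : (Fin n → Bool) → ℝ) :
    Continuous fun g : Pairs n → ℝ => gibbsMean β g f := by
  unfold gibbsMean gibbs partitionFn energy
  refine continuous_finsetSum _ fun x _ => (Continuous.div (by fun_prop) (by fun_prop)
    fun g => (Finset.sum_pos (fun _ _ => Real.exp_pos _) Finset.univ_nonempty).ne').mul
    continuous_const

lemma continuous_corrM (β : ℝ) : Continuous fun g : Pairs n → ℝ => corrM β g :=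
  continuous_matrix fun i j => continuous_gibbsMean β _

lemma hasDerivAt_gibbsMean (β : ℝ) (g : Pairs n → ℝ) (p : Pairs n)
    (f : (Fin n → Bool) → ℝ) :
    HasDerivAt (fun s => gibbsMean β (update g p s) f) (scaleC β n * covPair β g p f) (g p) := by
  have hE : ∀ x, HasDerivAt (fun s => Real.exp (energy β (update g p s) x))
      (Real.exp (energy β g x) * (scaleC β n * pairSpin p x)) (g p) := fun x => by
    have h := ((hasDerivAt_linear (fun q => spin x q.1.1 * spin x q.1.2) g p (g p)).const_mul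
      (β / Real.sqrt n)).exp
    have he : ∀ g' : Pairs n → ℝ, β / Real.sqrt n * ∑ q, spin x q.1.1 * spin x q.1.2 * g' q =
        energy β g' x := fun g' => by
      unfold energy; congr 1; exact Finset.sum_congr rfl fun q _ => mul_comm _ _
    simpa [he, update_eq_self, scaleC, pairSpin] using h
  have hZ := HasDerivAt.fun_sum (u := (Finset.univ : Finset (Fin n → Bool))) fun x _ => hE x
  have hN := HasDerivAt.fun_sum (u := (Finset.univ : Finset (Fin n → Bool)))
    fun x _ => (hE x).mul_const (f x)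
  have h := hN.fun_div hZ (by simpa [partitionFn] using (partitionFn_pos β g).ne')
  have e : ∀ g' : Pairs n → ℝ, (∑ x, Real.exp (energy β g' x) * f x) /
      (∑ x, Real.exp (energy β g' x)) = gibbsMean β g' f := fun g' => by
    rw [Finset.sum_div]
    exact Finset.sum_congr rfl fun x _ => by simp only [gibbs, partitionFn]; ring
  simp only [e, update_eq_self] at h
  refine h.congr_deriv ?_
  have e1 : ∀ a : (Fin n → Bool) → ℝ,
      ∑ x, Real.exp (energy β g x) * a x = partitionFn β g * gibbsMean β g a := fun a => by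
    rw [gibbsMean, Finset.mul_sum]
    refine Finset.sum_congr rfl fun x _ => ?_
    rw [gibbs]; field_simp [(partitionFn_pos β g).ne']
  have e2 : ∑ x, Real.exp (energy β g x) * (scaleC β n * pairSpin p x) * f x =
      scaleC β n * (partitionFn β g * gibbsMean β g fun x => f x * pairSpin p x) := by
    rw [← e1, Finset.mul_sum]; exact Finset.sum_congr rfl fun x _ => by ring
  have e3 : ∑ x, Real.exp (energy β g x) * (scaleC β n * pairSpin p x) =
      scaleC β n * (partitionFn β g * gibbsMean β g (pairSpin p)) := by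
    rw [← e1, Finset.mul_sum]; exact Finset.sum_congr rfl fun x _ => by ring
  rw [e2, e3, e1 f, ← partitionFn, covPair]
  have := (partitionFn_pos β g).ne'
  field_simp

lemma hasDerivAt_corrM (β : ℝ) (g : Pairs n → ℝ) (p : Pairs n) (i j : Fin n) :
    HasDerivAt (fun s => corrM β (update g p s) i j)
      (scaleC β n * covPair β g p fun x => spin x i * spin x j) (g p) :=
  hasDerivAt_gibbsMean β g p _

lemma gibbsMean_sum {κ : Type*} [Fintype κ] (β : ℝ) (g : Pairs n → ℝ)
    (f : κ → (Fin n → Bool) → ℝ) :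
    gibbsMean β g (fun x => ∑ k, f k x) = ∑ k, gibbsMean β g (f k) := by
  simp only [gibbsMean, Finset.mul_sum]; exact Finset.sum_comm

lemma gibbsMean_const_mul (β : ℝ) (g : Pairs n → ℝ) (a : ℝ) (f : (Fin n → Bool) → ℝ) :
    gibbsMean β g (fun x => a * f x) = a * gibbsMean β g f := by
  simp only [gibbsMean, Finset.mul_sum]; exact Finset.sum_congr rfl fun x _ => by ring

lemma covPair_sum {κ : Type*} [Fintype κ] (β : ℝ) (g : Pairs n → ℝ) (p : Pairs n)
    (f : κ → (Fin n → Bool) → ℝ) :
    covPair β g p (fun x => ∑ k, f k x) = ∑ k, covPair β g p (f k) := by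
  simp only [covPair, Finset.sum_mul, gibbsMean_sum, Finset.sum_sub_distrib]

lemma covPair_const_mul (β : ℝ) (g : Pairs n → ℝ) (p : Pairs n) (a : ℝ)
    (f : (Fin n → Bool) → ℝ) :
    covPair β g p (fun x => a * f x) = a * covPair β g p f := by
  simp only [covPair, mul_assoc a, gibbsMean_const_mul]; ring

lemma hasDerivAt_overlapSq (β : ℝ) (g : Pairs n → ℝ) (p : Pairs n) :
    HasDerivAt (fun s => overlapSq β (update g p s))
      (2 * scaleC β n / (n : ℝ) ^ 2 *
        covPair β g p fun x => spin x ⬝ᵥ corrM β g *ᵥ spin x) (g p) := by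
  have h := (HasDerivAt.fun_sum (u := (Finset.univ : Finset (Fin n))) fun i _ =>
    HasDerivAt.fun_sum (u := (Finset.univ : Finset (Fin n))) fun j _ =>
      (hasDerivAt_corrM β g p i j).fun_pow 2).div_const ((n : ℝ) ^ 2)
  refine h.congr_deriv ?_
  have e : covPair β g p (fun x => spin x ⬝ᵥ corrM β g *ᵥ spin x) =
      ∑ i, ∑ j, corrM β g i j * covPair β g p fun x => spin x i * spin x j := by
    have hx : ∀ x : Fin n → Bool, spin x ⬝ᵥ corrM β g *ᵥ spin x =
        ∑ i, ∑ j, corrM β g i j * (spin x i * spin x j) := fun x => by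
      simp only [dotProduct, Matrix.mulVec, Finset.mul_sum]
      exact Finset.sum_congr rfl fun i _ => Finset.sum_congr rfl fun j _ => by ring
    simp only [hx, covPair_sum, covPair_const_mul]
  rw [e, Finset.mul_sum, Finset.sum_div]
  refine Finset.sum_congr rfl fun i _ => ?_
  rw [Finset.mul_sum, Finset.sum_div]
  refine Finset.sum_congr rfl fun j _ => ?_
  simp only [update_eq_self]; ring

/-! ### The resolvent on the good set -/

lemma IsGood.isUnit (h : IsGood β z m g) (hm : 0 < m) :
    IsUnit (z • (1 : Matrix (Fin n) (Fin n) ℝ) - coupM β g) := by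
  rw [← Matrix.mulVec_injective_iff_isUnit]
  intro v w hvw
  by_contra hne
  have h0 : (z • (1 : Matrix (Fin n) (Fin n) ℝ) - coupM β g) *ᵥ (v - w) = 0 := by
    rw [Matrix.mulVec_sub]; exact sub_eq_zero.2 hvw
  have hh := h (v - w)
  rw [h0, dotProduct_zero] at hh
  have : (v - w) ⬝ᵥ (v - w) = 0 := le_antisymm (by
    by_contra hc; push Not at hc; nlinarith) (dotProduct_self_star_nonneg (v - w))
  exact hne (sub_eq_zero.1 (dotProduct_self_eq_zero.1 this))

lemma resM_transpose (β z : ℝ) (g : Pairs n → ℝ) : (resM β z g)ᵀ = resM β z g := by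
  rw [resM, Matrix.transpose_nonsing_inv, transpose_sub, transpose_smul, transpose_one,
    coupM_transpose]

lemma resM_comm (β z : ℝ) (g : Pairs n → ℝ) (i j : Fin n) :
    resM β z g i j = resM β z g j i := congrFun (congrFun (resM_transpose β z g) j) i

lemma IsGood.mul_resM (h : IsGood β z m g) (hm : 0 < m) :
    (z • (1 : Matrix (Fin n) (Fin n) ℝ) - coupM β g) * resM β z g = 1 :=
  Matrix.mul_nonsing_inv _ ((Matrix.isUnit_iff_isUnit_det _).1 (h.isUnit hm))

lemma IsGood.quad_bounds (h : IsGood β z m g) (hm : 0 < m) (w : Fin n → ℝ) :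
    0 ≤ w ⬝ᵥ resM β z g *ᵥ w ∧ m * (w ⬝ᵥ resM β z g *ᵥ w) ≤ w ⬝ᵥ w ∧
      m ^ 2 * ((resM β z g *ᵥ w) ⬝ᵥ (resM β z g *ᵥ w)) ≤ w ⬝ᵥ w := by
  set v := resM β z g *ᵥ w with hv
  have e : (z • (1 : Matrix (Fin n) (Fin n) ℝ) - coupM β g) *ᵥ v = w := by
    rw [hv, Matrix.mulVec_mulVec, h.mul_resM hm, Matrix.one_mulVec]
  have h1 := h v
  rw [e] at h1
  have h0 : 0 ≤ v ⬝ᵥ v := dotProduct_self_star_nonneg v
  have h2 : 0 ≤ (w - m • v) ⬝ᵥ (w - m • v) := dotProduct_self_star_nonneg _
  simp only [sub_dotProduct, dotProduct_sub, smul_dotProduct, dotProduct_smul, smul_eq_mul] at h2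
  have hc : w ⬝ᵥ v = v ⬝ᵥ w := dotProduct_comm _ _
  refine ⟨by rw [hc]; nlinarith, ?_, ?_⟩
  · rw [hc] at h2 ⊢; nlinarith
  · rw [hc] at h2; nlinarith

lemma IsGood.frob_res_mul (h : IsGood β z m g) (hm : 0 < m) (X : Matrix (Fin n) (Fin n) ℝ) :
    m ^ 2 * frob (resM β z g * X) ≤ frob X := by
  unfold frob
  rw [Finset.sum_comm, Finset.mul_sum, Finset.sum_comm (f := fun i j => X i j ^ 2)]
  refine Finset.sum_le_sum fun j _ => ?_
  have := (h.quad_bounds hm (fun i => X i j)).2.2
  simpa [dotProduct, Matrix.mulVec, Matrix.mul_apply, pow_two] using this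

lemma IsGood.frob_res_conj (h : IsGood β z m g) (hm : 0 < m) (X : Matrix (Fin n) (Fin n) ℝ) :
    m ^ 4 * frob (resM β z g * X * resM β z g) ≤ frob X := by
  have h1 := h.frob_res_mul hm X
  have h2 := h.frob_res_mul hm (resM β z g * X)ᵀ
  have e : resM β z g * (resM β z g * X)ᵀ = (resM β z g * X * resM β z g)ᵀ := by
    rw [Matrix.transpose_mul (resM β z g * X), resM_transpose]
  rw [e, frob_transpose, frob_transpose] at h2
  nlinarith [mul_le_mul_of_nonneg_left h2 (sq_nonneg m)]

lemma IsGood.frob_res (h : IsGood β z m g) (hm : 0 < m) :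
    m ^ 2 * frob (resM β z g) ≤ n := by
  have := h.frob_res_mul hm 1
  rw [Matrix.mul_one] at this
  refine this.trans_eq ?_
  simp [frob, Matrix.one_apply]

lemma IsGood.diag_bounds (h : IsGood β z m g) (hm : 0 < m) (i : Fin n) :
    0 ≤ resM β z g i i ∧ m * resM β z g i i ≤ 1 := by
  have := h.quad_bounds hm (Pi.single i 1)
  simpa using And.intro this.1 this.2.1

lemma IsGood.resTr_bounds (h : IsGood β z m g) (hm : 0 < m) :
    0 ≤ resTr β z g ∧ m * resTr β z g ≤ 1 := by
  refine ⟨div_nonneg (Finset.sum_nonneg fun i _ => (h.diag_bounds hm i).1) (Nat.cast_nonneg n), ?_⟩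
  rw [resTr, Matrix.trace, mul_div, Finset.mul_sum]
  refine div_le_one_of_le₀ ?_ (Nat.cast_nonneg n)
  exact (Finset.sum_le_sum fun i _ => (h.diag_bounds hm i).2).trans (by simp)

lemma IsGood.resCorr_bounds (h : IsGood β z m g) (hm : 0 < m) :
    0 ≤ resCorr β z g ∧ m * resCorr β z g ≤ 1 := by
  rw [resCorr, trace_mul_corrM]
  constructor
  · exact div_nonneg ((gibbsMean_const β g 0).symm.trans_le
      (gibbsMean_mono β g fun x => (h.quad_bounds hm (spin x)).1)) (Nat.cast_nonneg n)
  · rw [mul_div]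
    refine div_le_one_of_le₀ ?_ (Nat.cast_nonneg n)
    calc m * gibbsMean β g (fun x => spin x ⬝ᵥ resM β z g *ᵥ spin x)
        = gibbsMean β g (fun x => m * (spin x ⬝ᵥ resM β z g *ᵥ spin x)) := by
          simp only [gibbsMean, Finset.mul_sum]; exact Finset.sum_congr rfl fun x _ => by ring
      _ ≤ gibbsMean β g (fun _ => (n : ℝ)) := gibbsMean_mono β g fun x =>
          (h.quad_bounds hm (spin x)).2.1.trans_eq (dot_spin_self x)
      _ = n := gibbsMean_const β g _

lemma coupM_update (β : ℝ) (g : Pairs n → ℝ) (p : Pairs n) (s : ℝ) :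
    coupM β (update g p s) = coupM β g + (scaleC β n * (s - g p)) • pairM p := by
  obtain ⟨⟨a, b⟩, hab : a < b⟩ := p
  ext i j
  simp only [coupM, pairM, of_apply, Matrix.add_apply, Matrix.smul_apply, Matrix.single_apply,
    smul_eq_mul]
  rcases lt_trichotomy i j with h | h | h
  · have e : ¬ (b = i ∧ a = j) := fun ⟨e1, e2⟩ => absurd hab (by subst e1 e2; exact h.not_gt)
    simp only [symDisorder, h, dif_pos, e, if_false, add_zero]
    by_cases he : a = i ∧ b = j
    · obtain ⟨rfl, rfl⟩ := he; simp; ring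
    · rw [update_of_ne (by simp only [ne_eq, Subtype.mk.injEq, Prod.mk.injEq]; tauto), if_neg he]
      ring
  · subst h
    have e1 : ¬ (a = i ∧ b = i) := fun ⟨e1, e2⟩ => hab.ne (e1.trans e2.symm)
    have e2 : ¬ (b = i ∧ a = i) := fun ⟨e1, e2⟩ => hab.ne (e2.trans e1.symm)
    simp [symDisorder, e1, e2]
  · have e : ¬ (a = i ∧ b = j) := fun ⟨e1, e2⟩ => absurd hab (by subst e1 e2; exact h.not_gt)
    simp only [symDisorder, h, h.not_gt, dif_pos, dif_neg, not_false_iff, e, if_false, zero_add]
    by_cases he : b = i ∧ a = j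
    · obtain ⟨rfl, rfl⟩ := he; simp; ring
    · rw [update_of_ne (by simp only [ne_eq, Subtype.mk.injEq, Prod.mk.injEq]; tauto), if_neg he]
      ring

lemma mul_pairM_mul (A B : Matrix (Fin n) (Fin n) ℝ) (p : Pairs n) (i j : Fin n) :
    (A * pairM p * B) i j = A i p.1.1 * B p.1.2 j + A i p.1.2 * B p.1.1 j := by
  simp only [pairM, Matrix.mul_add, Matrix.add_mul, Matrix.add_apply]
  congr 1 <;> simp [Matrix.mul_apply, Matrix.single_apply, ite_and, Finset.sum_mul]

lemma continuous_coupM (β : ℝ) : Continuous fun g : Pairs n → ℝ => coupM β g := by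
  refine continuous_matrix fun i j => ?_
  simp only [coupM, of_apply, symDisorder]
  split_ifs <;> fun_prop

lemma continuousAt_resM (h : IsGood β z m g) (hm : 0 < m) :
    ContinuousAt (resM β z) g := by
  have hc : Continuous fun g : Pairs n → ℝ => z • (1 : Matrix (Fin n) (Fin n) ℝ) - coupM β g :=
    continuous_const.sub (continuous_coupM β)
  refine ((continuousAt_matrix_inv _ ?_).comp hc.continuousAt)
  exact NormedRing.inverse_continuousAt
    ((Matrix.isUnit_iff_isUnit_det _).1 (h.isUnit hm)).unit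

lemma hasDerivAt_resM (h : IsGood β z m g) (hm : 0 < m) (p : Pairs n) (i j : Fin n) :
    HasDerivAt (fun s => resM β z (update g p s) i j)
      (scaleC β n * (resM β z g * pairM p * resM β z g) i j) (g p) := by
  set G := fun s => resM β z (update g p s) with hG
  have hc0 : Continuous fun s : ℝ => update g p s := continuous_const.update p continuous_id
  have hG0 : G (g p) = resM β z g := by simp [hG]
  have hcont : ContinuousAt G (g p) := by
    refine ContinuousAt.comp (g := resM β z) ?_ hc0.continuousAt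
    rw [update_eq_self]; exact continuousAt_resM h hm
  have hdet : ∀ᶠ s in 𝓝 (g p),
      IsUnit (z • (1 : Matrix (Fin n) (Fin n) ℝ) - coupM β (update g p s)).det := by
    have hc : Continuous fun s : ℝ =>
        (z • (1 : Matrix (Fin n) (Fin n) ℝ) - coupM β (update g p s)).det :=
      (continuous_const.sub ((continuous_coupM β).comp hc0)).matrix_det
    have h0 := ((Matrix.isUnit_iff_isUnit_det _).1 (h.isUnit hm)).ne_zero
    have := hc.continuousAt.eventually_ne (x := g p) (y := 0) (by rwa [update_eq_self])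
    filter_upwards [this] with s hs using isUnit_iff_ne_zero.2 hs
  have hdiff : ∀ᶠ s in 𝓝 (g p), G s - G (g p) =
      (scaleC β n * (s - g p)) • (G s * pairM p * G (g p)) := by
    filter_upwards [hdet] with s hs
    set A := z • (1 : Matrix (Fin n) (Fin n) ℝ) - coupM β (update g p s)
    set B := z • (1 : Matrix (Fin n) (Fin n) ℝ) - coupM β g
    have hB : IsUnit B.det := (Matrix.isUnit_iff_isUnit_det _).1 (h.isUnit hm)
    have e : B - A = (scaleC β n * (s - g p)) • pairM p := by
      simp only [A, B, coupM_update]; abel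
    rw [hG0]
    change A⁻¹ - B⁻¹ = _ • (A⁻¹ * pairM p * B⁻¹)
    rw [← Matrix.smul_mul, ← Matrix.mul_smul, ← e, Matrix.mul_sub, Matrix.sub_mul,
      Matrix.mul_assoc, Matrix.mul_nonsing_inv B hB, Matrix.mul_one,
      Matrix.nonsing_inv_mul A hs, Matrix.one_mul]
  rw [hasDerivAt_iff_tendsto_slope, ← hG0]
  have hlim : Tendsto (fun s => scaleC β n * (G s * pairM p * G (g p)) i j) (𝓝[≠] (g p))
      (𝓝 (scaleC β n * (G (g p) * pairM p * G (g p)) i j)) := by
    refine Tendsto.mono_left ?_ nhdsWithin_le_nhds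
    have hm' : Continuous fun M : Matrix (Fin n) (Fin n) ℝ =>
        scaleC β n * (M * pairM p * G (g p)) i j :=
      continuous_const.mul
        (((continuous_id.matrix_mul continuous_const).matrix_mul continuous_const).matrix_elem i j)
    exact hm'.continuousAt.tendsto.comp hcont
  refine hlim.congr' ?_
  filter_upwards [nhdsWithin_le_nhds hdiff, self_mem_nhdsWithin] with s hs hne
  have : s - g p ≠ 0 := sub_ne_zero.2 hne
  have hs' := congrFun (congrFun hs i) j
  simp only [Matrix.sub_apply, Matrix.smul_apply, smul_eq_mul, hG] at hs'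
  simp only [hG] at hs' ⊢
  rw [slope_def_field, hs', mul_right_comm (scaleC β n) (s - g p)]
  field_simp

lemma hasDerivAt_resTr (h : IsGood β z m g) (hm : 0 < m) (p : Pairs n) :
    HasDerivAt (fun s => resTr β z (update g p s))
      (scaleC β n / n * ((resM β z g * resM β z g) p.1.1 p.1.2 +
        (resM β z g * resM β z g) p.1.2 p.1.1)) (g p) := by
  refine ((HasDerivAt.fun_sum (u := (Finset.univ : Finset (Fin n)))
    fun i _ => hasDerivAt_resM h hm p i i).div_const (n : ℝ)).congr_deriv ?_
  rw [← Finset.mul_sum]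
  have e : ∑ i, (resM β z g * pairM p * resM β z g) i i =
      (resM β z g * resM β z g) p.1.1 p.1.2 + (resM β z g * resM β z g) p.1.2 p.1.1 := by
    simp only [mul_pairM_mul, Finset.sum_add_distrib]
    rw [Matrix.mul_apply, Matrix.mul_apply, add_comm]
    congr 1 <;> refine Finset.sum_congr rfl fun i _ => ?_ <;> rw [resM_comm β z g i, mul_comm]
  rw [e]; ring

lemma hasDerivAt_resM_mul_corrM (h : IsGood β z m g) (hm : 0 < m) (p : Pairs n) (i j : Fin n) :
    HasDerivAt (fun s => (resM β z (update g p s) * corrM β (update g p s)) i j)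
      (scaleC β n * ((resM β z g * pairM p * (resM β z g * corrM β g)) i j +
        covPair β g p fun x => (resM β z g *ᵥ spin x) i * spin x j)) (g p) := by
  simp only [Matrix.mul_apply (M := resM β z (update g p _))]
  refine (HasDerivAt.fun_sum (u := (Finset.univ : Finset (Fin n))) fun k _ =>
    (hasDerivAt_resM h hm p i k).fun_mul (hasDerivAt_corrM β g p k j)).congr_deriv ?_
  simp only [update_eq_self, Finset.sum_add_distrib, mul_add]
  congr 1
  · rw [← Matrix.mul_assoc, Matrix.mul_apply, Finset.mul_sum]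
    exact Finset.sum_congr rfl fun k _ => by ring
  · have hx : ∀ x : Fin n → Bool, (resM β z g *ᵥ spin x) i * spin x j =
        ∑ k, resM β z g i k * (spin x k * spin x j) := fun x => by
      simp only [dotProduct, Matrix.mulVec, Finset.sum_mul]
      exact Finset.sum_congr rfl fun k _ => by ring
    simp only [hx, covPair_sum, covPair_const_mul, Finset.mul_sum]
    exact Finset.sum_congr rfl fun k _ => by ring

lemma hasDerivAt_resCorr (h : IsGood β z m g) (hm : 0 < m) (p : Pairs n) :
    HasDerivAt (fun s => resCorr β z (update g p s))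
      (scaleC β n / n *
        ((resM β z g * corrM β g * resM β z g) p.1.1 p.1.2 +
          (resM β z g * corrM β g * resM β z g) p.1.2 p.1.1 +
          covPair β g p fun x => spin x ⬝ᵥ resM β z g *ᵥ spin x)) (g p) := by
  refine ((HasDerivAt.fun_sum (u := (Finset.univ : Finset (Fin n)))
    fun i _ => hasDerivAt_resM_mul_corrM h hm p i i).div_const (n : ℝ)).congr_deriv ?_
  rw [← Finset.mul_sum, Finset.sum_add_distrib]
  have e : ∑ i, (resM β z g * pairM p * (resM β z g * corrM β g)) i i =
      (resM β z g * corrM β g * resM β z g) p.1.1 p.1.2 +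
        (resM β z g * corrM β g * resM β z g) p.1.2 p.1.1 := by
    have e0 : ∀ a b, ∑ i, resM β z g i a * (resM β z g * corrM β g) b i =
        (resM β z g * corrM β g * resM β z g) b a := fun a b => by
      rw [Matrix.mul_apply (M := resM β z g * corrM β g)]
      exact Finset.sum_congr rfl fun i _ => by ring
    simp only [mul_pairM_mul, Finset.sum_add_distrib, e0]
    ring
  have e' : ∑ i, covPair β g p (fun x => (resM β z g *ᵥ spin x) i * spin x i) =
      covPair β g p fun x => spin x ⬝ᵥ resM β z g *ᵥ spin x := by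
    simp only [dotProduct, covPair_sum]
    exact Finset.sum_congr rfl fun i _ => by simp only [mul_comm]
  rw [e, e']; ring

lemma continuous_covPair (β : ℝ) (p : Pairs n) (a : (Fin n → Bool) → ℝ) :
    Continuous fun g : Pairs n → ℝ => covPair β g p a :=
  (continuous_gibbsMean β _).sub ((continuous_gibbsMean β _).mul (continuous_gibbsMean β _))

lemma continuousAt_resTr (h : IsGood β z m g) (hm : 0 < m) :
    ContinuousAt (resTr β z) g := by
  unfold resTr
  exact (((continuous_id.matrix_trace).continuousAt).comp (continuousAt_resM h hm)).div_const _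

lemma continuousAt_resM_mul_corrM (h : IsGood β z m g) (hm : 0 < m) :
    ContinuousAt (fun g => resM β z g * corrM β g) g := by
  have hp : ContinuousAt (fun g => (resM β z g, corrM β g)) g :=
    (continuousAt_resM h hm).prodMk (continuous_corrM β).continuousAt
  exact (continuous_fst.matrix_mul continuous_snd).continuousAt.comp hp

lemma continuousAt_resCorr (h : IsGood β z m g) (hm : 0 < m) :
    ContinuousAt (resCorr β z) g := by
  unfold resCorr
  exact (((continuous_id.matrix_trace).continuousAt).comp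
    (continuousAt_resM_mul_corrM h hm)).div_const _

end Vale.Agent.P150
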