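import Vale.Agent.P150.Pair
import Vale.Agent.P150.Gibbs

/-!
A general Ising model with fields: curvature bound, Poincare inequality, covariance bound.
-/

namespace Vale.Agent.P150

open Real Function Matrix
open scoped BigOperators

variable {n : ℕ}

/-- Weight of an Ising model. -/
noncomputable def isW (J : Matrix (Fin n) (Fin n) ℝ) (h : Fin n → ℝ) (x : Fin n → Bool) : ℝ :=
  Real.exp ((spin x ⬝ᵥ J *ᵥ spin x) / 2 + h ⬝ᵥ spin x)

/-- Total weight. -/
noncomputable def isZ (J : Matrix (Fin n) (Fin n) ℝ) (h : Fin n → ℝ) : ℝ := ∑ x, isW J h x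

/-- Ising expectation. -/
noncomputable def isMean (J : Matrix (Fin n) (Fin n) ℝ) (h : Fin n → ℝ)
    (f : (Fin n → Bool) → ℝ) : ℝ :=
  ∑ x, isW J h x / isZ J h * f x

/-- The conditional mean of spin `i`. -/
noncomputable def isT (J : Matrix (Fin n) (Fin n) ℝ) (h : Fin n → ℝ) (i : Fin n)
    (x : Fin n → Bool) : ℝ :=
  Real.tanh (h i + (J *ᵥ spin x) i)

/-- Half the discrete derivative in direction `i`. -/
noncomputable def isD (f : (Fin n → Bool) → ℝ) (i : Fin n) (x : Fin n → Bool) : ℝ :=
  (f (update x i true) - f (update x i false)) / 2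

/-- The projection `f - Q i f`. -/
noncomputable def isP (J : Matrix (Fin n) (Fin n) ℝ) (h : Fin n → ℝ) (i : Fin n)
    (f : (Fin n → Bool) → ℝ) (x : Fin n → Bool) : ℝ :=
  (spin x i - isT J h i x) * isD f i x

/-- Minus the generator. -/
noncomputable def isL (J : Matrix (Fin n) (Fin n) ℝ) (h : Fin n → ℝ)
    (f : (Fin n → Bool) → ℝ) (x : Fin n → Bool) : ℝ :=
  ∑ i, isP J h i f x

/-- The Dirichlet energy at one site. -/
noncomputable def isE (J : Matrix (Fin n) (Fin n) ℝ) (h : Fin n → ℝ) (i : Fin n)
    (f : (Fin n → Bool) → ℝ) : ℝ :=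
  isMean J h fun x => (1 - isT J h i x ^ 2) * isD f i x ^ 2

lemma isW_pos (J : Matrix (Fin n) (Fin n) ℝ) (h : Fin n → ℝ) (x : Fin n → Bool) : 0 < isW J h x :=
  Real.exp_pos _

lemma isZ_pos (J : Matrix (Fin n) (Fin n) ℝ) (h : Fin n → ℝ) : 0 < isZ J h :=
  Finset.sum_pos (fun x _ => isW_pos J h x) Finset.univ_nonempty

section linearity

variable (J : Matrix (Fin n) (Fin n) ℝ) (h : Fin n → ℝ)

lemma isMean_const (a : ℝ) : isMean J h (fun _ => a) = a := by
  rw [isMean, ← Finset.sum_mul, ← Finset.sum_div, ← isZ, div_self (isZ_pos J h).ne', one_mul]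

lemma isMean_add (f g : (Fin n → Bool) → ℝ) :
    isMean J h (fun x => f x + g x) = isMean J h f + isMean J h g := by
  simp only [isMean, mul_add, Finset.sum_add_distrib]

lemma isMean_smul (a : ℝ) (f : (Fin n → Bool) → ℝ) :
    isMean J h (fun x => a * f x) = a * isMean J h f := by
  simp only [isMean, Finset.mul_sum]; exact Finset.sum_congr rfl fun x _ => by ring

lemma isMean_sub (f g : (Fin n → Bool) → ℝ) :
    isMean J h (fun x => f x - g x) = isMean J h f - isMean J h g := by
  simp only [isMean, mul_sub, Finset.sum_sub_distrib]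

lemma isMean_sum {κ : Type*} (s : Finset κ) (f : κ → (Fin n → Bool) → ℝ) :
    isMean J h (fun x => ∑ k ∈ s, f k x) = ∑ k ∈ s, isMean J h (f k) := by
  simp only [isMean, Finset.mul_sum]; exact Finset.sum_comm

lemma isMean_mono {f g : (Fin n → Bool) → ℝ} (H : ∀ x, f x ≤ g x) :
    isMean J h f ≤ isMean J h g :=
  Finset.sum_le_sum fun x _ =>
    mul_le_mul_of_nonneg_left (H x) (div_nonneg (isW_pos J h x).le (isZ_pos J h).le)

lemma isMean_nonneg {f : (Fin n → Bool) → ℝ} (H : ∀ x, 0 ≤ f x) : 0 ≤ isMean J h f :=
  (isMean_const J h 0).symm.trans_le (isMean_mono J h H)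

lemma isT_sq_lt (i : Fin n) (x : Fin n → Bool) : isT J h i x ^ 2 < 1 := by
  rw [isT, Real.tanh_eq_sinh_div_cosh, div_pow, div_lt_one (by positivity), Real.cosh_sq]
  linarith

lemma abs_isT_le (i : Fin n) (x : Fin n → Bool) : |isT J h i x| ≤ 1 :=
  (sq_le_one_iff_abs_le_one _).1 (isT_sq_lt J h i x).le

lemma isE_nonneg (i : Fin n) (f : (Fin n → Bool) → ℝ) : 0 ≤ isE J h i f :=
  isMean_nonneg J h fun x => mul_nonneg (by linarith [isT_sq_lt J h i x]) (sq_nonneg _)

end linearity

lemma sum_flip (i : Fin n) (φ : (Fin n → Bool) → ℝ) :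
    2 * ∑ x, φ x = ∑ x, (φ (update x i true) + φ (update x i false)) := by
  let e : (Fin n → Bool) ≃ (Fin n → Bool) :=
    { toFun := fun x => update x i (!x i)
      invFun := fun x => update x i (!x i)
      left_inv := fun x => by simp
      right_inv := fun x => by simp }
  have h1 : ∀ x, φ (update x i true) + φ (update x i false) = φ x + φ (e x) := fun x => by
    have hx : update x i (x i) = x := update_eq_self i x
    cases hb : x i <;> simp only [hb] at hx <;> simp [e, hb, hx, add_comm]
  simp only [h1, Finset.sum_add_distrib, e.sum_comp φ]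
  ring

lemma hasDerivAt_tanh' (x : ℝ) : HasDerivAt Real.tanh (1 - Real.tanh x ^ 2) x := by
  have h : HasDerivAt (fun y => Real.sinh y / Real.cosh y) _ x :=
    (Real.hasDerivAt_sinh x).fun_div (Real.hasDerivAt_cosh x) (Real.cosh_pos x).ne'
  rw [show Real.tanh = fun y => Real.sinh y / Real.cosh y from funext Real.tanh_eq_sinh_div_cosh]
  refine h.congr_deriv ?_
  have := (Real.cosh_pos x).ne'
  simp only []
  field_simp

lemma tanh_nonneg' {x : ℝ} (hx : 0 ≤ x) : 0 ≤ Real.tanh x := by
  rw [Real.tanh_eq_sinh_div_cosh]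
  exact div_nonneg (Real.sinh_nonneg_iff.2 hx) (Real.cosh_pos x).le

lemma tanh_le_self' {x : ℝ} (hx : 0 ≤ x) : Real.tanh x ≤ x := by
  have h : Monotone fun y => y - Real.tanh y :=
    monotone_of_hasDerivAt_nonneg (fun y => (hasDerivAt_id y).fun_sub (hasDerivAt_tanh' y))
      fun y => by simp [sq_nonneg]
  have := h hx
  simp only [Real.tanh_zero, sub_zero] at this
  linarith

lemma abs_tanh_le_abs (x : ℝ) : |Real.tanh x| ≤ |x| := by
  rcases le_total 0 x with h0 | h0
  · rw [abs_of_nonneg h0, abs_of_nonneg (tanh_nonneg' h0)]; exact tanh_le_self' h0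
  · rw [abs_of_nonpos h0, ← abs_neg, ← Real.tanh_neg,
      abs_of_nonneg (tanh_nonneg' (by linarith))]
    exact tanh_le_self' (by linarith)

lemma abs_sub_tanh_le (x : ℝ) : |x - Real.tanh x| ≤ |x| ^ 3 := by
  have hpos : ∀ y : ℝ, 0 ≤ y → |y - Real.tanh y| ≤ y ^ 3 := by
    intro y hy
    rw [abs_of_nonneg (sub_nonneg.2 (tanh_le_self' hy))]
    have hd : ∀ u, HasDerivAt (fun u => u ^ 3 - (u - Real.tanh u))
        (3 * u ^ 2 - (1 - (1 - Real.tanh u ^ 2))) u := fun u => by
      simpa using (hasDerivAt_pow 3 u).fun_sub ((hasDerivAt_id u).fun_sub (hasDerivAt_tanh' u))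
    have hm : MonotoneOn (fun u => u ^ 3 - (u - Real.tanh u)) (Set.Ici 0) := by
      refine monotoneOn_of_hasDerivWithinAt_nonneg (convex_Ici 0)
        (fun u _ => (hd u).continuousAt.continuousWithinAt) (fun u _ => (hd u).hasDerivWithinAt)
        fun u _ => ?_
      have := abs_tanh_le_abs u
      nlinarith [sq_abs u, sq_abs (Real.tanh u), abs_nonneg (Real.tanh u), abs_nonneg u]
    have := hm Set.self_mem_Ici hy hy
    simp only [Real.tanh_zero] at this
    linarith
  rcases le_total 0 x with h0 | h0
  · rw [abs_of_nonneg h0]; exact hpos x h0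
  · have := hpos (-x) (by linarith)
    rw [Real.tanh_neg, ← abs_neg] at this
    rw [abs_of_nonpos h0]
    convert this using 2
    ring

lemma exp_mul_sgn (A : ℝ) (b : Bool) :
    Real.exp (A * sgn b) = Real.cosh A * (1 + Real.tanh A * sgn b) := by
  have hc := (Real.cosh_pos A).ne'
  rw [Real.tanh_eq_sinh_div_cosh]
  cases b <;> simp [sgn] <;> field_simp <;> rw [Real.cosh_eq, Real.sinh_eq] <;> ring

lemma tanh_add_mul_sgn (A J : ℝ) (b : Bool) :
    Real.tanh (A + J * sgn b) = pairT (Real.tanh A) (Real.tanh J) (sgn b) := by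
  have hA := (Real.cosh_pos A).ne'
  have hJ := (Real.cosh_pos J).ne'
  simp only [pairT, Real.tanh_eq_sinh_div_cosh]
  cases b <;> simp [sgn, Real.sinh_add, Real.cosh_add, Real.sinh_sub, Real.cosh_sub, ← sub_eq_add_neg]
  · have e : 1 + -(Real.sinh J / Real.cosh J * (Real.sinh A / Real.cosh A)) =
        (Real.cosh A * Real.cosh J - Real.sinh A * Real.sinh J) / (Real.cosh A * Real.cosh J) := by
      field_simp; ring
    rw [← sub_eq_add_neg] at e
    rw [e]; field_simp
  · have e : 1 + Real.sinh J / Real.cosh J * (Real.sinh A / Real.cosh A) =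
        (Real.cosh A * Real.cosh J + Real.sinh A * Real.sinh J) / (Real.cosh A * Real.cosh J) := by
      field_simp
    rw [e]; field_simp

lemma sgn_sq (b : Bool) : sgn b ^ 2 = 1 := by cases b <;> simp [sgn]

lemma spin_update_eq (x : Fin n → Bool) (i : Fin n) (b : Bool) :
    spin (update x i b) = spin x + Pi.single i (sgn b - spin x i) := by
  funext j
  by_cases hj : j = i
  · subst hj; simp [spin, sgn]
  · simp [spin, hj]

variable {J : Matrix (Fin n) (Fin n) ℝ} {h : Fin n → ℝ}

lemma isT_update_self (hd : ∀ i, J i i = 0) (i : Fin n) (x : Fin n → Bool) (b : Bool) :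
    isT J h i (update x i b) = isT J h i x := by
  unfold isT
  rw [spin_update_eq, mulVec_add]
  simp [mulVec_single, hd]

lemma isD_update_self (f : (Fin n → Bool) → ℝ) (i : Fin n) (x : Fin n → Bool) (b : Bool) :
    isD f i (update x i b) = isD f i x := by
  simp [isD]

lemma energy_update (hJ : Jᵀ = J) (hd : ∀ i, J i i = 0) (x : Fin n → Bool) (i : Fin n) (b : Bool) :
    (spin (update x i b) ⬝ᵥ J *ᵥ spin (update x i b)) / 2 + h ⬝ᵥ spin (update x i b) =
      (spin x ⬝ᵥ J *ᵥ spin x) / 2 + h ⬝ᵥ spin x +
        (h i + (J *ᵥ spin x) i) * (sgn b - spin x i) := by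
  rw [spin_update_eq]
  set d := sgn b - spin x i
  have hsym : spin x ⬝ᵥ J *ᵥ Pi.single i d = Pi.single i d ⬝ᵥ J *ᵥ spin x := by
    rw [Matrix.dotProduct_mulVec, ← Matrix.mulVec_transpose, hJ, dotProduct_comm]
  have hdiag : Pi.single i d ⬝ᵥ J *ᵥ Pi.single i d = 0 := by
    simp [single_dotProduct, Matrix.mulVec_single, hd]
  simp only [mulVec_add, dotProduct_add, add_dotProduct, hsym, hdiag, single_dotProduct,
    dotProduct_single]
  ring

lemma isW_update (hJ : Jᵀ = J) (hd : ∀ i, J i i = 0) (x : Fin n → Bool) (i : Fin n) (b : Bool) :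
    isW J h (update x i b) =
      (isW J h (update x i true) + isW J h (update x i false)) *
        ((1 + isT J h i x * sgn b) / 2) := by
  set A := h i + (J *ᵥ spin x) i
  set C := isW J h x * Real.exp (-(A * spin x i)) * Real.cosh A
  have key : ∀ c, isW J h (update x i c) = C * (1 + isT J h i x * sgn c) := fun c => by
    rw [isW, energy_update hJ hd, mul_sub, sub_eq_add_neg]
    simp only [Real.exp_add]
    rw [exp_mul_sgn]
    simp only [C, A, isT, isW, Real.exp_add]; ring
  rw [key b, key true, key false]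
  simp only [sgn, if_true, Bool.false_eq_true, if_false]
  ring

/-- Conditioning on all sites but `i`. -/
lemma isMean_cond (hJ : Jᵀ = J) (hd : ∀ i, J i i = 0) (i : Fin n) (F : (Fin n → Bool) → ℝ) :
    isMean J h F = isMean J h fun x =>
      ((1 + isT J h i x) * F (update x i true) + (1 - isT J h i x) * F (update x i false)) / 2 := by
  have h2 : ∀ φ : (Fin n → Bool) → ℝ, ∑ x, isW J h x * φ x =
      (∑ x, (isW J h (update x i true) * φ (update x i true) +
        isW J h (update x i false) * φ (update x i false))) / 2 := fun φ => by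
    rw [← sum_flip i fun x => isW J h x * φ x]; ring
  simp only [isMean, div_mul_eq_mul_div, ← Finset.sum_div]
  congr 1
  rw [h2, h2]
  congr 1
  refine Finset.sum_congr rfl fun x _ => ?_
  simp only [isT_update_self hd, update_idem]
  have et := isW_update (h := h) hJ hd x i true
  have ef := isW_update (h := h) hJ hd x i false
  simp only [sgn, if_true, Bool.false_eq_true, if_false] at et ef
  linear_combination (F (update x i true)) * et + (F (update x i false)) * ef

lemma isD_isP (hd : ∀ i, J i i = 0) (f : (Fin n → Bool) → ℝ) (i : Fin n) (x : Fin n → Bool) :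
    isD (isP J h i f) i x = isD f i x := by
  simp only [isD, isP, isT_update_self hd, update_idem, spin, update_self]
  norm_num; ring

lemma isMean_mul_isP (hJ : Jᵀ = J) (hd : ∀ i, J i i = 0) (i : Fin n)
    (f g : (Fin n → Bool) → ℝ) :
    isMean J h (fun x => g x * isP J h i f x) =
      isMean J h fun x => (1 - isT J h i x ^ 2) * (isD g i x * isD f i x) := by
  rw [isMean_cond hJ hd i]
  congr 1; funext x
  simp only [isP, isT_update_self hd, isD_update_self, spin, update_self]
  norm_num [isD]; ring

lemma isMean_mul_isL (hJ : Jᵀ = J) (hd : ∀ i, J i i = 0) (f g : (Fin n → Bool) → ℝ) :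
    isMean J h (fun x => g x * isL J h f x) =
      ∑ i, isMean J h fun x => (1 - isT J h i x ^ 2) * (isD g i x * isD f i x) := by
  simp only [isL, Finset.mul_sum, isMean_sum, isMean_mul_isP hJ hd]

/-- Conditioning on all sites but `i, j`. -/
lemma isMean_cond_two (hJ : Jᵀ = J) (hd : ∀ i, J i i = 0) {i j : Fin n} (hij : i ≠ j)
    (F : (Fin n → Bool) → ℝ) :
    isMean J h F = isMean J h fun x =>
      let t := Real.tanh (h i + (J *ᵥ spin x) i - J i j * spin x j)
      let s := Real.tanh (h j + (J *ᵥ spin x) j - J i j * spin x i)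
      ∑ a : Bool, ∑ b : Bool,
        pairW t s (Real.tanh (J i j)) (sgn a) (sgn b) * F (update (update x i a) j b) := by
  simp only
  set T : (Fin n → Bool) → ℝ := fun x => Real.tanh (h i + (J *ᵥ spin x) i - J i j * spin x j)
  set S : (Fin n → Bool) → ℝ := fun x => Real.tanh (h j + (J *ᵥ spin x) j - J i j * spin x i)
  set τ := Real.tanh (J i j)
  have hji : J j i = J i j := congrFun (congrFun hJ i) j
  have hAi : ∀ x c, h i + (J *ᵥ spin (update x j c)) i - J i j * spin (update x j c) j =
      h i + (J *ᵥ spin x) i - J i j * spin x j := fun x c => by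
    rw [spin_update_eq, mulVec_add]; simp [mulVec_single]; ring
  have hAj : ∀ x c, h j + (J *ᵥ spin (update x i c)) j - J i j * spin (update x i c) i =
      h j + (J *ᵥ spin x) j - J i j * spin x i := fun x c => by
    rw [spin_update_eq, mulVec_add]; simp [mulVec_single, hji]; ring
  have hBi : ∀ x c, h i + (J *ᵥ spin (update x i c)) i - J i j * spin (update x i c) j =
      h i + (J *ᵥ spin x) i - J i j * spin x j := fun x c => by
    rw [spin_update_eq, mulVec_add]; simp [mulVec_single, hd, hij.symm]
  have hBj : ∀ x c, h j + (J *ᵥ spin (update x j c)) j - J i j * spin (update x j c) i =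
      h j + (J *ᵥ spin x) j - J i j * spin x i := fun x c => by
    rw [spin_update_eq, mulVec_add]; simp [mulVec_single, hd, hij]
  have hTi : ∀ x a b, T (update (update x i a) j b) = T x := fun x a b => by
    simp only [T]; rw [hAi, hBi]
  have hSi : ∀ x a b, S (update (update x i a) j b) = S x := fun x a b => by
    simp only [S]; rw [hBj, hAj]
  have h4 : ∀ φ : (Fin n → Bool) → ℝ,
      ∑ x, φ x = (∑ x, ∑ a : Bool, ∑ b : Bool, φ (update (update x i a) j b)) / 4 := fun φ => by
    have e1 := sum_flip j φ
    have e2 := sum_flip i fun x => φ (update x j true) + φ (update x j false)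
    simp only [Fintype.sum_bool]
    linarith
  have hW : ∀ x (a b : Bool), isW J h (update (update x i a) j b) =
      pairW (T x) (S x) τ (sgn a) (sgn b) *
        ∑ a' : Bool, ∑ b' : Bool, isW J h (update (update x i a') j b') := by
    intro x a b
    set A := h i + (J *ᵥ spin x) i - J i j * spin x j with hA
    set B := h j + (J *ᵥ spin x) j - J i j * spin x i with hB
    set C := isW J h x * Real.exp (-(A * spin x i + B * spin x j + J i j * (spin x i * spin x j))) *
      (Real.cosh A * Real.cosh B * Real.cosh (J i j))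
    have key : ∀ a b : Bool, isW J h (update (update x i a) j b) =
        C * ((1 + T x * sgn a) * (1 + S x * sgn b) * (1 + τ * (sgn a * sgn b))) := by
      intro a b
      have hab : ∀ u : Bool, sgn a * sgn b = sgn u →
          Real.exp (J i j * (sgn a * sgn b)) = Real.cosh (J i j) * (1 + τ * (sgn a * sgn b)) :=
        fun u hu => by rw [hu]; exact exp_mul_sgn _ _
      have hu : sgn a * sgn b = sgn (a == b) := by cases a <;> cases b <;> simp [sgn]
      have hj' : spin (update x i a) j = spin x j := by simp [spin, hij.symm]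
      have hf : h j + (J *ᵥ spin (update x i a)) j = B + J i j * sgn a := by
        have e := hAj x a
        have hi' : spin (update x i a) i = sgn a := by simp [spin, sgn]
        rw [hi'] at e; linarith
      have e : (spin (update (update x i a) j b) ⬝ᵥ J *ᵥ spin (update (update x i a) j b)) / 2 +
          h ⬝ᵥ spin (update (update x i a) j b) =
          ((spin x ⬝ᵥ J *ᵥ spin x) / 2 + h ⬝ᵥ spin x) +
            (-(A * spin x i + B * spin x j + J i j * (spin x i * spin x j)) +
              (A * sgn a + (B * sgn b + J i j * (sgn a * sgn b)))) := by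
        rw [energy_update hJ hd, energy_update hJ hd, hj', hf, hA]
        ring
      rw [isW, e]
      simp only [Real.exp_add]
      rw [exp_mul_sgn, exp_mul_sgn, hab _ hu]
      simp only [C, isW, T, S, Real.exp_add]
      rw [← hA, ← hB]
      ring
    simp only [key]
    have hne : (4 * (1 + τ * (T x * S x))) ≠ 0 := by
      have : |τ * (T x * S x)| < 1 := by
        rw [abs_mul, abs_mul]
        have l : ∀ y, |Real.tanh y| < 1 := fun y => abs_lt.2 ⟨Real.neg_one_lt_tanh y, Real.tanh_lt_one y⟩
        exact mul_lt_one_of_nonneg_of_lt_one_left (abs_nonneg _) (l _)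
          (mul_le_one₀ (l _).le (abs_nonneg _) (l _).le)
      linarith [(abs_lt.1 this).1]
    simp only [Fintype.sum_bool, pairW]
    rw [div_mul_eq_mul_div, eq_div_iff hne]
    simp only [sgn, if_true, Bool.false_eq_true, if_false]
    ring
  simp only [isMean, div_mul_eq_mul_div, ← Finset.sum_div]
  congr 1
  conv_rhs => rw [h4]
  rw [h4 fun x => isW J h x * F x]
  congr 1
  refine Finset.sum_congr rfl fun x _ => ?_
  have hinner : ∀ a b a' b', update (update (update (update x i a) j b) i a') j b' =
      update (update x i a') j b' := fun a b a' b' => by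
    funext k
    by_cases hk : k = j
    · subst hk; simp
    · by_cases hk' : k = i
      · subst hk'; simp [hk]
      · simp [hk, hk']
  have hT' : ∀ a b, Real.tanh (h i + (J *ᵥ spin (update (update x i a) j b)) i -
      J i j * spin (update (update x i a) j b) j) = T x := hTi x
  have hS' : ∀ a b, Real.tanh (h j + (J *ᵥ spin (update (update x i a) j b)) j -
      J i j * spin (update (update x i a) j b) i) = S x := hSi x
  simp only [hinner, hT', hS', ← Finset.sum_mul]
  rw [Finset.mul_sum]
  refine Finset.sum_congr rfl fun a _ => ?_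
  rw [Finset.mul_sum]
  exact Finset.sum_congr rfl fun b _ => by rw [hW x a b]; ring

/-- The pairwise curvature inequality. -/
lemma isMean_pair_ineq' (hJ : Jᵀ = J) (hd : ∀ i, J i i = 0) {K τ0 : ℝ}
    (hpair : ∀ t s τ u v w : ℝ, |t| ≤ 1 → |s| ≤ 1 → |τ| ≤ τ0 →
    0 ≤ sum4 (fun a b => pairW t s τ a b *
          ((a - pairT t τ b) * (b - pairT s τ a) * ((u + w * b) * (v + w * a)))) +
        τ * sum4 (fun a b => pairW t s τ a b *
          ((1 - pairT t τ b ^ 2) * (1 - pairT s τ a ^ 2) * ((u + w * b) * (v + w * a)))) +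
        τ ^ 2 * (sum4 (fun a b => pairW t s τ a b *
            (pairT t τ b ^ 2 * ((1 - pairT t τ b ^ 2) * (u + w * b) ^ 2))) +
          sum4 (fun a b => pairW t s τ a b *
            (pairT s τ a ^ 2 * ((1 - pairT s τ a ^ 2) * (v + w * a) ^ 2)))) +
        K * |τ| ^ 3 * (sum4 (fun a b => pairW t s τ a b *
            ((1 - pairT t τ b ^ 2) * (u + w * b) ^ 2)) +
          sum4 (fun a b => pairW t s τ a b * ((1 - pairT s τ a ^ 2) * (v + w * a) ^ 2))))
    (i j : Fin n) (f : (Fin n → Bool) → ℝ) (hij : i ≠ j) (hJij : |J i j| ≤ τ0) :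
      0 ≤ isMean J h (fun x => isP J h i f x * isP J h j f x) +
        Real.tanh (J i j) * isMean J h (fun x => (1 - isT J h i x ^ 2) * isD f i x *
          ((1 - isT J h j x ^ 2) * isD f j x)) +
        Real.tanh (J i j) ^ 2 * (isMean J h (fun x => isT J h i x ^ 2 *
            ((1 - isT J h i x ^ 2) * isD f i x ^ 2)) +
          isMean J h (fun x => isT J h j x ^ 2 * ((1 - isT J h j x ^ 2) * isD f j x ^ 2))) +
        K * |Real.tanh (J i j)| ^ 3 * (isE J h i f + isE J h j f) := by
  set τ := Real.tanh (J i j) with hτ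
  have hτb : |τ| ≤ τ0 := (abs_tanh_le_abs _).trans hJij
  simp only [isE, ← isMean_smul, ← isMean_add]
  rw [isMean_cond_two hJ hd hij]
  refine isMean_nonneg J h fun x => ?_
  simp only
  set t := Real.tanh (h i + (J *ᵥ spin x) i - J i j * spin x j) with ht
  set s := Real.tanh (h j + (J *ᵥ spin x) j - J i j * spin x i) with hs
  have hji : J j i = J i j := congrFun (congrFun hJ i) j
  have hsi : ∀ a b, spin (update (update x i a) j b) i = sgn a := fun a b => by
    simp [spin, sgn, hij]
  have hsj : ∀ a b, spin (update (update x i a) j b) j = sgn b := fun a b => by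
    simp [spin, sgn]
  have hTi : ∀ a b, isT J h i (update (update x i a) j b) = pairT t τ (sgn b) := fun a b => by
    rw [ht, hτ, ← tanh_add_mul_sgn, isT]
    congr 1
    rw [spin_update_eq, spin_update_eq, mulVec_add, mulVec_add]
    simp [mulVec_single, hd, hij.symm]; ring
  have hTj : ∀ a b, isT J h j (update (update x i a) j b) = pairT s τ (sgn a) := fun a b => by
    rw [isT_update_self hd, hs, hτ, ← tanh_add_mul_sgn, isT]
    congr 1
    rw [spin_update_eq, mulVec_add]
    simp [mulVec_single, hji]; ring
  set f4 := fun a b => f (update (update x i a) j b) with hf4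
  set u := (f4 true true - f4 false true + (f4 true false - f4 false false)) / 4
  set v := (f4 true true - f4 true false + (f4 false true - f4 false false)) / 4
  set w := (f4 true true - f4 false true - (f4 true false - f4 false false)) / 4
  have hDi : ∀ a b, isD f i (update (update x i a) j b) = u + w * sgn b := fun a b => by
    have e : ∀ c, update (update (update x i a) j b) i c = update (update x i c) j b := fun c => by
      rw [update_comm hij.symm, update_idem, update_comm hij]
    simp only [isD, e, u, w, hf4]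
    cases b <;> simp [sgn] <;> ring
  have hDj : ∀ a b, isD f j (update (update x i a) j b) = v + w * sgn a := fun a b => by
    simp only [isD, update_idem, v, w, hf4]
    cases a <;> simp [sgn] <;> ring
  have hp := hpair t s τ u v w
    (abs_le.2 ⟨(Real.neg_one_lt_tanh _).le, (Real.tanh_lt_one _).le⟩)
    (abs_le.2 ⟨(Real.neg_one_lt_tanh _).le, (Real.tanh_lt_one _).le⟩) hτb
  simp only [isP, hTi, hTj, hDi, hDj, hsi, hsj, Fintype.sum_bool]
  refine hp.trans_eq ?_
  simp only [sum4, sgn, if_true, Bool.false_eq_true, if_false]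
  ring

end Vale.Agent.P150
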