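import Vale.Agent.P150.Cut

/-!
The key probability estimate: with high probability the overlap or the resolvent correlation is
large.
-/

namespace Vale.Agent.P150

open MeasureTheory ProbabilityTheory Real Function Matrix Filter Topology

variable {n : ℕ} {β : ℝ}

/-- A smooth cut-off: `1` on `(-∞, 0]`, `0` on `[1, ∞)`. -/
noncomputable def cutFn (u : ℝ) : ℝ := Real.smoothTransition (1 - u)

lemma cutFn_nonneg (u : ℝ) : 0 ≤ cutFn u := Real.smoothTransition.nonneg _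

lemma cutFn_le_one (u : ℝ) : cutFn u ≤ 1 := Real.smoothTransition.le_one _

lemma cutFn_eq_zero {u : ℝ} (h : 1 ≤ u) : cutFn u = 0 :=
  Real.smoothTransition.zero_of_nonpos (by linarith)

lemma cutFn_eq_one {u : ℝ} (h : u ≤ 0) : cutFn u = 1 :=
  Real.smoothTransition.one_of_one_le (by linarith)

lemma contDiff_cutFn : ContDiff ℝ 1 cutFn :=
  Real.smoothTransition.contDiff.comp (contDiff_const.sub contDiff_id)

lemma cutFn_deriv_bound : ∃ C : ℝ, 0 ≤ C ∧ ∀ u, |deriv cutFn u| ≤ C := by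
  have hc : Continuous (deriv cutFn) := contDiff_cutFn.continuous_deriv le_rfl
  obtain ⟨C, hC⟩ := (isCompact_Icc (a := (-1:ℝ)) (b := 2)).exists_bound_of_continuousOn
    hc.continuousOn
  refine ⟨max C 0, le_max_right _ _, fun u => ?_⟩
  by_cases hu : u ∈ Set.Icc (-1:ℝ) 2
  · exact le_trans (by simpa using hC u hu) (le_max_left _ _)
  · have h0 : deriv cutFn u = 0 := by
      simp only [Set.mem_Icc, not_and_or, not_le] at hu
      rcases hu with h | h
      · have : cutFn =ᶠ[𝓝 u] fun _ => 1 := by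
          filter_upwards [eventually_lt_nhds h] with v hv using cutFn_eq_one (by linarith)
        rw [this.deriv_eq, deriv_const]
      · have : cutFn =ᶠ[𝓝 u] fun _ => 0 := by
          filter_upwards [eventually_gt_nhds h] with v hv using cutFn_eq_zero (by linarith)
        rw [this.deriv_eq, deriv_const]
    rw [h0, abs_zero]; exact le_max_right _ _

lemma hasDerivAt_cutFn_comp {f : ℝ → ℝ} {f' x : ℝ} (h : HasDerivAt f f' x) :
    HasDerivAt (fun s => cutFn (f s)) (deriv cutFn (f x) * f') x :=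
  ((contDiff_cutFn.differentiable one_ne_zero (f x)).hasDerivAt).comp x h

lemma deriv_cutFn_eq_zero {u : ℝ} (h : 1 < u) : deriv cutFn u = 0 := by
  have : cutFn =ᶠ[𝓝 u] fun _ => 0 := by
    filter_upwards [eventually_gt_nhds h] with v hv using cutFn_eq_zero hv.le
  rw [this.deriv_eq, deriv_const]

/-- The gradient of the soft maximum over a net. -/
noncomputable def netGrad (β s : ℝ) (V : Finset (Fin n → ℝ)) (g : Pairs n → ℝ) (p : Pairs n) : ℝ :=
  ∑ v : V, softWeight (netTemp n V) (netForm β s V) g v * netForm β s V v p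

lemma continuous_netMax (β s : ℝ) (V : Finset (Fin n → ℝ)) [Nonempty V] :
    Continuous (netMax β s V) := by
  unfold netMax softMax
  exact Continuous.div_const (Continuous.log (by unfold expSum; fun_prop)
    fun g => (expSum_pos _ _ _).ne') _

lemma continuous_netGrad (β s : ℝ) (V : Finset (Fin n → ℝ)) [Nonempty V] (p : Pairs n) :
    Continuous fun g => netGrad β s V g p := by
  unfold netGrad softWeight
  exact continuous_finsetSum _ fun v _ => (Continuous.div (by fun_prop)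
    (by unfold expSum; fun_prop) fun g => (expSum_pos _ _ _).ne').mul continuous_const

lemma sum_netGrad_sq_le (hβ : 0 ≤ β) {s : ℝ} (hs : s ^ 2 = 1) (V : Finset (Fin n → ℝ))
    [Nonempty V] (hV : ∀ v ∈ V, v ⬝ᵥ v = 1) (g : Pairs n → ℝ) :
    ∑ p, netGrad β s V g p ^ 2 ≤ (2 * scaleC β n) ^ 2 := by
  refine (sum_sq_avg_le (netForm β s V) (netForm β s V) g (netForm_sq_le β hs V hV)).trans ?_
  nlinarith [sq_nonneg (scaleC β n)]

lemma abs_netGrad_le (hβ : 0 ≤ β) {s : ℝ} (hs : s ^ 2 = 1) (V : Finset (Fin n → ℝ))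
    [Nonempty V] (hV : ∀ v ∈ V, v ⬝ᵥ v = 1) (g : Pairs n → ℝ) (p : Pairs n) :
    |netGrad β s V g p| ≤ 2 * scaleC β n :=
  abs_le_of_sq_le_sq ((Finset.single_le_sum (f := fun p => netGrad β s V g p ^ 2)
    (fun _ _ => sq_nonneg _) (Finset.mem_univ p)).trans (sum_netGrad_sq_le hβ hs V hV g))
    (mul_nonneg zero_le_two (div_nonneg hβ (Real.sqrt_nonneg _)))

lemma integrable_exp_netMax {s a b : ℝ} (ha : 0 ≤ a) (hn : 0 < n) (V : Finset (Fin n → ℝ))
    [Nonempty V] : Integrable (fun g => Real.exp (a * netMax β s V g - b)) (disorderLaw n) := by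
  set M : Pairs n → ℝ := fun p => ∑ v : V, |netForm β s V v p| with hM
  refine integrable_of_exp_bound (((continuous_netMax β s V).const_mul a).sub continuous_const).rexp
    (Real.exp (a * (Real.log (Fintype.card V) / netTemp n V) - b)) (fun p => a * M p) fun g => ?_
  rw [abs_of_pos (Real.exp_pos _), ← Real.exp_add, Real.exp_le_exp]
  have := mul_le_mul_of_nonneg_left
    (softMax_le (netTemp_pos hn V) (netForm β s V) g (M := ∑ p, M p * |g p|) fun v =>
      Finset.sum_le_sum fun p _ => (le_abs_self _).trans (by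
        rw [abs_mul]; exact mul_le_mul_of_nonneg_right
          (Finset.single_le_sum (f := fun v : V => |netForm β s V v p|) (fun _ _ => abs_nonneg _)
            (Finset.mem_univ v)) (abs_nonneg _))) ha
  simp only [mul_assoc, ← Finset.mul_sum]
  rw [← netMax, mul_add] at this
  linarith

/-- A set on which a nonnegative function is at least one has probability at most its integral. -/
lemma measure_le_of_one_le {S : Set (Pairs n → ℝ)} {F : (Pairs n → ℝ) → ℝ}
    (hi : Integrable F (disorderLaw n)) (h0 : ∀ g, 0 ≤ F g) (h1 : ∀ g ∈ S, 1 ≤ F g) :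
    disorderLaw n S ≤ ENNReal.ofReal (∫ g, F g ∂disorderLaw n) := by
  have h := mul_meas_ge_le_integral_of_nonneg (ae_of_all _ h0) hi 1
  rw [one_mul] at h
  calc disorderLaw n S ≤ disorderLaw n {g | 1 ≤ F g} := measure_mono h1
    _ = ENNReal.ofReal ((disorderLaw n).real {g | 1 ≤ F g}) := (ofReal_measureReal (measure_ne_top _ _)).symm
    _ ≤ _ := ENNReal.ofReal_le_ofReal h

/-- The event of interest. -/
def LargeEvent (β δ e L τ : ℝ) : Set (Pairs n → ℝ) :=
  {g | IsGood β (2 * β + δ) (δ / 2) g ∧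
    |(2 * β + δ) * resTr β (2 * β + δ) g - 1 - β ^ 2 * resTr β (2 * β + δ) g ^ 2| ≤ τ ∧
    (e ^ 2 < overlapSq β g ∨ L < resCorr β (2 * β + δ) g)}

lemma hab_of_le {a b c : ℝ} (ha : |a| ≤ 1) (hb : |b| ≤ c) : |a * b| ≤ c := by
  rw [abs_mul]; exact (mul_le_of_le_one_left (abs_nonneg _) ha).trans hb

lemma abs_cutFn_le (x : ℝ) : |cutFn x| ≤ 1 :=
  abs_le.2 ⟨by linarith [cutFn_nonneg x], cutFn_le_one x⟩

lemma good_of_netMax (hβ0 : 0 ≤ β) {δ ε : ℝ} (hn : 0 < n) (hδ : 0 < δ) (hδ1 : δ ≤ 1)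
    (hε : ε = δ / (16 * (2 * β + 1))) (V : Finset (Fin n → ℝ)) [Nonempty V] (hV1 : ∀ v ∈ V, v ⬝ᵥ v = 1)
    (hVnet : ∀ x : Fin n → ℝ, x ⬝ᵥ x = 1 → ∃ v ∈ V, (x - v) ⬝ᵥ (x - v) ≤ ε ^ 2)
    (g : Pairs n → ℝ)
    (hg : netMax β 1 V g ≤ 2 * β + δ / 4 ∧ netMax β (-1) V g ≤ 2 * β + δ / 4) :
    IsGood β (2 * β + δ) (δ / 2) g := by
  have hε0 : 0 < ε := by rw [hε]; positivity
  intro v
  obtain ⟨M, hM, hMq⟩ := quad_le_of_net (coupM_transpose β g) hn hε0 hVnet hV1
    (b := 2 * β + δ / 4) fun w hw => by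
    have h1 := (le_softMax (netTemp_pos hn V) (netForm β 1 V) g ⟨w, hw⟩).trans hg.1
    have h2 := (le_softMax (netTemp_pos hn V) (netForm β (-1) V) g ⟨w, hw⟩).trans hg.2
    rw [sum_netForm_mul] at h1 h2
    exact abs_le.2 ⟨by linarith, by linarith⟩
  have hv0 : 0 ≤ v ⬝ᵥ v := dotProduct_self_star_nonneg v
  have he2 : 2 * ε * (2 * β + δ / 2) ≤ δ / 4 := by
    rw [hε]; field_simp; nlinarith
  have hε1 : 0 < 1 - 2 * ε := by
    have : ε ≤ 1 / 16 := by rw [hε, div_le_iff₀ (by positivity)]; linarith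
    linarith
  have hMb : M ≤ 2 * β + δ / 2 := le_of_mul_le_mul_right (hM.trans (by linarith)) hε1
  have := (abs_le.1 (hMq v)).2
  simp only [Matrix.sub_mulVec, Matrix.smul_mulVec, Matrix.one_mulVec, dotProduct_sub,
    dotProduct_smul, smul_eq_mul]
  nlinarith [mul_le_mul_of_nonneg_right hMb hv0]

/-- The cut-off by the soft norm. -/
lemma exists_softCut (hβ0 : 0 ≤ β) {Cd : ℝ} (hCd : 0 ≤ Cd) (hCd' : ∀ u, |deriv cutFn u| ≤ Cd)
    {δ : ℝ} (hn : 0 < n) (hδ : 0 < δ) (V : Finset (Fin n → ℝ)) [Nonempty V]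
    (hV1 : ∀ v ∈ V, v ⬝ᵥ v = 1) :
    ∃ c0 : Cut (n := n) ({g | netMax β 1 V g ≤ 2 * β + δ / 4} ∩
        {g | netMax β (-1) V g ≤ 2 * β + δ / 4}),
      (∀ g, ∑ p, c0.der p g ^ 2 ≤ (32 * Cd * scaleC β n / δ) ^ 2) ∧
      (∀ g, 0 ≤ c0.val g ∧ c0.val g ≤ 1) ∧
      (∀ g, netMax β 1 V g ≤ 2 * β + δ / 8 → netMax β (-1) V g ≤ 2 * β + δ / 8 → c0.val g = 1) := by
  set K0 : Set (Pairs n → ℝ) :=
    {g | netMax β 1 V g ≤ 2 * β + δ / 4} ∩ {g | netMax β (-1) V g ≤ 2 * β + δ / 4} with hK0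
  set cc := scaleC β n with hcc
  have hcc0 : 0 ≤ cc := div_nonneg hβ0 (Real.sqrt_nonneg _)
  set u : ℝ → (Pairs n → ℝ) → ℝ := fun s g => (netMax β s V g - (2 * β + δ / 8)) * (8 / δ) with hu
  have hu1 : ∀ s g, 2 * β + δ / 4 < netMax β s V g → 1 < u s g := fun s g h => by
    rw [hu]; simp only; field_simp; linarith
  have hucont : ∀ s, Continuous (u s) := fun s =>
    ((continuous_netMax β s V).sub continuous_const).mul continuous_const
  have hud : ∀ s (p : Pairs n) g, HasDerivAt (fun t => cutFn (u s (update g p t)))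
      (deriv cutFn (u s g) * (netGrad β s V g p * (8 / δ))) (g p) := fun s p g => by
    have := hasDerivAt_cutFn_comp (((hasDerivAt_softMax (netTemp_pos hn V).ne' (netForm β s V) g p).sub_const
      (2 * β + δ / 8)).mul_const (8 / δ))
    simpa only [update_eq_self, netMax, netGrad, hu] using this
  have hs1 : (1:ℝ) ^ 2 = 1 := one_pow 2
  have hs2 : (-1:ℝ) ^ 2 = 1 := by norm_num
  have hab : ∀ a b : ℝ, |a| ≤ 1 → ∀ c, |b| ≤ c → |a * b| ≤ c := fun a b ha c hb => hab_of_le ha hb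
  have hc1 : ∀ x, |cutFn x| ≤ 1 := fun x =>
    abs_le.2 ⟨by linarith [cutFn_nonneg x], cutFn_le_one x⟩
  let c0 : Cut K0 :=
    { val := fun g => cutFn (u 1 g) * cutFn (u (-1) g)
      der := fun p g => deriv cutFn (u 1 g) * (netGrad β 1 V g p * (8 / δ)) * cutFn (u (-1) g) +
        cutFn (u 1 g) * (deriv cutFn (u (-1) g) * (netGrad β (-1) V g p * (8 / δ)))
      cont := (contDiff_cutFn.continuous.comp (hucont 1)).mul
        (contDiff_cutFn.continuous.comp (hucont (-1)))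
      cont_der := fun p => ((((contDiff_cutFn.continuous_deriv le_rfl).comp (hucont 1)).mul
        ((continuous_netGrad β 1 V p).mul continuous_const)).mul
          (contDiff_cutFn.continuous.comp (hucont (-1)))).add
        ((contDiff_cutFn.continuous.comp (hucont 1)).mul
          (((contDiff_cutFn.continuous_deriv le_rfl).comp (hucont (-1))).mul
            ((continuous_netGrad β (-1) V p).mul continuous_const)))
      hasDeriv := fun p g => by
        simpa only [update_eq_self] using (hud 1 p g).fun_mul (hud (-1) p g)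
      zero := fun g hg => by
        rcases not_and_or.1 hg with h | h
        · rw [cutFn_eq_zero (hu1 _ _ (not_le.1 h)).le, zero_mul]
        · rw [cutFn_eq_zero (hu1 _ _ (not_le.1 h)).le, mul_zero]
      zero_der := fun p g hg => by
        rcases not_and_or.1 hg with h | h <;>
          simp [deriv_cutFn_eq_zero (hu1 _ _ (not_le.1 h)), cutFn_eq_zero (hu1 _ _ (not_le.1 h)).le]
      bdd := ⟨1, fun g => hab _ _ (hc1 _) _ (hc1 _)⟩
      bdd_der := fun p => ⟨Cd * (2 * cc * (8 / δ)) + Cd * (2 * cc * (8 / δ)), fun g => by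
        have hb : ∀ s : ℝ, s ^ 2 = 1 →
            |deriv cutFn (u s g) * (netGrad β s V g p * (8 / δ))| ≤ Cd * (2 * cc * (8 / δ)) :=
          fun s hs => by
            rw [abs_mul, abs_mul, abs_of_pos (by positivity : 0 < 8 / δ)]
            gcongr
            · exact hCd' _
            · exact abs_netGrad_le hβ0 hs V hV1 g p
        refine (abs_add_le _ _).trans (add_le_add ?_ (hab _ _ (hc1 _) _ (hb _ hs2)))
        rw [mul_comm]; exact hab _ _ (hc1 _) _ (hb _ hs1)⟩ }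
  have hA0 : ∀ g, ∑ p, c0.der p g ^ 2 ≤ (32 * Cd * cc / δ) ^ 2 := by
    intro g
    have hb : ∀ s t : ℝ, s ^ 2 = 1 → |cutFn t| ≤ 1 →
        ∑ p, (deriv cutFn (u s g) * (8 / δ) * cutFn t * netGrad β s V g p) ^ 2 ≤
          (Cd * (8 / δ) * (2 * cc)) ^ 2 := fun s t hs ht => by
      refine sum_sq_mul_le _ ?_ (sum_netGrad_sq_le hβ0 hs V hV1 g)
      rw [abs_mul, abs_mul, abs_of_pos (by positivity : 0 < 8 / δ)]
      calc _ ≤ Cd * (8 / δ) * 1 := by gcongr; exact hCd' _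
        _ = _ := mul_one _
    have h := sum_sq_add_le _ _ (by positivity) (by positivity)
      (hb 1 (u (-1) g) hs1 (hc1 _)) (hb (-1) (u 1 g) hs2 (hc1 _))
    refine le_trans (le_of_eq (Finset.sum_congr rfl fun p _ => ?_)) (h.trans (le_of_eq ?_))
    · simp only [c0]; ring
    · field_simp; ring
  have hv0 : ∀ g, 0 ≤ c0.val g ∧ c0.val g ≤ 1 := fun g =>
    ⟨mul_nonneg (cutFn_nonneg _) (cutFn_nonneg _),
      mul_le_one₀ (cutFn_le_one _) (cutFn_nonneg _) (cutFn_le_one _)⟩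
  refine ⟨c0, hA0, hv0, fun g hp hp' => ?_⟩
  have : ∀ s, netMax β s V g ≤ 2 * β + δ / 8 → u s g ≤ 0 := fun s h =>
    mul_nonpos_of_nonpos_of_nonneg (by linarith) (by positivity)
  simp [c0, cutFn_eq_one (this 1 hp), cutFn_eq_one (this (-1) hp')]

/-- The self-consistent equation of the resolvent trace holds in mean square. -/
lemma resolvent_sq_bound (hβ : 1 ≤ β) {Cd : ℝ} (hCd : 0 ≤ Cd) (hCd' : ∀ u, |deriv cutFn u| ≤ Cd)
    {δ : ℝ} (hn : 0 < n) (hδ : 0 < δ) (hδ1 : δ ≤ 1) {K0 : Set (Pairs n → ℝ)}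
    (hK0c : IsClosed K0) (hgood : ∀ g ∈ K0, IsGood β (2 * β + δ) (δ / 2) g) (c0 : Cut K0)
    (hA0 : ∀ g, ∑ p, c0.der p g ^ 2 ≤ (32 * Cd * scaleC β n / δ) ^ 2)
    (hv0 : ∀ g, 0 ≤ c0.val g ∧ c0.val g ≤ 1) :
    ∫ g, c0.val g * (((2 * β + δ) * resTr β (2 * β + δ) g - 1 -
        β ^ 2 * resTr β (2 * β + δ) g ^ 2) * ((2 * β + δ) * resTr β (2 * β + δ) g - 1 -
        β ^ 2 * resTr β (2 * β + δ) g ^ 2)) ∂disorderLaw n ≤
      (8 * β ^ 2 + 4 * β + 3) * β ^ 2 * (4 * (32 * Cd + 8) + 12) / (n * δ ^ 4) := by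
  have hβ0 : 0 ≤ β := by linarith
  set q : ℝ := 8 * β ^ 2 + 4 * β + 3 with hq
  have hq0 : 0 ≤ q := by positivity
  set C1 : ℝ := q * β ^ 2 * (4 * (32 * Cd + 8) + 12) with hC1
  set z := 2 * β + δ with hz
  set m := δ / 2 with hm'
  have hm : 0 < m := by positivity
  have hn0 : (0:ℝ) < n := by exact_mod_cast hn
  have hn1 : (1:ℝ) ≤ n := by exact_mod_cast hn
  set cc := scaleC β n with hcc
  have hcc0 : 0 ≤ cc := div_nonneg hβ0 (Real.sqrt_nonneg _)
  have hc2 : cc ^ 2 * n = β ^ 2 := by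
    rw [hcc, scaleC, div_pow, Real.sq_sqrt hn0.le, div_mul_cancel₀ _ hn0.ne']
  have hcβ : cc ≤ β := div_le_self hβ0 (Real.one_le_sqrt.2 hn1)
  have hab : ∀ a b : ℝ, |a| ≤ 1 → ∀ c, |b| ≤ c → |a * b| ≤ c := fun a b ha c hb => hab_of_le ha hb
  set Q : (Pairs n → ℝ) → ℝ := fun g => z * resTr β z g - 1 - β ^ 2 * resTr β z g ^ 2 with hQ
  set Q' : Pairs n → (Pairs n → ℝ) → ℝ := fun p g => (z - 2 * β ^ 2 * resTr β z g) *
    (cc / n * ((resM β z g * resM β z g) p.1.1 p.1.2 + (resM β z g * resM β z g) p.1.2 p.1.1))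
    with hQ'
  have aT : Adm K0 (resTr β z) := by
    unfold resTr Matrix.trace; simp only [Matrix.diag, div_eq_inv_mul]
    exact (Adm.sum _ fun i => Adm.res hgood hm i i).const_mul _
  have aQ : Adm K0 Q := by
    simp only [hQ, pow_two (resTr β z _)]
    exact ((aT.const_mul z).sub (Adm.const 1)).sub ((aT.mul aT).const_mul _)
  have aQ' : ∀ p, Adm K0 (Q' p) := fun p => by
    simp only [hQ', Matrix.mul_apply]
    exact ((Adm.const z).sub (aT.const_mul _)).mul
      (((Adm.sum _ fun k => (Adm.res hgood hm _ k).mul (Adm.res hgood hm k _)).add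
        (Adm.sum _ fun k => (Adm.res hgood hm _ k).mul (Adm.res hgood hm k _))).const_mul _)
  have dQ : ∀ p, ∀ g ∈ K0, HasDerivAt (fun s => Q (update g p s)) (Q' p g) (g p) := fun p g hg => by
    have h := hasDerivAt_resTr (hgood g hg) hm p
    refine (((h.const_mul z).sub_const 1).sub ((h.fun_pow 2).const_mul (β ^ 2))).congr_deriv ?_
    simp only [hQ', update_eq_self, hcc]; ring
  have hTb : ∀ g ∈ K0, 0 ≤ resTr β z g ∧ resTr β z g ≤ 2 / δ := fun g hg => by
    obtain ⟨h0, h1⟩ := (hgood g hg).resTr_bounds hm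
    refine ⟨h0, ?_⟩
    rw [hm'] at h1
    rw [le_div_iff₀ hδ]; linarith
  have hQb : ∀ g ∈ K0, |Q g| ≤ q / δ ^ 2 := fun g hg => by
    obtain ⟨h0, h1⟩ := hTb g hg
    have hz0 : z * resTr β z g ≤ (2 * β + 1) * (2 / δ) :=
      mul_le_mul (by rw [hz]; linarith) h1 h0 (by positivity)
    have hsq : β ^ 2 * resTr β z g ^ 2 ≤ β ^ 2 * (2 / δ) ^ 2 := by gcongr
    have e1 : (2 * β + 1) * (2 / δ) ≤ (4 * β + 2) / δ ^ 2 := by
      rw [mul_div, div_le_div_iff₀ hδ (by positivity)]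
      nlinarith [mul_le_mul_of_nonneg_left (mul_le_of_le_one_right hδ.le hδ1)
        (by positivity : 0 ≤ 4 * β + 2)]
    have e2 : β ^ 2 * (2 / δ) ^ 2 = 4 * β ^ 2 / δ ^ 2 := by ring
    have e3 : (1:ℝ) ≤ 1 / δ ^ 2 := by rw [le_div_iff₀ (by positivity)]; nlinarith
    have e4 : q / δ ^ 2 = (4 * β + 2) / δ ^ 2 + 1 / δ ^ 2 + 4 * β ^ 2 / δ ^ 2 +
        4 * β ^ 2 / δ ^ 2 := by rw [hq]; ring
    have p0 : 0 ≤ z * resTr β z g := mul_nonneg (by linarith) h0
    have p1 : 0 ≤ β ^ 2 * resTr β z g ^ 2 := by positivity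
    have p2 : 0 ≤ (4 * β + 2) / δ ^ 2 := by positivity
    simp only [hQ]; rw [abs_le]; constructor <;> linarith
  set cA := c0.mulFun hK0c Q Q' aQ aQ' dQ with hcA
  have hAA : ∀ g ∈ K0, ∑ p, cA.der p g ^ 2 ≤ (q * β * (32 * Cd + 8) / δ ^ 3) ^ 2 := by
    intro g hg
    have hgr : ∑ p : Pairs n, ((resM β z g * resM β z g) p.1.1 p.1.2 +
        (resM β z g * resM β z g) p.1.2 p.1.1) ^ 2 ≤ (2 * Real.sqrt n / m ^ 2) ^ 2 := by
      refine (sum_pairs_sq_le _).trans ?_
      have h1 := (hgood g hg).frob_res_mul hm (resM β z g)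
      have h2 := (hgood g hg).frob_res hm
      rw [div_pow, mul_pow, Real.sq_sqrt hn0.le, le_div_iff₀ (by positivity)]
      nlinarith [mul_le_mul_of_nonneg_left h1 (sq_nonneg m)]
    obtain ⟨h0, h1⟩ := hTb g hg
    have hz' : |c0.val g * (z - 2 * β ^ 2 * resTr β z g) * (cc / n)| ≤ q / δ * (cc / n) := by
      rw [abs_mul, abs_of_nonneg (by positivity : 0 ≤ cc / n)]
      refine mul_le_mul_of_nonneg_right (hab _ _ (abs_le.2 ⟨by linarith [(hv0 g).1], (hv0 g).2⟩) _ ?_)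
        (by positivity)
      have hb : 2 * β ^ 2 * resTr β z g ≤ 4 * β ^ 2 / δ :=
        (mul_le_mul_of_nonneg_left h1 (by positivity)).trans_eq (by ring)
      have hqz : z + 4 * β ^ 2 / δ ≤ q / δ := by
        rw [← sub_nonneg]
        have : q / δ - (z + 4 * β ^ 2 / δ) = (q - z * δ - 4 * β ^ 2) / δ := by field_simp; ring
        rw [this, hq]; refine div_nonneg ?_ hδ.le; nlinarith
      have p1 : 0 ≤ 2 * β ^ 2 * resTr β z g := by positivity
      have p2 : 0 ≤ 4 * β ^ 2 / δ := by positivity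
      rw [abs_le]; constructor <;> linarith
    have h := sum_sq_add_le _ _ (by positivity) (by positivity)
      (sum_sq_mul_le (fun p => c0.der p g) (hQb g hg) (hA0 g))
      (sum_sq_mul_le _ hz' hgr)
    refine le_trans (le_of_eq (Finset.sum_congr rfl fun p _ => ?_))
      (h.trans (pow_le_pow_left₀ (by positivity) ?_ 2))
    · simp only [hcA, Cut.mulFun, hQ']; ring
    · have hcs : cc * Real.sqrt n = β := div_mul_cancel₀ _ (Real.sqrt_pos.2 hn0).ne'
      have e1 : q / δ * (cc / n) * (2 * Real.sqrt n / m ^ 2) = q * 8 * β / δ ^ 3 / n := by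
        rw [← hcs, hm']; field_simp; ring
      have e2 : q * 8 * β / δ ^ 3 / n ≤ q * 8 * β / δ ^ 3 := div_le_self (by positivity) hn1
      have e3 : q / δ ^ 2 * (32 * Cd * cc / δ) ≤ q * β * (32 * Cd) / δ ^ 3 := by
        rw [show q / δ ^ 2 * (32 * Cd * cc / δ) = q * cc * (32 * Cd) / δ ^ 3 by ring]
        gcongr
      rw [e1]
      have e4 : q * β * (32 * Cd + 8) / δ ^ 3 =
          q * β * (32 * Cd) / δ ^ 3 + q * 8 * β / δ ^ 3 := by ring
      linarith
  have hPA : ∀ g ∈ K0, |cA.val g| ≤ q / δ ^ 2 := fun g hg =>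
    hab _ _ (abs_le.2 ⟨by linarith [(hv0 g).1], (hv0 g).2⟩) _ (hQb g hg)
  have hI : ∫ g, c0.val g * (Q g * Q g) ∂disorderLaw n ≤ C1 / (n * δ ^ 4) := by
    have h := resolvent_equation cA hK0c hn hβ0 hgood hm
      (A := q * β * (32 * Cd + 8) / δ ^ 3) (P := q / δ ^ 2) (by positivity) (by positivity) hAA hPA
    have e : ∀ g, cA.val g * Q g = c0.val g * (Q g * Q g) := fun g => by
      simp only [hcA, Cut.mulFun]; ring
    refine ((le_abs_self _).trans_eq (by simp only [← e]; rfl)).trans (h.trans (le_of_eq ?_))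
    rw [hC1, hm']; field_simp; ring
  exact hI

/-- The correlation equation with all error terms bounded. -/
lemma correlation_bound (hβ : 1 ≤ β) {Cd : ℝ} (hCd : 0 ≤ Cd) (hCd' : ∀ u, |deriv cutFn u| ≤ Cd)
    {δ : ℝ} (hn : 0 < n) (hδ : 0 < δ) (hδ1 : δ ≤ 1) {K0 : Set (Pairs n → ℝ)}
    (hK0c : IsClosed K0) (hgood : ∀ g ∈ K0, IsGood β (2 * β + δ) (δ / 2) g) (c0 : Cut K0)
    (hA0 : ∀ g, ∑ p, c0.der p g ^ 2 ≤ (32 * Cd * scaleC β n / δ) ^ 2)
    (hv0 : ∀ g, 0 ≤ c0.val g ∧ c0.val g ≤ 1)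
    {e L : ℝ} (he : 0 < e) (he1 : e ≤ 1) (hL : 1 ≤ L) :
    ∃ c2 : Cut (K0 ∩ {g | overlapSq β g ≤ 2 * e ^ 2}),
      (∀ g, c2.val g = c0.val g * cutFn (overlapSq β g / e ^ 2 - 1) *
        cutFn (resCorr β (2 * β + δ) g / L - 1)) ∧
      |∫ g, c2.val g * (resCorr β (2 * β + δ) g *
        (2 * β + δ - β ^ 2 - β ^ 2 * resTr β (2 * β + δ) g) - 1) ∂disorderLaw n| ≤
        400 * Cd * β ^ 2 * (e / δ ^ 3) + β ^ 2 * (12 / (n * δ ^ 2) + 4 * e / δ) := by
  have hβ0 : 0 ≤ β := by linarith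
  set z := 2 * β + δ with hz
  set m := δ / 2 with hm'
  have hm : 0 < m := by positivity
  have hn0 : (0:ℝ) < n := by exact_mod_cast hn
  have hn1 : (1:ℝ) ≤ n := by exact_mod_cast hn
  set cc := scaleC β n with hcc
  have hcc0 : 0 ≤ cc := div_nonneg hβ0 (Real.sqrt_nonneg _)
  have hc2 : cc ^ 2 * n = β ^ 2 := by
    rw [hcc, scaleC, div_pow, Real.sq_sqrt hn0.le, div_mul_cancel₀ _ hn0.ne']
  have hcβ : cc ≤ β := div_le_self hβ0 (Real.one_le_sqrt.2 hn1)
  have hab : ∀ a b : ℝ, |a| ≤ 1 → ∀ c, |b| ≤ c → |a * b| ≤ c := fun a b ha c hb => hab_of_le ha hb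
  have hc1 := abs_cutFn_le
  set R := resCorr β z with hR
  have aS : Adm K0 (overlapSq β) := by
    unfold overlapSq frob; simp only [div_eq_inv_mul, pow_two (corrM β _ _ _)]
    exact (Adm.sum _ fun i => Adm.sum _ fun j =>
      (Adm.gibbs β _).mul (Adm.gibbs β _)).const_mul _
  have hscont : Continuous (overlapSq (n := n) β) := by
    unfold overlapSq frob
    exact (continuous_finsetSum _ fun i _ => continuous_finsetSum _ fun j _ =>
      ((continuous_corrM β).matrix_elem i j).pow 2).div_const _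
  set K1 : Set (Pairs n → ℝ) := K0 ∩ {g | overlapSq β g ≤ 2 * e ^ 2} with hK1
  have hK1c : IsClosed K1 := hK0c.inter (isClosed_le hscont continuous_const)
  set σ : (Pairs n → ℝ) → ℝ := fun g => overlapSq β g / e ^ 2 - 1 with hσ
  set σ' : Pairs n → (Pairs n → ℝ) → ℝ := fun p g => 2 * cc / (n:ℝ) ^ 2 / e ^ 2 *
    covPair β g p fun x => spin x ⬝ᵥ corrM β g *ᵥ spin x with hσ'
  have hcomp : ∀ {K : Set (Pairs n → ℝ)} (w : (Pairs n → ℝ) → ℝ)
      (w' : Pairs n → (Pairs n → ℝ) → ℝ), Adm K w → (∀ p, Adm K (w' p)) →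
      Adm K (fun g => cutFn (w g)) ∧ ∀ p, Adm K fun g => deriv cutFn (w g) * w' p g := by
    intro K w w' hw hw'
    have h1 : Adm K fun g => cutFn (w g) :=
      ⟨fun g hg => (contDiff_cutFn.continuous.continuousAt).comp (hw.1 g hg), 1,
        fun g _ => hc1 _⟩
    have h2 : Adm K fun g => deriv cutFn (w g) :=
      ⟨fun g hg => ((contDiff_cutFn.continuous_deriv le_rfl).continuousAt).comp (hw.1 g hg), Cd,
        fun g _ => hCd' _⟩
    exact ⟨h1, fun p => h2.mul (hw' p)⟩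
  have aσ : Adm K0 σ := by
    simp only [hσ, div_eq_inv_mul]; exact (aS.const_mul _).sub (Adm.const 1)
  have aσ' : ∀ p, Adm K0 (σ' p) := fun p => by
    have hx : ∀ (g : Pairs n → ℝ) (x : Fin n → Bool), spin x ⬝ᵥ corrM β g *ᵥ spin x =
        ∑ i, ∑ j, corrM β g i j * (spin x i * spin x j) := fun g x => by
      simp only [dotProduct, Matrix.mulVec, Finset.mul_sum]
      exact Finset.sum_congr rfl fun i _ => Finset.sum_congr rfl fun j _ => by ring
    simp only [hσ', hx, covPair_sum, covPair_const_mul]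
    exact (Adm.sum _ fun i => Adm.sum _ fun j =>
      (Adm.gibbs β _).mul (Adm.cov β p _)).const_mul _
  set c1 := c0.mulFun hK0c (fun g => cutFn (σ g)) (fun p g => deriv cutFn (σ g) * σ' p g)
    (hcomp σ σ' aσ aσ').1 (hcomp σ σ' aσ aσ').2
    (fun p g _ => by
      have h := hasDerivAt_cutFn_comp (((hasDerivAt_overlapSq β g p).div_const (e ^ 2)).sub_const 1)
      simp only [update_eq_self] at h
      exact h.congr_deriv (by simp only [hσ, hσ', hcc]; ring)) with hc1def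
  have hσ1 : ∀ g, g ∉ {g | overlapSq β g ≤ 2 * e ^ 2} → 1 < σ g := fun g hg => by
    simp only [Set.mem_ofPred_eq, not_le] at hg
    simp only [hσ]; rw [lt_sub_iff_add_lt, lt_div_iff₀ (by positivity)]; linarith
  have hz1 : ∀ g, g ∉ K1 → c1.val g = 0 := fun g hg => by
    rcases not_and_or.1 hg with h | h
    · exact c1.zero g h
    · simp [hc1def, Cut.mulFun, cutFn_eq_zero (hσ1 g h).le]
  have hz1' : ∀ p g, g ∉ K1 → c1.der p g = 0 := fun p g hg => by
    rcases not_and_or.1 hg with h | h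
    · exact c1.zero_der p g h
    · simp [hc1def, Cut.mulFun, cutFn_eq_zero (hσ1 g h).le, deriv_cutFn_eq_zero (hσ1 g h)]
  set ρ : (Pairs n → ℝ) → ℝ := fun g => R g / L - 1 with hρ
  set ρ' : Pairs n → (Pairs n → ℝ) → ℝ := fun p g => cc / n / L *
    ((resM β z g * corrM β g * resM β z g) p.1.1 p.1.2 +
      (resM β z g * corrM β g * resM β z g) p.1.2 p.1.1 +
      covPair β g p fun x => spin x ⬝ᵥ resM β z g *ᵥ spin x) with hρ'
  have hgood1 : ∀ g ∈ K1, IsGood β z m g := fun g hg => hgood g hg.1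
  have aρ : Adm K1 ρ := by
    simp only [hρ, hR]; unfold resCorr Matrix.trace
    simp only [Matrix.diag, Matrix.mul_apply, div_eq_inv_mul]
    exact (((Adm.sum _ fun i => Adm.sum _ fun j =>
      (Adm.res hgood1 hm i j).mul (Adm.gibbs β _)).const_mul _).const_mul _).sub (Adm.const 1)
  have aρ' : ∀ p, Adm K1 (ρ' p) := fun p => by
    have hx : ∀ (g : Pairs n → ℝ) (x : Fin n → Bool), spin x ⬝ᵥ resM β z g *ᵥ spin x =
        ∑ i, ∑ j, resM β z g i j * (spin x i * spin x j) := fun g x => by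
      simp only [dotProduct, Matrix.mulVec, Finset.mul_sum]
      exact Finset.sum_congr rfl fun i _ => Finset.sum_congr rfl fun j _ => by ring
    simp only [hρ', hx, covPair_sum, covPair_const_mul, Matrix.mul_apply]
    exact (((Adm.sum _ fun k => (Adm.sum _ fun l =>
        (Adm.res hgood1 hm _ l).mul (Adm.gibbs β _)).mul (Adm.res hgood1 hm k _)).add
      (Adm.sum _ fun k => (Adm.sum _ fun l =>
        (Adm.res hgood1 hm _ l).mul (Adm.gibbs β _)).mul (Adm.res hgood1 hm k _))).add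
      (Adm.sum _ fun i => Adm.sum _ fun j =>
        (Adm.res hgood1 hm i j).mul (Adm.cov β p _))).const_mul _
  set c2 := (c1.restrict K1 hz1 hz1').mulFun hK1c (fun g => cutFn (ρ g))
    (fun p g => deriv cutFn (ρ g) * ρ' p g) (hcomp ρ ρ' aρ aρ').1 (hcomp ρ ρ' aρ aρ').2
    (fun p g hg => by
      have h := hasDerivAt_cutFn_comp
        (((hasDerivAt_resCorr (hgood1 g hg) hm p).div_const L).sub_const 1)
      simp only [update_eq_self] at h
      exact h.congr_deriv (by simp only [hρ, hρ', hR, hcc]; ring)) with hc2def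
  have hval : ∀ g, c2.val g = c0.val g * cutFn (σ g) * cutFn (ρ g) := fun g => rfl
  have hv2 : ∀ g, 0 ≤ c2.val g ∧ c2.val g ≤ c0.val g := fun g => by
    rw [hval]
    refine ⟨mul_nonneg (mul_nonneg (hv0 g).1 (cutFn_nonneg _)) (cutFn_nonneg _), ?_⟩
    refine le_trans (mul_le_of_le_one_right (mul_nonneg (hv0 g).1 (cutFn_nonneg _))
      (cutFn_le_one _)) (mul_le_of_le_one_right (hv0 g).1 (cutFn_le_one _))
  have hA2 : ∀ g ∈ K1,
      ∑ p, c2.der p g ^ 2 ≤ (32 * Cd * cc / δ + 12 * Cd * cc * n + 12 * Cd * cc * n / δ ^ 2) ^ 2 := by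
    intro g hg
    have hs : overlapSq β g ≤ 2 * e ^ 2 := hg.2
    have hs0 := overlapSq_nonneg β g
    have h1 : ∑ p, (deriv cutFn (σ g) * (c0.val g * cutFn (ρ g)) * σ' p g) ^ 2 ≤
        (Cd * (12 * cc * n)) ^ 2 := by
      refine sum_sq_mul_le _ ?_ ?_
      · rw [mul_comm]
        exact hab _ _ (hab _ _ (abs_le.2 ⟨by linarith [(hv0 g).1], (hv0 g).2⟩) _ (hc1 _)) _ (hCd' _)
      · simp only [hσ', mul_pow, ← Finset.mul_sum]
        refine (mul_le_mul_of_nonneg_left (sum_covPair_sq_le β g fun x => quad_corrM_nonneg β g _)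
          (by positivity)).trans ?_
        have ea : gibbsMean β g (fun x => spin x ⬝ᵥ corrM β g *ᵥ spin x) =
            (n:ℝ) ^ 2 * overlapSq β g := by
          rw [← trace_mul_corrM, trace_corrM_mul_self, frob_corrM hn]
        rw [ea]
        have : overlapSq β g ^ 2 ≤ (2 * e ^ 2) ^ 2 := pow_le_pow_left₀ hs0 hs 2
        calc _ ≤ (2 * cc / (n:ℝ) ^ 2 / e ^ 2) ^ 2 *
              (2 * (n:ℝ) ^ 2 * (((n:ℝ) ^ 2) ^ 2 * (2 * e ^ 2) ^ 2)) := by
              rw [mul_pow]; gcongr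
          _ = 32 * cc ^ 2 * (n:ℝ) ^ 2 := by field_simp; ring
          _ ≤ _ := by nlinarith [mul_nonneg (sq_nonneg cc) (sq_nonneg (n:ℝ))]
    have h2 : ∑ p, (deriv cutFn (ρ g) * (c0.val g * cutFn (σ g)) * ρ' p g) ^ 2 ≤
        (Cd * (cc / n * (12 * (n:ℝ) ^ 2 / δ ^ 2))) ^ 2 := by
      refine sum_sq_mul_le _ ?_ ?_
      · rw [mul_comm]
        exact hab _ _ (hab _ _ (abs_le.2 ⟨by linarith [(hv0 g).1], (hv0 g).2⟩) _ (hc1 _)) _ (hCd' _)
      · have hgd := hgood1 g hg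
        have b1 : ∑ p : Pairs n, ((resM β z g * corrM β g * resM β z g) p.1.1 p.1.2 +
            (resM β z g * corrM β g * resM β z g) p.1.2 p.1.1) ^ 2 ≤ (2 * n / m ^ 2) ^ 2 := by
          refine (sum_pairs_sq_le _).trans ?_
          have := hgd.frob_res_conj hm (corrM β g)
          rw [frob_corrM hn] at this
          have h1' := overlapSq_le_one β g
          rw [div_pow, le_div_iff₀ (by positivity)]
          nlinarith
        have b2 : ∑ p, (covPair β g p fun x => spin x ⬝ᵥ resM β z g *ᵥ spin x) ^ 2 ≤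
            (2 * (n:ℝ) ^ 2 / m) ^ 2 := by
          refine (sum_covPair_sq_le β g fun x => (hgd.quad_bounds hm _).1).trans ?_
          have hR1 := hgd.resCorr_bounds hm
          rw [resCorr, trace_mul_corrM] at hR1
          set a := gibbsMean β g fun x => spin x ⬝ᵥ resM β z g *ᵥ spin x
          have ha0 : 0 ≤ a := by
            have := mul_nonneg hR1.1 hn0.le
            rwa [div_mul_cancel₀ _ hn0.ne'] at this
          have ha : a ≤ n / m := by
            rw [le_div_iff₀ hm]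
            have := hR1.2
            rw [mul_div, div_le_one hn0] at this
            linarith
          calc 2 * (n:ℝ) ^ 2 * a ^ 2 ≤ 4 * (n:ℝ) ^ 2 * (n / m) ^ 2 := by gcongr; norm_num
            _ = _ := by ring
        have b := sum_sq_add_le _ _ (by positivity) (by positivity) b1 b2
        simp only [hρ']
        refine (sum_sq_mul_le _ (le_of_eq (abs_of_nonneg (by positivity))) b).trans
          (pow_le_pow_left₀ (by positivity) ?_ 2)
        have e1 : 2 * (n:ℝ) / m ^ 2 ≤ 8 * (n:ℝ) ^ 2 / δ ^ 2 := by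
          rw [hm', show 2 * (n:ℝ) / (δ / 2) ^ 2 = 8 * n / δ ^ 2 by ring]; gcongr; nlinarith
        have e2 : 2 * (n:ℝ) ^ 2 / m ≤ 4 * (n:ℝ) ^ 2 / δ ^ 2 := by
          rw [hm', show 2 * (n:ℝ) ^ 2 / (δ / 2) = 4 * (n:ℝ) ^ 2 / δ by ring]; gcongr; nlinarith
        calc cc / n / L * _ ≤ cc / n * (8 * (n:ℝ) ^ 2 / δ ^ 2 + 4 * (n:ℝ) ^ 2 / δ ^ 2) :=
              mul_le_mul (div_le_self (by positivity) hL) (add_le_add e1 e2) (by positivity)
                (by positivity)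
          _ = _ := by ring
    have h0 : ∑ p, (cutFn (σ g) * cutFn (ρ g) * c0.der p g) ^ 2 ≤ (32 * Cd * cc / δ) ^ 2 := by
      simpa using sum_sq_mul_le _ (hab _ _ (hc1 _) _ (hc1 _)) (hA0 g)
    have h := sum_sq_add_le _ _ (by positivity) (by positivity)
      (sum_sq_add_le _ _ (by positivity) (by positivity) h0 h1) h2
    refine le_trans (le_of_eq (Finset.sum_congr rfl fun p _ => ?_)) (h.trans (le_of_eq ?_))
    · simp only [hc2def, hc1def, Cut.mulFun, Cut.restrict]; ring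
    · field_simp
  have hEq := correlation_equation c2 hK1c hn hβ0 hgood1 hm
    (A := 32 * Cd * cc / δ + 12 * Cd * cc * n + 12 * Cd * cc * n / δ ^ 2) (by positivity) he.le
    (fun g hg => hg.2) hA2
    (fun g _ => abs_le.2 ⟨by linarith [(hv2 g).1], (hv2 g).2.trans (hv0 g).2⟩)
  set E2 := 400 * Cd * β ^ 2 * (e / δ ^ 3) + β ^ 2 * (12 / (n * δ ^ 2) + 4 * e / δ) with hE2
  have hE : 3 * cc * (32 * Cd * cc / δ + 12 * Cd * cc * n + 12 * Cd * cc * n / δ ^ 2) * e / m +
      β ^ 2 * (3 / (n * m ^ 2) + 2 * e ^ 2 / m) ≤ E2 := by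
    have e1 : 3 / ((n:ℝ) * m ^ 2) = 12 / (n * δ ^ 2) := by rw [hm']; field_simp; ring
    have e2 : 2 * e ^ 2 / m ≤ 4 * e / δ := by
      rw [hm', show 2 * e ^ 2 / (δ / 2) = 4 * e ^ 2 / δ by ring]; gcongr; nlinarith
    have e3 : 3 * cc * (32 * Cd * cc / δ + 12 * Cd * cc * n + 12 * Cd * cc * n / δ ^ 2) * e / m =
        6 * Cd * (e / δ ^ 3) * (32 * cc ^ 2 * δ + 12 * (cc ^ 2 * n) * δ ^ 2 + 12 * (cc ^ 2 * n)) := by
      rw [hm']; field_simp; ring
    have e4 : 32 * cc ^ 2 * δ + 12 * (cc ^ 2 * n) * δ ^ 2 + 12 * (cc ^ 2 * n) ≤ 56 * β ^ 2 := by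
      rw [hc2]
      have : cc ^ 2 ≤ β ^ 2 := pow_le_pow_left₀ hcc0 hcβ 2
      have hd2 : δ ^ 2 ≤ 1 := pow_le_one₀ hδ.le hδ1
      have k1 : 32 * cc ^ 2 * δ ≤ 32 * cc ^ 2 := mul_le_of_le_one_right (by positivity) hδ1
      have k2 : 12 * β ^ 2 * δ ^ 2 ≤ 12 * β ^ 2 := mul_le_of_le_one_right (by positivity) hd2
      linarith
    rw [e3, hE2, e1]
    have k := mul_le_mul_of_nonneg_left e4 (by positivity : 0 ≤ 6 * Cd * (e / δ ^ 3))
    have k0 : 0 ≤ Cd * (e / δ ^ 3) * β ^ 2 := by positivity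
    have k' := mul_le_mul_of_nonneg_left (add_le_add_left e2 (12 / ((n:ℝ) * δ ^ 2))) (sq_nonneg β)
    linarith
  exact ⟨c2, hval, hEq.trans hE⟩

set_option maxHeartbeats 1000000 in
/-- The key estimate. -/
theorem key_estimate (hβ : 1 ≤ β) : ∃ C : ℝ, 0 ≤ C ∧
    ∀ (n : ℕ) (δ e L τ Γ : ℝ), 0 < n → 4 * β ≤ Real.sqrt n → 0 < δ → δ ≤ 1 → 0 < e → e ≤ 1 →
      1 ≤ L → 0 < τ → τ ≤ 1 → 0 ≤ Γ →
      (∀ t : ℝ, 0 ≤ t → δ / 2 * t ≤ 1 →
        |(2 * β + δ) * t - 1 - β ^ 2 * t ^ 2| ≤ τ → 2 * β + δ - β ^ 2 - β ^ 2 * t ≤ Γ) →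
      disorderLaw n (LargeEvent (n := n) β δ e L τ)ᶜ ≤ ENNReal.ofReal
        (2 * L * Γ + C * (e / δ ^ 3 + 1 / (n * δ ^ 6 * τ ^ 2) +
          Real.exp (-(Real.sqrt n * δ / 8)))) := by
  obtain ⟨Cd, hCd, hCd'⟩ := cutFn_deriv_bound
  have hβ0 : 0 ≤ β := by linarith
  set q : ℝ := 8 * β ^ 2 + 4 * β + 3 with hq
  set C1 : ℝ := q * β ^ 2 * (4 * (32 * Cd + 8) + 12) with hC1
  set C : ℝ := 400 * Cd * β ^ 2 + 16 * β ^ 2 + (2 * q + 1) * C1 +
    2 * Real.exp (1 + 5 * β ^ 2) with hC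
  have hq0 : 0 ≤ q := by positivity
  have hC10 : 0 ≤ C1 := by positivity
  refine ⟨C, by positivity, fun n δ e L τ Γ hn hn4 hδ hδ1 he he1 hL hτ hτ1 hΓ0 hΓ => ?_⟩
  have hn0 : (0:ℝ) < n := by exact_mod_cast hn
  set ε := δ / (16 * (2 * β + 1)) with hε
  obtain ⟨V, hVne, hV1, hVnet⟩ := exists_net hn (ε := ε) (by positivity)
  have : Nonempty V := hVne.to_subtype
  set K0 : Set (Pairs n → ℝ) :=
    {g | netMax β 1 V g ≤ 2 * β + δ / 4} ∩ {g | netMax β (-1) V g ≤ 2 * β + δ / 4} with hK0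
  have hK0c : IsClosed K0 := (isClosed_le (continuous_netMax _ _ _) continuous_const).inter
    (isClosed_le (continuous_netMax _ _ _) continuous_const)
  have hgood : ∀ g ∈ K0, IsGood β (2 * β + δ) (δ / 2) g := fun g hg =>
    good_of_netMax hβ0 hn hδ hδ1 hε V hV1 hVnet g hg
  obtain ⟨c0, hA0, hv0, hone'⟩ := exists_softCut hβ0 hCd hCd' hn hδ V hV1
  set z := 2 * β + δ with hz
  set m := δ / 2 with hm'
  have hm : 0 < m := by positivity
  set R := resCorr (n := n) β z with hR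
  set Q : (Pairs n → ℝ) → ℝ := fun g => z * resTr β z g - 1 - β ^ 2 * resTr β z g ^ 2 with hQ
  set σ : (Pairs n → ℝ) → ℝ := fun g => overlapSq β g / e ^ 2 - 1 with hσ
  set ρ : (Pairs n → ℝ) → ℝ := fun g => R g / L - 1 with hρ
  set K1 : Set (Pairs n → ℝ) := K0 ∩ {g | overlapSq β g ≤ 2 * e ^ 2} with hK1
  have hscont : Continuous (overlapSq (n := n) β) := by
    unfold overlapSq frob
    exact (continuous_finsetSum _ fun i _ => continuous_finsetSum _ fun j _ =>
      ((continuous_corrM β).matrix_elem i j).pow 2).div_const _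
  have hK1c : IsClosed K1 := hK0c.inter (isClosed_le hscont continuous_const)
  have hgood1 : ∀ g ∈ K1, IsGood β z m g := fun g hg => hgood g hg.1
  set E2 := 400 * Cd * β ^ 2 * (e / δ ^ 3) + β ^ 2 * (12 / (n * δ ^ 2) + 4 * e / δ) with hE2
  have hI : ∫ g, c0.val g * (Q g * Q g) ∂disorderLaw n ≤ C1 / (n * δ ^ 4) :=
    resolvent_sq_bound hβ hCd hCd' hn hδ hδ1 hK0c hgood c0 hA0 hv0
  obtain ⟨c2, hval0, hEq0⟩ :=
    correlation_bound hβ hCd hCd' hn hδ hδ1 hK0c hgood c0 hA0 hv0 he he1 hL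
  have hval : ∀ g, c2.val g = c0.val g * cutFn (σ g) * cutFn (ρ g) := hval0
  have hEq : |∫ g, c2.val g * (R g * (z - β ^ 2 - β ^ 2 * resTr β z g) - 1) ∂disorderLaw n| ≤ E2 :=
    hEq0
  have hc2K : ∀ g, g ∉ K1 → c2.val g = 0 := c2.zero
  have iR : Integrable (fun g => c2.val g * (R g * (z - β ^ 2 - β ^ 2 * resTr β z g)))
      (disorderLaw n) := by
    have aR : Adm K1 R := by
      simp only [hR]; unfold resCorr Matrix.trace
      simp only [Matrix.diag, Matrix.mul_apply, div_eq_inv_mul]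
      exact (Adm.sum _ fun i => Adm.sum _ fun j =>
        (Adm.res hgood1 hm i j).mul (Adm.gibbs β _)).const_mul _
    have aT1 : Adm K1 (resTr β z) := by
      unfold resTr Matrix.trace; simp only [Matrix.diag, div_eq_inv_mul]
      exact (Adm.sum _ fun i => Adm.res hgood1 hm i i).const_mul _
    exact integrable_cut_mul c2 hK1c (aR.mul ((Adm.const _).sub (aT1.const_mul _)))
  clear_value q C1 C E2
  have aT : Adm K0 (resTr β z) := by
    unfold resTr Matrix.trace; simp only [Matrix.diag, div_eq_inv_mul]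
    exact (Adm.sum _ fun i => Adm.res hgood hm i i).const_mul _
  have aQ : Adm K0 Q := by
    simp only [hQ, pow_two (resTr β z _)]
    exact ((aT.const_mul z).sub (Adm.const 1)).sub ((aT.mul aT).const_mul _)
  have hTb : ∀ g ∈ K0, 0 ≤ resTr β z g ∧ resTr β z g ≤ 2 / δ := fun g hg => by
    obtain ⟨h0, h1⟩ := (hgood g hg).resTr_bounds hm
    refine ⟨h0, ?_⟩
    rw [hm'] at h1
    rw [le_div_iff₀ hδ]; linarith
  have hv2 : ∀ g, 0 ≤ c2.val g ∧ c2.val g ≤ c0.val g := fun g => by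
    rw [hval]
    refine ⟨mul_nonneg (mul_nonneg (hv0 g).1 (cutFn_nonneg _)) (cutFn_nonneg _), ?_⟩
    refine le_trans (mul_le_of_le_one_right (mul_nonneg (hv0 g).1 (cutFn_nonneg _))
      (cutFn_le_one _)) (mul_le_of_le_one_right (hv0 g).1 (cutFn_le_one _))
  have iC := iR
  have i1 : Integrable c2.val (disorderLaw n) := by
    simpa using integrable_cut_mul c2 hK1c (Adm.const 1)
  have iQ : Integrable (fun g => c0.val g * (Q g * Q g)) (disorderLaw n) :=
    integrable_cut_mul c0 hK0c (aQ.mul aQ)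
  have hpt : ∀ g, c2.val g * (R g * (z - β ^ 2 - β ^ 2 * resTr β z g)) ≤
      2 * L * Γ + 2 * q / δ ^ 2 / τ ^ 2 * (c0.val g * (Q g * Q g)) := by
    intro g
    have hQ2 : 0 ≤ c0.val g * (Q g * Q g) := mul_nonneg (hv0 g).1 (mul_self_nonneg _)
    have hr1 : 0 ≤ 2 * L * Γ := by positivity
    have hr2 : 0 ≤ 2 * q / δ ^ 2 / τ ^ 2 * (c0.val g * (Q g * Q g)) := by positivity
    by_cases hg : g ∈ K1
    swap
    · rw [hc2K g hg, zero_mul]; linarith
    obtain ⟨hR0, hR1⟩ := (hgood1 g hg).resCorr_bounds hm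
    obtain ⟨h0, h1⟩ := hTb g hg.1
    by_cases hρ1 : 1 ≤ ρ g
    · rw [hval, cutFn_eq_zero hρ1, mul_zero, zero_mul]; linarith
    have hRL : R g ≤ 2 * L := by
      simp only [hρ, not_le, sub_lt_iff_lt_add] at hρ1
      rw [div_lt_iff₀ (by linarith)] at hρ1; linarith
    rcases le_or_gt |Q g| τ with hq' | hq'
    · have hco := hΓ _ h0 (by linarith [((hgood1 g hg).resTr_bounds hm).2]) hq'
      have : R g * (z - β ^ 2 - β ^ 2 * resTr β z g) ≤ 2 * L * Γ :=
        (mul_le_mul_of_nonneg_left hco hR0).trans (mul_le_mul_of_nonneg_right hRL hΓ0)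
      have h2 := mul_le_mul_of_nonneg_left this (hv2 g).1
      linarith [mul_le_of_le_one_left (by positivity : 0 ≤ 2 * L * Γ) ((hv2 g).2.trans (hv0 g).2)]
    · have hco : z - β ^ 2 - β ^ 2 * resTr β z g ≤ q := by
        have p1 : 0 ≤ β ^ 2 * resTr β z g := by positivity
        have p2 : 0 ≤ β ^ 2 := sq_nonneg β
        rw [hq]; linarith
      have hR2 : R g ≤ 2 / δ ^ 2 := by
        have : R g ≤ 2 / δ := by rw [hm'] at hR1; rw [le_div_iff₀ hδ]; linarith
        refine this.trans ?_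
        gcongr
        exact (pow_two δ).trans_le (mul_le_of_le_one_left hδ.le hδ1)
      have hb : R g * (z - β ^ 2 - β ^ 2 * resTr β z g) ≤ 2 / δ ^ 2 * q :=
        (mul_le_mul_of_nonneg_left hco hR0).trans (mul_le_mul_of_nonneg_right hR2 hq0)
      have hτQ : τ ^ 2 ≤ Q g * Q g := by rw [← abs_mul_abs_self, pow_two]; exact mul_le_mul hq'.le hq'.le hτ.le (abs_nonneg _)
      have hone : 1 ≤ Q g * Q g / τ ^ 2 := by rw [le_div_iff₀ (by positivity)]; linarith
      calc c2.val g * (R g * (z - β ^ 2 - β ^ 2 * resTr β z g)) ≤ c2.val g * (2 / δ ^ 2 * q) :=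
            mul_le_mul_of_nonneg_left hb (hv2 g).1
        _ ≤ c0.val g * (2 / δ ^ 2 * q) * (Q g * Q g / τ ^ 2) :=
            (mul_le_mul_of_nonneg_right (hv2 g).2 (by positivity)).trans
              (le_mul_of_one_le_right (mul_nonneg (hv0 g).1 (by positivity)) hone)
        _ ≤ _ := by
            have : c0.val g * (2 / δ ^ 2 * q) * (Q g * Q g / τ ^ 2) =
                2 * q / δ ^ 2 / τ ^ 2 * (c0.val g * (Q g * Q g)) := by ring
            linarith
  have hψ : ∫ g, c2.val g ∂disorderLaw n ≤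
      2 * L * Γ + 2 * q / δ ^ 2 / τ ^ 2 * (C1 / (n * δ ^ 4)) + E2 := by
    have h := (abs_le.1 hEq).1
    have e0 : ∀ g, c2.val g * (R g * (z - β ^ 2 - β ^ 2 * resTr β z g) - 1) =
        c2.val g * (R g * (z - β ^ 2 - β ^ 2 * resTr β z g)) - c2.val g := fun g => by ring
    rw [integral_congr_ae (ae_of_all _ e0), integral_sub iC i1] at h
    have h2 := integral_mono (g := fun g => 2 * L * Γ + 2 * q / δ ^ 2 / τ ^ 2 * (c0.val g * (Q g * Q g)))
      iC ((integrable_const _).add (iQ.const_mul _)) hpt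
    rw [integral_add (integrable_const _) (iQ.const_mul _), integral_const, probReal_univ, one_smul,
      integral_const_mul] at h2
    have h3 := mul_le_mul_of_nonneg_left hI (by positivity : 0 ≤ 2 * q / δ ^ 2 / τ ^ 2)
    linarith
  set sn := Real.sqrt n with hsn
  set Ex : ℝ → (Pairs n → ℝ) → ℝ := fun s g =>
    Real.exp (sn * netMax β s V g - sn * (2 * β + δ / 8)) with hEx
  have hExI : ∀ s, Integrable (Ex s) (disorderLaw n) := fun s =>
    integrable_exp_netMax (Real.sqrt_nonneg _) hn V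
  have hExB : ∀ s : ℝ, s ^ 2 = 1 → ∫ g, Ex s g ∂disorderLaw n ≤
      Real.exp (1 + 5 * β ^ 2) * Real.exp (-(sn * δ / 8)) := fun s hs => by
    have e0 : ∀ g, Ex s g = Real.exp (sn * netMax β s V g) * Real.exp (-(sn * (2 * β + δ / 8))) :=
      fun g => by rw [← Real.exp_add]; simp [hEx, sub_eq_add_neg]
    rw [integral_congr_ae (ae_of_all _ e0), integral_mul_const]
    refine (mul_le_mul_of_nonneg_right (exp_moment_netMax hβ0 hn hn4 hs V hVne hV1)
      (Real.exp_pos _).le).trans (le_of_eq ?_)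
    rw [← Real.exp_add, ← Real.exp_add]; congr 1; ring
  set Φ : (Pairs n → ℝ) → ℝ := fun g =>
    c2.val g + c0.val g * (Q g * Q g) / τ ^ 2 + (Ex 1 g + Ex (-1) g) with hΦ
  have hΦ0 : ∀ g, 0 ≤ Φ g := fun g => by
    have h1 := (hv2 g).1
    have h2 : 0 ≤ c0.val g * (Q g * Q g) / τ ^ 2 :=
      div_nonneg (mul_nonneg (hv0 g).1 (mul_self_nonneg _)) (sq_nonneg _)
    have h3 : 0 ≤ Ex 1 g ∧ 0 ≤ Ex (-1) g := ⟨(Real.exp_pos _).le, (Real.exp_pos _).le⟩
    simp only [hΦ]; linarith [h3.1, h3.2]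
  have iΦ : Integrable Φ (disorderLaw n) :=
    (i1.add (iQ.div_const _)).add ((hExI 1).add (hExI (-1)))
  have h1Φ : ∀ g ∈ (LargeEvent (n := n) β δ e L τ)ᶜ, 1 ≤ Φ g := by
    intro g hg
    have hv2' := (hv2 g).1
    have hQ2 : 0 ≤ c0.val g * (Q g * Q g) / τ ^ 2 :=
      div_nonneg (mul_nonneg (hv0 g).1 (mul_self_nonneg _)) (sq_nonneg _)
    have hEx0 : ∀ s, 0 ≤ Ex s g := fun s => (Real.exp_pos _).le
    have hEx1 : ∀ s, 2 * β + δ / 8 < netMax β s V g → 1 ≤ Ex s g := fun s h => by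
      refine Real.one_le_exp ?_
      rw [← mul_sub]; exact mul_nonneg (Real.sqrt_nonneg _) (by linarith)
    simp only [hΦ]
    by_cases hp : 2 * β + δ / 8 < netMax β 1 V g
    · linarith [hEx1 1 hp, hEx0 (-1)]
    by_cases hp' : 2 * β + δ / 8 < netMax β (-1) V g
    · linarith [hEx1 (-1) hp', hEx0 1]
    rw [not_lt] at hp hp'
    have hmem : g ∈ K0 := ⟨by simp only [Set.mem_ofPred_eq]; linarith,
      by simp only [Set.mem_ofPred_eq]; linarith⟩
    have hc01 : c0.val g = 1 := hone' g hp hp'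
    by_cases hq' : |Q g| ≤ τ
    · simp only [LargeEvent, Set.mem_compl_iff, Set.mem_ofPred_eq, not_and_or] at hg
      rcases hg with h | h | h
      · exact absurd (hgood g hmem) h
      · exact absurd hq' h
      · simp only [not_or, not_lt] at h
        have hσ0 : σ g ≤ 0 := by
          simp only [hσ]; rw [sub_nonpos, div_le_one (by positivity)]; exact h.1
        have hρ0 : ρ g ≤ 0 := by
          simp only [hρ]; rw [sub_nonpos, div_le_one (by linarith)]; exact h.2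
        have : c2.val g = 1 := by
          rw [hval, hc01, cutFn_eq_one hσ0, cutFn_eq_one hρ0]; ring
        linarith [hEx0 1, hEx0 (-1)]
    · have : 1 ≤ c0.val g * (Q g * Q g) / τ ^ 2 := by
        rw [hc01, one_mul, le_div_iff₀ (by positivity), one_mul, ← abs_mul_abs_self]
        rw [not_le] at hq'; exact (pow_two τ).trans_le (mul_le_mul hq'.le hq'.le hτ.le (abs_nonneg _))
      linarith [hEx0 1, hEx0 (-1)]
  refine (measure_le_of_one_le iΦ hΦ0 h1Φ).trans (ENNReal.ofReal_le_ofReal ?_)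
  rw [hΦ, integral_add, integral_add i1 (iQ.div_const _), integral_add (hExI 1) (hExI (-1)),
    integral_div]
  rotate_left
  · exact i1.add (iQ.div_const _)
  · exact (hExI 1).add (hExI (-1))
  have hQb' : (∫ g, c0.val g * (Q g * Q g) ∂disorderLaw n) / τ ^ 2 ≤
      C1 / (n * δ ^ 4) / τ ^ 2 := div_le_div_of_nonneg_right hI (sq_nonneg _)
  have hW0 : 0 < (n:ℝ) * δ ^ 6 * τ ^ 2 := by positivity
  set W := 1 / ((n:ℝ) * δ ^ 6 * τ ^ 2) with hW
  have w1 : 2 * q / δ ^ 2 / τ ^ 2 * (C1 / (n * δ ^ 4)) = 2 * q * C1 * W := by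
    rw [hW]; field_simp
  have w2 : C1 / (n * δ ^ 4) / τ ^ 2 ≤ C1 * W := by
    rw [hW, show C1 / ((n:ℝ) * δ ^ 4) / τ ^ 2 = C1 * (1 / (n * δ ^ 4 * τ ^ 2)) by ring]
    refine mul_le_mul_of_nonneg_left (one_div_le_one_div_of_le hW0 ?_) hC10
    have : δ ^ 6 ≤ δ ^ 4 := pow_le_pow_of_le_one hδ.le hδ1 (by norm_num)
    gcongr
  have w3 : 12 / ((n:ℝ) * δ ^ 2) ≤ 12 * W := by
    rw [hW, ← mul_div_assoc, mul_one]
    refine div_le_div_of_nonneg_left (by norm_num) hW0 ?_
    have h1' : δ ^ 6 * τ ^ 2 ≤ δ ^ 2 * 1 := mul_le_mul (pow_le_pow_of_le_one hδ.le hδ1 (by norm_num))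
      (pow_le_one₀ hτ.le hτ1) (sq_nonneg _) (sq_nonneg _)
    nlinarith
  have w4 : 4 * e / δ ≤ 4 * (e / δ ^ 3) := by
    rw [← mul_div_assoc]; gcongr
    calc δ ^ 3 ≤ δ ^ 1 := pow_le_pow_of_le_one hδ.le hδ1 (by norm_num)
      _ = δ := pow_one δ
  have w5 := hExB 1 (one_pow 2)
  have w6 := hExB (-1) (by norm_num)
  have he3 : 0 ≤ e / δ ^ 3 := by positivity
  have hW' : 0 ≤ W := by positivity
  have hX : 0 ≤ Real.exp (-(sn * δ / 8)) := (Real.exp_pos _).le
  have k1 := mul_le_mul_of_nonneg_left (add_le_add w3 w4) (sq_nonneg β)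
  have hC' : 0 ≤ C - (400 * Cd * β ^ 2 + 4 * β ^ 2) ∧
      0 ≤ C - ((2 * q + 1) * C1 + 12 * β ^ 2) ∧ 0 ≤ C - 2 * Real.exp (1 + 5 * β ^ 2) := by
    have a1 : 0 ≤ 400 * Cd * β ^ 2 := by positivity
    have a2 : 0 ≤ (2 * q + 1) * C1 := by positivity
    have a3 : 0 ≤ Real.exp (1 + 5 * β ^ 2) := (Real.exp_pos _).le
    refine ⟨?_, ?_, ?_⟩ <;> (rw [hC]; nlinarith [sq_nonneg β])
  linarith [mul_nonneg hC'.1 he3, mul_nonneg hC'.2.1 hW', mul_nonneg hC'.2.2 hX]

end Vale.Agent.P150
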