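import Vale.Agent.P150.Defs
import Vale.Agent.P150.GaussIBP

/-!
An exponential moment for a soft maximum of linear Gaussian forms by interpolation.
-/

namespace Vale.Agent.P150

open MeasureTheory ProbabilityTheory Real Function
open scoped BigOperators

section Interp

variable {α ι : Type*} [Fintype α] [Fintype ι] [Nonempty α] [DecidableEq ι]

/-- The exponential sum of linear forms. -/
noncomputable def expSum (T : ℝ) (a : α → ι → ℝ) (z : ι → ℝ) : ℝ :=
  ∑ v, Real.exp (T * ∑ k, a v k * z k)

/-- The soft maximum weights. -/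
noncomputable def softWeight (T : ℝ) (a : α → ι → ℝ) (z : ι → ℝ) (v : α) : ℝ :=
  Real.exp (T * ∑ k, a v k * z k) / expSum T a z

/-- The soft maximum. -/
noncomputable def softMax (T : ℝ) (a : α → ι → ℝ) (z : ι → ℝ) : ℝ :=
  Real.log (expSum T a z) / T

omit [DecidableEq ι] in
lemma expSum_pos (T : ℝ) (a : α → ι → ℝ) (z : ι → ℝ) : 0 < expSum T a z :=
  Finset.sum_pos (fun _ _ => Real.exp_pos _) Finset.univ_nonempty

omit [DecidableEq ι] in
lemma softWeight_nonneg (T : ℝ) (a : α → ι → ℝ) (z : ι → ℝ) (v : α) : 0 ≤ softWeight T a z v :=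
  div_nonneg (Real.exp_pos _).le (expSum_pos T a z).le

omit [DecidableEq ι] in
lemma sum_softWeight (T : ℝ) (a : α → ι → ℝ) (z : ι → ℝ) : ∑ v, softWeight T a z v = 1 := by
  rw [← div_self (expSum_pos T a z).ne']
  simp [softWeight, expSum, Finset.sum_div]

omit [DecidableEq ι] in
lemma le_softMax {T : ℝ} (hT : 0 < T) (a : α → ι → ℝ) (z : ι → ℝ) (v : α) :
    ∑ k, a v k * z k ≤ softMax T a z := by
  rw [softMax, le_div_iff₀ hT, Real.le_log_iff_exp_le (expSum_pos T a z), mul_comm]
  exact Finset.single_le_sum (f := fun v => Real.exp (T * ∑ k, a v k * z k))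
    (fun _ _ => (Real.exp_pos _).le) (Finset.mem_univ v)

omit [DecidableEq ι] in
lemma softMax_le {T : ℝ} (hT : 0 < T) (a : α → ι → ℝ) (z : ι → ℝ) {M : ℝ}
    (h : ∀ v, ∑ k, a v k * z k ≤ M) :
    softMax T a z ≤ M + Real.log (Fintype.card α) / T := by
  have hc : (0 : ℝ) < Fintype.card α := by exact_mod_cast Fintype.card_pos
  have : expSum T a z ≤ Fintype.card α * Real.exp (T * M) := by
    calc expSum T a z ≤ ∑ _v : α, Real.exp (T * M) :=
          Finset.sum_le_sum fun v _ => Real.exp_le_exp.2 (mul_le_mul_of_nonneg_left (h v) hT.le)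
      _ = _ := by simp
  have := Real.log_le_log (expSum_pos T a z) this
  rw [Real.log_mul hc.ne' (Real.exp_ne_zero _), Real.log_exp] at this
  rw [softMax, div_le_iff₀ hT, add_mul, div_mul_cancel₀ _ hT.ne']
  linarith

lemma hasDerivAt_linear (a : ι → ℝ) (z : ι → ℝ) (k : ι) (s : ℝ) :
    HasDerivAt (fun s => ∑ j, a j * update z k s j) (a k) s := by
  have h : ∀ j ∈ (Finset.univ : Finset ι),
      HasDerivAt (fun s => a j * update z k s j) (if j = k then a k else 0) s := by
    intro j _
    by_cases hj : j = k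
    · subst hj; simpa using (hasDerivAt_id s).const_mul (a j)
    · simp only [hj, if_false, update_of_ne hj]; exact hasDerivAt_const _ _
  simpa using HasDerivAt.fun_sum h

lemma hasDerivAt_expSum (T : ℝ) (a : α → ι → ℝ) (z : ι → ℝ) (k : ι) :
    HasDerivAt (fun s => expSum T a (update z k s))
      (T * expSum T a z * ∑ v, softWeight T a z v * a v k) (z k) := by
  have h := HasDerivAt.fun_sum (u := (Finset.univ : Finset α))
    (fun v _ => ((hasDerivAt_linear (a v) z k (z k)).const_mul T).exp)
  refine h.congr_deriv ?_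
  rw [Finset.mul_sum]
  refine Finset.sum_congr rfl fun v _ => ?_
  have := (expSum_pos T a z).ne'
  simp only [update_eq_self, softWeight]
  field_simp

lemma hasDerivAt_softMax {T : ℝ} (hT : T ≠ 0) (a : α → ι → ℝ) (z : ι → ℝ) (k : ι) :
    HasDerivAt (fun s => softMax T a (update z k s))
      (∑ v, softWeight T a z v * a v k) (z k) := by
  have := ((hasDerivAt_expSum T a z k).log (by simpa using (expSum_pos T a z).ne')).div_const T
  refine this.congr_deriv ?_
  have := (expSum_pos T a z).ne'
  simp only [update_eq_self]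
  field_simp

lemma hasDerivAt_softWeight (T : ℝ) (a : α → ι → ℝ) (z : ι → ℝ) (k : ι) (v : α) :
    HasDerivAt (fun s => softWeight T a (update z k s) v)
      (T * softWeight T a z v * (a v k - ∑ w, softWeight T a z w * a w k)) (z k) := by
  have := (((hasDerivAt_linear (a v) z k (z k)).const_mul T).exp).fun_div
    (hasDerivAt_expSum T a z k) (by simpa using (expSum_pos T a z).ne')
  refine this.congr_deriv ?_
  have := (expSum_pos T a z).ne'
  simp only [update_eq_self, softWeight]
  field_simp

lemma sum_sq_avg_le {T : ℝ} (a b : α → ι → ℝ) (z : ι → ℝ) {C : ℝ}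
    (hb : ∀ v, ∑ k, b v k ^ 2 ≤ C) :
    ∑ k, (∑ v, softWeight T a z v * b v k) ^ 2 ≤ C := by
  set p := softWeight T a z with hp
  have h1 : ∀ k, (∑ v, p v * b v k) ^ 2 ≤ ∑ v, p v * b v k ^ 2 := by
    intro k
    set m := ∑ v, p v * b v k
    have h0 : (0:ℝ) ≤ ∑ v, p v * (b v k - m) ^ 2 :=
      Finset.sum_nonneg fun v _ => mul_nonneg (softWeight_nonneg _ _ _ _) (sq_nonneg _)
    have e' : ∀ m' : ℝ, ∑ v, p v * (b v k - m') ^ 2 =
        ∑ v, p v * b v k ^ 2 - 2 * m' * ∑ v, p v * b v k + m' ^ 2 * ∑ v, p v := by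
      intro m'
      rw [Finset.mul_sum, Finset.mul_sum, ← Finset.sum_sub_distrib, ← Finset.sum_add_distrib]
      exact Finset.sum_congr rfl fun v _ => by ring
    have e := e' m
    rw [hp, sum_softWeight] at e
    nlinarith
  calc ∑ k, (∑ v, p v * b v k) ^ 2 ≤ ∑ k, ∑ v, p v * b v k ^ 2 :=
        Finset.sum_le_sum fun k _ => h1 k
    _ = ∑ v, p v * ∑ k, b v k ^ 2 := by rw [Finset.sum_comm]; simp [Finset.mul_sum]
    _ ≤ ∑ v, p v * C := Finset.sum_le_sum fun v _ =>
        mul_le_mul_of_nonneg_left (hb v) (softWeight_nonneg _ _ _ _)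
    _ = C := by rw [← Finset.sum_mul, hp, sum_softWeight, one_mul]

/-- Interpolation: the increments of `A` being dominated by those of `B`. -/
theorem soft_max_comparison (A B : α → ι → ℝ) (σ2 : ℝ) {l T : ℝ} (hl : 0 < l) (hT : 0 < T)
    (horth : ∀ v w, ∑ k, A v k * B w k = 0)
    (hinc : ∀ v w, ∑ k, (A v k - A w k) ^ 2 ≤ ∑ k, (B v k - B w k) ^ 2)
    (hA : ∀ v, ∑ k, A v k ^ 2 ≤ σ2) :
    ∫ z, Real.exp (l * softMax T A z) ∂stdGauss ι ≤
      Real.exp (l ^ 2 * σ2 / 2) * ∫ z, Real.exp (l * softMax T B z) ∂stdGauss ι := by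
  set a : ℝ → α → ι → ℝ := fun θ v k => Real.cos θ * A v k + Real.sin θ * B v k with ha
  set a' : ℝ → α → ι → ℝ := fun θ v k => -Real.sin θ * A v k + Real.cos θ * B v k with ha'
  set P : ℝ → (ι → ℝ) → ℝ := fun θ z => Real.exp (l * softMax T (a θ) z) with hP
  set p : ℝ → (ι → ℝ) → α → ℝ := fun θ z v => softWeight T (a θ) z v with hp
  set M : ι → ℝ := fun k => ∑ v, (|A v k| + |B v k|) with hM
  have hM0 : ∀ k, 0 ≤ M k := fun k => Finset.sum_nonneg fun v _ => by positivity
  have hav : ∀ θ v k, |a θ v k| ≤ M k := by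
    intro θ v k
    refine le_trans ((abs_add_le _ _).trans (add_le_add ?_ ?_))
      (Finset.single_le_sum (f := fun v => |A v k| + |B v k|) (fun _ _ => by positivity)
        (Finset.mem_univ v))
    · rw [abs_mul]; exact mul_le_of_le_one_left (abs_nonneg _) (abs_cos_le_one θ)
    · rw [abs_mul]; exact mul_le_of_le_one_left (abs_nonneg _) (abs_sin_le_one θ)
  have hav' : ∀ θ v k, |a' θ v k| ≤ M k := by
    intro θ v k
    refine le_trans ((abs_add_le _ _).trans (add_le_add ?_ ?_))
      (Finset.single_le_sum (f := fun v => |A v k| + |B v k|) (fun _ _ => by positivity)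
        (Finset.mem_univ v))
    · rw [abs_mul, abs_neg]; exact mul_le_of_le_one_left (abs_nonneg _) (abs_sin_le_one θ)
    · rw [abs_mul]; exact mul_le_of_le_one_left (abs_nonneg _) (abs_cos_le_one θ)
  set K : ℝ := Real.exp (l * (Real.log (Fintype.card α) / T)) with hK
  have hK0 : 0 ≤ K := (Real.exp_pos _).le
  have hPb : ∀ θ z, |P θ z| ≤ K * Real.exp (∑ k, (l * M k) * |z k|) := by
    intro θ z
    rw [abs_of_pos (Real.exp_pos _), hK, ← Real.exp_add, Real.exp_le_exp]
    have := mul_le_mul_of_nonneg_left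
      (softMax_le hT (a θ) z (M := ∑ k, M k * |z k|) fun v => (le_abs_self _).trans
        ((Finset.abs_sum_le_sum_abs _ _).trans (Finset.sum_le_sum fun k _ => by
          rw [abs_mul]; exact mul_le_mul_of_nonneg_right (hav θ v k) (abs_nonneg _)))) hl.le
    simpa [mul_add, Finset.mul_sum, mul_assoc, add_comm] using this
  have hcontS : ∀ θ, Continuous (expSum T (a θ)) := fun θ => by unfold expSum; fun_prop
  have hcontP : ∀ θ, Continuous (P θ) := fun θ => by
    simp only [hP, softMax]
    exact Real.continuous_exp.comp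
      (((hcontS θ).log fun z => (expSum_pos _ _ _).ne').div_const T |>.const_mul l)
  have hcontp : ∀ θ v, Continuous (fun z => p θ z v) := fun θ v => by
    simp only [hp, softWeight]
    exact Continuous.div (by fun_prop) (hcontS θ) fun z => (expSum_pos _ _ _).ne'
  have hPint : ∀ θ, Integrable (P θ) (stdGauss ι) :=
    fun θ => integrable_of_exp_bound (hcontP θ) K _ (hPb θ)
  set F : ℝ → ι → (ι → ℝ) → ℝ := fun θ k z => l * P θ z * ∑ v, p θ z v * a' θ v k with hF
  set F' : ℝ → ι → (ι → ℝ) → ℝ := fun θ k z => l * P θ z *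
    (l * (∑ v, p θ z v * a θ v k) * (∑ v, p θ z v * a' θ v k) +
      T * ((∑ v, p θ z v * (a θ v k * a' θ v k)) -
        (∑ v, p θ z v * a θ v k) * (∑ v, p θ z v * a' θ v k))) with hF'
  have havg : ∀ θ z (b : α → ℝ) C, (∀ v, |b v| ≤ C) → |∑ v, p θ z v * b v| ≤ C := by
    intro θ z b C hb
    refine (Finset.abs_sum_le_sum_abs _ _).trans ?_
    calc ∑ v, |p θ z v * b v| ≤ ∑ v, p θ z v * C := Finset.sum_le_sum fun v _ => by
          rw [abs_mul, abs_of_nonneg (softWeight_nonneg _ _ _ _)]
          exact mul_le_mul_of_nonneg_left (hb v) (softWeight_nonneg _ _ _ _)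
      _ = C := by rw [← Finset.sum_mul, hp, sum_softWeight, one_mul]
  have hFcont : ∀ θ k, Continuous (F θ k) := fun θ k => by
    simp only [hF]
    exact ((hcontP θ).const_mul l).mul
      (continuous_finsetSum _ fun v _ => (hcontp θ v).mul continuous_const)
  have hFb : ∀ θ k z, |F θ k z| ≤ l * M k * K * Real.exp (∑ j, (l * M j) * |z j|) := by
    intro θ k z
    rw [hF]; simp only [abs_mul, abs_of_pos hl]
    calc l * |P θ z| * |∑ v, p θ z v * a' θ v k|
        ≤ l * (K * Real.exp (∑ j, (l * M j) * |z j|)) * M k := by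
          gcongr
          · exact hPb θ z
          · exact havg θ z _ _ fun v => hav' θ v k
      _ = _ := by ring
  have hF'cont : ∀ θ k, Continuous (F' θ k) := fun θ k => by
    simp only [hF']
    have h1 := fun (b : α → ℝ) => continuous_finsetSum (Finset.univ : Finset α)
      (fun v _ => (hcontp θ v).mul (continuous_const (y := b v)))
    exact ((hcontP θ).const_mul l).mul ((((h1 _).const_mul l).mul (h1 _)).add
      (((h1 _).sub ((h1 _).mul (h1 _))).const_mul T))
  have hF'int : ∀ θ k, Integrable (F' θ k) (stdGauss ι) := by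
    intro θ k
    refine integrable_of_exp_bound (hF'cont θ k)
      (l * K * (l * M k * M k + T * (M k * M k + M k * M k))) (fun j => l * M j) fun z => ?_
    simp only [hF']
    rw [abs_mul, abs_mul, abs_of_pos hl]
    have h1 := havg θ z _ _ fun v => hav θ v k
    have h2 := havg θ z _ _ fun v => hav' θ v k
    have h3 := havg θ z (fun v => a θ v k * a' θ v k) (M k * M k) fun v => by
      rw [abs_mul]; exact mul_le_mul (hav θ v k) (hav' θ v k) (abs_nonneg _) (hM0 k)
    have h4 : |l * (∑ v, p θ z v * a θ v k) * (∑ v, p θ z v * a' θ v k) +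
        T * ((∑ v, p θ z v * (a θ v k * a' θ v k)) -
        (∑ v, p θ z v * a θ v k) * (∑ v, p θ z v * a' θ v k))| ≤
        l * M k * M k + T * (M k * M k + M k * M k) := by
      refine (abs_add_le _ _).trans (add_le_add ?_ ?_)
      · rw [abs_mul, abs_mul, abs_of_pos hl]; gcongr
      · rw [abs_mul, abs_of_pos hT]; gcongr
        refine (abs_sub _ _).trans (add_le_add h3 ?_)
        rw [abs_mul]; gcongr
    calc l * |P θ z| * _ ≤ l * (K * Real.exp (∑ j, (l * M j) * |z j|)) *
          (l * M k * M k + T * (M k * M k + M k * M k)) := by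
          gcongr
          · exact hPb θ z
      _ = _ := by ring
  have hzF : ∀ θ k, Integrable (fun z => z k * F θ k z) (stdGauss ι) := by
    intro θ k
    refine integrable_of_exp_bound ((continuous_apply k).mul (hFcont θ k)) (l * M k * K)
      (fun j => l * M j + if j = k then 1 else 0) fun z => ?_
    have e : ∑ j, (l * M j + if j = k then (1:ℝ) else 0) * |z j| =
        |z k| + ∑ j, (l * M j) * |z j| := by
      simp [add_mul, Finset.sum_add_distrib, add_comm]
    rw [abs_mul, e, Real.exp_add]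
    have : |z k| ≤ Real.exp |z k| := by linarith [Real.add_one_le_exp |z k|]
    calc |z k| * |F θ k z| ≤ Real.exp |z k| *
        (l * M k * K * Real.exp (∑ j, (l * M j) * |z j|)) :=
          mul_le_mul this (hFb θ k z) (abs_nonneg _) (Real.exp_pos _).le
      _ = _ := by ring
  have hkd : ∀ θ k z, HasDerivAt (fun s => F θ k (update z k s)) (F' θ k z) (z k) := by
    intro θ k z
    have dP : HasDerivAt (fun s => P θ (update z k s))
        (P θ z * (l * ∑ v, p θ z v * a θ v k)) (z k) := by
      have := ((hasDerivAt_softMax hT.ne' (a θ) z k).const_mul l).exp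
      simpa [hP, hp] using this
    have dp := HasDerivAt.fun_sum (u := (Finset.univ : Finset α)) fun v _ =>
      (hasDerivAt_softWeight T (a θ) z k v).mul_const (a' θ v k)
    refine ((dP.const_mul l).mul dp).congr_deriv ?_
    have e : ∑ v, T * p θ z v * (a θ v k - ∑ w, p θ z w * a θ w k) * a' θ v k =
        T * ((∑ v, p θ z v * (a θ v k * a' θ v k)) -
        (∑ v, p θ z v * a θ v k) * (∑ v, p θ z v * a' θ v k)) := by
      rw [Finset.mul_sum, ← Finset.sum_sub_distrib, Finset.mul_sum]
      exact Finset.sum_congr rfl fun v _ => by ring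
    simp only [update_eq_self, hF', hp] at e ⊢
    rw [e]; ring
  have hθd : ∀ θ z, HasDerivAt (fun s => P s z) (∑ k, z k * F θ k z) θ := by
    intro θ z
    have d1 : ∀ v, HasDerivAt (fun s => ∑ k, a s v k * z k) (∑ k, a' θ v k * z k) θ := fun v =>
      HasDerivAt.fun_sum fun k _ =>
        (((hasDerivAt_cos θ).mul_const (A v k)).add
          ((hasDerivAt_sin θ).mul_const (B v k))).mul_const (z k)
    have d2 := HasDerivAt.fun_sum (u := (Finset.univ : Finset α))
      fun v _ => ((d1 v).const_mul T).exp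
    have d3 := (((d2.log (expSum_pos T (a θ) z).ne').div_const T).const_mul l).exp
    refine d3.congr_deriv ?_
    have hne := (expSum_pos T (a θ) z).ne'
    have e1 : ∑ k, z k * F θ k z = l * P θ z * ∑ v, p θ z v * ∑ k, a' θ v k * z k := by
      simp only [hF]
      simp only [Finset.mul_sum]
      rw [Finset.sum_comm]
      exact Finset.sum_congr rfl fun v _ => Finset.sum_congr rfl fun k _ => by ring
    have e2 : (∑ v, Real.exp (T * ∑ k, a θ v k * z k) * (T * ∑ k, a' θ v k * z k)) /
        expSum T (a θ) z / T = ∑ v, p θ z v * ∑ k, a' θ v k * z k := by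
      rw [div_div, Finset.sum_div]
      refine Finset.sum_congr rfl fun v _ => ?_
      simp only [hp, softWeight]
      field_simp
    rw [e1, ← e2]
    simp only [hP, softMax, expSum]
    ring
  set φ : ℝ → ℝ := fun θ => ∫ z, P θ z ∂stdGauss ι with hφ
  have hzFsum : ∀ θ, Integrable (fun z => ∑ k, z k * F θ k z) (stdGauss ι) :=
    fun θ => integrable_finsetSum _ fun k _ => hzF θ k
  have hφd : ∀ θ, HasDerivAt φ (∫ z, ∑ k, F' θ k z ∂stdGauss ι) θ := by
    intro θ
    have hb : Integrable (fun z => ∑ k, |z k| *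
        (l * M k * K * Real.exp (∑ j, (l * M j) * |z j|))) (stdGauss ι) := by
      refine integrable_finsetSum _ fun k _ => ?_
      refine integrable_of_exp_bound (by fun_prop) (l * M k * K)
        (fun j => l * M j + if j = k then 1 else 0) fun z => ?_
      have e : ∑ j, (l * M j + if j = k then (1:ℝ) else 0) * |z j| =
          |z k| + ∑ j, (l * M j) * |z j| := by
        simp [add_mul, Finset.sum_add_distrib, add_comm]
      rw [e, Real.exp_add, abs_mul, abs_abs]
      have : |z k| ≤ Real.exp |z k| := by linarith [Real.add_one_le_exp |z k|]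
      have hMk := hM0 k
      rw [abs_of_nonneg (a := l * M k * K * Real.exp (∑ j, (l * M j) * |z j|)) (by positivity)]
      calc |z k| * _ ≤ Real.exp |z k| * _ :=
            mul_le_mul_of_nonneg_right this (by positivity)
        _ = _ := by ring
    have h := hasDerivAt_integral_of_dominated_loc_of_deriv_le (F := P)
      (F' := fun θ z => ∑ k, z k * F θ k z) (x₀ := θ) (s := Set.univ) Filter.univ_mem
      (Filter.Eventually.of_forall fun s => (hcontP s).aestronglyMeasurable) (hPint θ)
      (hzFsum θ).aestronglyMeasurable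
      (ae_of_all _ fun z s _ => by
        rw [Real.norm_eq_abs]
        refine (Finset.abs_sum_le_sum_abs _ _).trans (Finset.sum_le_sum fun k _ => ?_)
        rw [abs_mul]; exact mul_le_mul_of_nonneg_left (hFb s k z) (abs_nonneg _))
      hb (ae_of_all _ fun z s _ => hθd s z)
    refine h.2.congr_deriv ?_
    rw [integral_finsetSum _ fun k _ => hzF θ k, integral_finsetSum _ fun k _ => hF'int θ k]
    exact Finset.sum_congr rfl fun k _ => ibp k _ _ (hkd θ k)
      (integrable_of_exp_bound (hFcont θ k) _ _ (hFb θ k)) (hzF θ k) (hF'int θ k)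
  have hlow : ∀ θ ∈ Set.Icc (0:ℝ) (π / 2),
      -(l ^ 2 * σ2 * (Real.sin θ * Real.cos θ)) * φ θ ≤ ∫ z, ∑ k, F' θ k z ∂stdGauss ι := by
    intro θ hθ
    have hs : 0 ≤ Real.sin θ * Real.cos θ := mul_nonneg
      (Real.sin_nonneg_of_nonneg_of_le_pi hθ.1 (by linarith [hθ.2, Real.pi_pos]))
      (Real.cos_nonneg_of_mem_Icc ⟨by linarith [hθ.1, Real.pi_pos], hθ.2⟩)
    rw [hφ, ← integral_const_mul]
    refine integral_mono ((hPint θ).const_mul _) (integrable_finsetSum _ fun k _ => hF'int θ k)
      fun z => ?_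
    simp only [hF']
    set q := p θ z
    have hq0 : ∀ v, 0 ≤ q v := fun v => softWeight_nonneg _ _ _ _
    have hq1 : ∑ v, q v = 1 := sum_softWeight _ _ _
    set sc := Real.sin θ * Real.cos θ
    have bil : ∀ x y : α → ι → ℝ, (∀ v w, ∑ k, x v k * y w k = 0) →
        ∑ k, (∑ v, q v * x v k) * (∑ w, q w * y w k) = 0 := by
      intro x y h
      calc _ = ∑ v, ∑ w, q v * q w * ∑ k, x v k * y w k := by
            simp only [Finset.sum_mul_sum]
            rw [Finset.sum_comm]
            refine Finset.sum_congr rfl fun v _ => ?_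
            rw [Finset.sum_comm]
            refine Finset.sum_congr rfl fun w _ => ?_
            rw [Finset.mul_sum]
            exact Finset.sum_congr rfl fun k _ => by ring
        _ = 0 := by simp [h]
    have hlin : ∀ k, (∑ v, q v * a θ v k) =
        Real.cos θ * (∑ v, q v * A v k) + Real.sin θ * (∑ v, q v * B v k) := fun k => by
      rw [Finset.mul_sum, Finset.mul_sum, ← Finset.sum_add_distrib]
      exact Finset.sum_congr rfl fun v _ => by simp only [ha]; ring
    have hlin' : ∀ k, (∑ v, q v * a' θ v k) =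
        -Real.sin θ * (∑ v, q v * A v k) + Real.cos θ * (∑ v, q v * B v k) := fun k => by
      rw [Finset.mul_sum, Finset.mul_sum, ← Finset.sum_add_distrib]
      exact Finset.sum_congr rfl fun v _ => by simp only [ha']; ring
    have e1 : ∑ k, (∑ v, q v * a θ v k) * (∑ v, q v * a' θ v k) =
        sc * (∑ k, (∑ v, q v * B v k) ^ 2) - sc * (∑ k, (∑ v, q v * A v k) ^ 2) := by
      have hz := bil A B horth
      have : ∑ k, (∑ v, q v * a θ v k) * (∑ v, q v * a' θ v k) =
          ∑ k, (sc * (∑ v, q v * B v k) ^ 2 - sc * (∑ v, q v * A v k) ^ 2 +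
            (Real.cos θ ^ 2 - Real.sin θ ^ 2) *
              ((∑ v, q v * A v k) * (∑ w, q w * B w k))) :=
        Finset.sum_congr rfl fun k _ => by rw [hlin, hlin']; simp only [sc]; ring
      rw [this, Finset.sum_add_distrib, Finset.sum_sub_distrib, ← Finset.mul_sum,
        ← Finset.mul_sum, ← Finset.mul_sum, hz]
      ring
    have e2 : ∀ k, (∑ v, q v * (a θ v k * a' θ v k)) -
        (∑ v, q v * a θ v k) * (∑ v, q v * a' θ v k) =
        (∑ v, ∑ w, q v * q w * ((a θ v k - a θ w k) * (a' θ v k - a' θ w k))) / 2 := by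
      intro k
      have : ∀ v w, q v * q w * ((a θ v k - a θ w k) * (a' θ v k - a' θ w k)) =
          q v * (a θ v k * a' θ v k) * q w + q v * (q w * (a θ w k * a' θ w k)) -
            (q v * a θ v k) * (q w * a' θ w k) - (q v * a' θ v k) * (q w * a θ w k) :=
        fun v w => by ring
      simp only [this, Finset.sum_add_distrib, Finset.sum_sub_distrib, ← Finset.mul_sum,
        ← Finset.sum_mul, hq1]
      ring
    have e3 : (0:ℝ) ≤ ∑ k, ((∑ v, q v * (a θ v k * a' θ v k)) -
        (∑ v, q v * a θ v k) * (∑ v, q v * a' θ v k)) := by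
      simp only [e2, ← Finset.sum_div]
      refine div_nonneg ?_ (by norm_num)
      rw [Finset.sum_comm]
      refine Finset.sum_nonneg fun v _ => ?_
      rw [Finset.sum_comm]
      refine Finset.sum_nonneg fun w _ => ?_
      rw [← Finset.mul_sum]
      refine mul_nonneg (mul_nonneg (hq0 v) (hq0 w)) ?_
      have hc : ∑ k, (A v k - A w k) * (B v k - B w k) = 0 := by
        simp [sub_mul, mul_sub, Finset.sum_sub_distrib, horth]
      have : ∑ k, (a θ v k - a θ w k) * (a' θ v k - a' θ w k) =
          ∑ k, (sc * (B v k - B w k) ^ 2 - sc * (A v k - A w k) ^ 2 +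
            (Real.cos θ ^ 2 - Real.sin θ ^ 2) * ((A v k - A w k) * (B v k - B w k))) :=
        Finset.sum_congr rfl fun k _ => by simp only [ha, ha', sc]; ring
      rw [this, Finset.sum_add_distrib, Finset.sum_sub_distrib, ← Finset.mul_sum,
        ← Finset.mul_sum, ← Finset.mul_sum, hc]
      linarith [mul_le_mul_of_nonneg_left (hinc v w) hs]
    have e4 : ∑ k, (∑ v, q v * A v k) ^ 2 ≤ σ2 := sum_sq_avg_le (a θ) A z hA
    have e5 : 0 ≤ ∑ k, (∑ v, q v * B v k) ^ 2 := Finset.sum_nonneg fun _ _ => sq_nonneg _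
    have hPz : 0 < P θ z := Real.exp_pos _
    simp only [← Finset.mul_sum, mul_assoc l (∑ v, q v * a θ v _), Finset.sum_add_distrib]
    have key : -(σ2 * sc) ≤ ∑ k, (∑ v, q v * a θ v k) * (∑ v, q v * a' θ v k) := by
      rw [e1]; nlinarith
    nlinarith [mul_le_mul_of_nonneg_left key (mul_nonneg (mul_nonneg hl.le hPz.le) hl.le),
      mul_nonneg (mul_nonneg (mul_nonneg hl.le hPz.le) hT.le) e3]
  set χ : ℝ → ℝ := fun θ => φ θ * Real.exp (l ^ 2 * σ2 / 2 * Real.sin θ ^ 2) with hχ
  have hχd : ∀ θ, HasDerivAt χ ((∫ z, ∑ k, F' θ k z ∂stdGauss ι) *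
      Real.exp (l ^ 2 * σ2 / 2 * Real.sin θ ^ 2) + φ θ *
      (Real.exp (l ^ 2 * σ2 / 2 * Real.sin θ ^ 2) *
        (l ^ 2 * σ2 / 2 * (2 * Real.sin θ * Real.cos θ)))) θ := fun θ => by
    have h := (hφd θ).fun_mul ((((hasDerivAt_sin θ).fun_pow 2).const_mul (l ^ 2 * σ2 / 2)).exp)
    simpa [hχ] using h
  have hmono : MonotoneOn χ (Set.Icc 0 (π / 2)) := by
    refine monotoneOn_of_hasDerivWithinAt_nonneg (convex_Icc _ _)
      (fun θ _ => (hχd θ).continuousAt.continuousWithinAt)
      (fun θ _ => (hχd θ).hasDerivWithinAt) fun θ hθ => ?_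
    have h := hlow θ (interior_subset hθ)
    nlinarith [mul_le_mul_of_nonneg_right h (Real.exp_pos (l ^ 2 * σ2 / 2 * Real.sin θ ^ 2)).le]
  have h01 := hmono (Set.left_mem_Icc.2 (by positivity)) (Set.right_mem_Icc.2 (by positivity))
    (by positivity : (0:ℝ) ≤ π / 2)
  simpa [hχ, hφ, hP, ha, mul_comm] using h01

end Interp

end Vale.Agent.P150
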