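import Mathlib

/-!
The two-site inequality behind the curvature bound.
-/

namespace Vale.Agent.P150

open Real

/-- A spin value from a bit. -/
noncomputable def sgn (b : Bool) : ℝ := if b then 1 else -1

/-- Second-order expansion in `τ` with cubic error. -/
def Approx (τ f a0 a1 a2 K : ℝ) : Prop := |f - (a0 + a1 * τ + a2 * τ ^ 2)| ≤ K * |τ| ^ 3

lemma approx_mul {τ f g a0 a1 a2 b0 b1 b2 K L M : ℝ} (hτ : |τ| ≤ 1) (hK : 0 ≤ K)
    (hf : Approx τ f a0 a1 a2 K) (hg : Approx τ g b0 b1 b2 L) (ha0 : |a0| ≤ M) (ha1 : |a1| ≤ M)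
    (ha2 : |a2| ≤ M) (hb0 : |b0| ≤ M) (hb1 : |b1| ≤ M) (hb2 : |b2| ≤ M) :
    Approx τ (f * g) (a0 * b0) (a0 * b1 + a1 * b0) (a0 * b2 + a1 * b1 + a2 * b0)
      (3 * M ^ 2 + 3 * M * L + 3 * M * K + K * L) := by
  unfold Approx at *
  set r := f - (a0 + a1 * τ + a2 * τ ^ 2) with hr
  set r' := g - (b0 + b1 * τ + b2 * τ ^ 2) with hr'
  set A := a0 + a1 * τ + a2 * τ ^ 2 with hA
  set B := b0 + b1 * τ + b2 * τ ^ 2 with hB
  have hM : 0 ≤ M := (abs_nonneg _).trans ha0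
  have hτ2 : |τ| ^ 2 ≤ 1 := pow_le_one₀ (abs_nonneg _) hτ
  have hAB : ∀ x0 x1 x2 : ℝ, |x0| ≤ M → |x1| ≤ M → |x2| ≤ M →
      |x0 + x1 * τ + x2 * τ ^ 2| ≤ 3 * M := by
    intro x0 x1 x2 h0 h1 h2
    refine (abs_add_three _ _ _).trans ?_
    have e1 : |x1 * τ| ≤ M := by
      rw [abs_mul]; exact (mul_le_mul h1 hτ (abs_nonneg _) hM).trans_eq (mul_one M)
    have e2 : |x2 * τ ^ 2| ≤ M := by
      rw [abs_mul, abs_pow]; exact (mul_le_mul h2 hτ2 (by positivity) hM).trans_eq (mul_one M)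
    linarith
  have hq : |(a1 * b2 + a2 * b1 + a2 * b2 * τ) * τ ^ 3| ≤ 3 * M ^ 2 * |τ| ^ 3 := by
    rw [abs_mul, abs_pow]
    refine mul_le_mul_of_nonneg_right ((abs_add_three _ _ _).trans ?_) (by positivity)
    rw [abs_mul, abs_mul, abs_mul, abs_mul, pow_two]
    have e1 := mul_le_mul ha1 hb2 (abs_nonneg _) hM
    have e2 := mul_le_mul ha2 hb1 (abs_nonneg _) hM
    have e3 := mul_le_mul (mul_le_mul ha2 hb2 (abs_nonneg _) hM) hτ (abs_nonneg _) (mul_self_nonneg M)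
    linarith
  have e : f * g - (a0 * b0 + (a0 * b1 + a1 * b0) * τ + (a0 * b2 + a1 * b1 + a2 * b0) * τ ^ 2) =
      (a1 * b2 + a2 * b1 + a2 * b2 * τ) * τ ^ 3 + A * r' + r * B + r * r' := by
    rw [hr, hr', hA, hB]; ring
  rw [e]
  have t0 : 0 ≤ |τ| ^ 3 := by positivity
  have t1 : |τ| ^ 3 ≤ 1 := pow_le_one₀ (abs_nonneg _) hτ
  have h1 : |A * r'| ≤ 3 * M * (L * |τ| ^ 3) := by
    rw [abs_mul]; exact mul_le_mul (hAB _ _ _ ha0 ha1 ha2) hg (abs_nonneg _) (by positivity)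
  have h2 : |r * B| ≤ K * |τ| ^ 3 * (3 * M) := by
    rw [abs_mul]; exact mul_le_mul hf (hAB _ _ _ hb0 hb1 hb2) (abs_nonneg _) (by positivity)
  have h3 : |r * r'| ≤ K * L * |τ| ^ 3 := by
    rw [abs_mul]
    refine (mul_le_mul hf hg (abs_nonneg _) (by positivity)).trans ?_
    have hL0 : 0 ≤ L * |τ| ^ 3 := (abs_nonneg _).trans hg
    calc K * |τ| ^ 3 * (L * |τ| ^ 3) ≤ K * 1 * (L * |τ| ^ 3) := by gcongr
      _ = _ := by ring
  refine ((abs_add_le _ _).trans (add_le_add ((abs_add_three _ _ _).trans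
    (add_le_add (add_le_add hq h1) h2)) h3)).trans (le_of_eq ?_)
  ring

lemma approx_inv {τ k : ℝ} (hτ : |τ| ≤ 1 / 4) (hk : |k| ≤ 1) :
    Approx τ (1 / (1 + τ * k)) 1 (-k) (k ^ 2) 2 := by
  have h : |τ * k| ≤ 1 / 4 := by
    rw [abs_mul]; exact (mul_le_of_le_one_right (abs_nonneg _) hk).trans hτ
  have h0 : 3 / 4 ≤ 1 + τ * k := by linarith [(abs_le.1 h).1]
  have hne : (1 + τ * k) ≠ 0 := by linarith
  have e : 1 / (1 + τ * k) - (1 + -k * τ + k ^ 2 * τ ^ 2) = -(τ ^ 3 * k ^ 3) / (1 + τ * k) := by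
    field_simp; ring
  unfold Approx
  rw [e, abs_div, abs_neg, abs_mul, abs_pow, abs_pow, abs_of_pos (by linarith : 0 < 1 + τ * k),
    div_le_iff₀ (by linarith)]
  have : |k| ^ 3 ≤ 1 := pow_le_one₀ (abs_nonneg _) hk
  have h3 : 0 ≤ |τ| ^ 3 := by positivity
  nlinarith

/-- The summand of the two-site expression. -/
noncomputable def pairKer (t s τ a b : ℝ) : ℝ :=
  1 / (1 + τ * (t * b)) * (1 / (1 + τ * (s * a))) *
    (a * b - τ + τ * (1 - τ ^ 2) * (1 + t * a) * (1 + s * b) * (1 + τ * (a * b)) *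
      (1 / (1 + τ * (t * b)) * (1 / (1 + τ * (s * a)))))

/-- Its expansion to second order. -/
noncomputable def pairPoly (t s τ a b : ℝ) : ℝ :=
  a * b + (t * s * (a * b)) * τ +
    (a * b * (t ^ 2 + t * s * (a * b) + s ^ 2) + (t * b + s * a) +
      (1 + t * a) * (1 + s * b) * (a * b - 2 * (t * b) - 2 * (s * a))) * τ ^ 2

lemma pairKer_approx : ∃ K : ℝ, 0 ≤ K ∧ ∀ t s τ a b : ℝ, |t| ≤ 1 → |s| ≤ 1 → |τ| ≤ 1 / 4 →
    a ^ 2 = 1 → b ^ 2 = 1 → |pairKer t s τ a b - pairPoly t s τ a b| ≤ K * |τ| ^ 3 := by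
  refine ⟨10000000000, by norm_num,
    fun t s τ a b ht hs hτ ha hb => ?_⟩
  have a1 : |a| = 1 := (sq_eq_one_iff.1 ha).elim (fun h => by simp [h]) fun h => by simp [h]
  have b1 : |b| = 1 := (sq_eq_one_iff.1 hb).elim (fun h => by simp [h]) fun h => by simp [h]
  have hk : |t * b| ≤ 1 := by rw [abs_mul, b1, mul_one]; exact ht
  have hl : |s * a| ≤ 1 := by rw [abs_mul, a1, mul_one]; exact hs
  have hab : |a * b| = 1 := by rw [abs_mul, a1, b1, one_mul]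
  have hτ1 : |τ| ≤ 1 := by linarith
  have hA := approx_mul hτ1 (by norm_num) (approx_inv hτ hk) (approx_inv hτ hl) (M := 1)
    (by norm_num) (by simpa using hk) (by rw [abs_pow]; exact pow_le_one₀ (abs_nonneg _) hk)
    (by norm_num) (by simpa using hl) (by rw [abs_pow]; exact pow_le_one₀ (abs_nonneg _) hl)
  set k := t * b
  set l := s * a
  set c := a * b
  set A := 1 / (1 + τ * k) * (1 / (1 + τ * l)) with hAdef
  set q := (1 + t * a) * (1 + s * b) with hq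
  have hq4 : |q| ≤ 4 := by
    have h1 : |1 + t * a| ≤ 2 := by
      refine (abs_add_le _ _).trans ?_; rw [abs_one, abs_mul, a1, mul_one]; linarith
    have h2 : |1 + s * b| ≤ 2 := by
      refine (abs_add_le _ _).trans ?_; rw [abs_one, abs_mul, b1, mul_one]; linarith
    rw [hq, abs_mul]; exact (mul_le_mul h1 h2 (abs_nonneg _) (by norm_num)).trans (by norm_num)
  have hP : Approx τ (τ * (1 - τ ^ 2) * q * (1 + τ * c)) 0 q (q * c) 8 := by
    unfold Approx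
    have e : τ * (1 - τ ^ 2) * q * (1 + τ * c) - (0 + q * τ + q * c * τ ^ 2) =
        -(q * (1 + τ * c)) * τ ^ 3 := by ring
    rw [e, abs_mul, abs_neg, abs_mul, abs_pow]
    refine mul_le_mul_of_nonneg_right ?_ (by positivity)
    have h1 : |1 + τ * c| ≤ 2 := by
      refine (abs_add_le _ _).trans ?_; rw [abs_one, abs_mul, hab, mul_one]; linarith
    exact (mul_le_mul hq4 h1 (abs_nonneg _) (by norm_num)).trans (by norm_num)
  have hk' := abs_le.1 hk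
  have hl' := abs_le.1 hl
  have hA0 : |(1:ℝ) * 1| ≤ 100 := by norm_num
  have hA1 : |1 * -l + -k * 1| ≤ 100 := by rw [abs_le]; constructor <;> linarith
  have hkl : |-k * -l| ≤ 1 := by
    rw [abs_mul, abs_neg, abs_neg]; exact mul_le_one₀ hk (abs_nonneg _) hl
  have hk2 : k ^ 2 ≤ 1 := (sq_le_one_iff_abs_le_one _).2 hk
  have hl2 : l ^ 2 ≤ 1 := (sq_le_one_iff_abs_le_one _).2 hl
  have hA2 : |1 * l ^ 2 + -k * -l + k ^ 2 * 1| ≤ 100 := by
    rw [abs_le]; constructor <;> linarith [abs_le.1 hkl, sq_nonneg k, sq_nonneg l]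
  have hqc : |q * c| ≤ 100 := by rw [abs_mul, hab, mul_one]; linarith
  have h1 := approx_mul hτ1 (by norm_num) hP hA (M := 100) (by norm_num) (by linarith)
    hqc hA0 hA1 hA2
  set Y := τ * (1 - τ ^ 2) * q * (1 + τ * c) * A
  have hB : Approx τ (c - τ + Y) c (-1 + q) (q * c + q * (-l + -k))
      (3 * 100 ^ 2 + 3 * 100 * (3 * 1 ^ 2 + 3 * 1 * 2 + 3 * 1 * 2 + 2 * 2) + 3 * 100 * 8 +
      8 * (3 * 1 ^ 2 + 3 * 1 * 2 + 3 * 1 * 2 + 2 * 2)) := by
    unfold Approx at h1 ⊢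
    refine le_trans (le_of_eq ?_) h1
    congr 1; ring
  have hm1 : |-1 + q| ≤ 100 := by rw [abs_le]; constructor <;> linarith [abs_le.1 hq4]
  have hm2 : |q * c + q * (-l + -k)| ≤ 100 := by
    refine (abs_add_le _ _).trans ?_
    rw [abs_mul q c, abs_mul q (-l + -k), hab, mul_one]
    have : |-l + -k| ≤ 2 := by rw [abs_le]; constructor <;> linarith
    nlinarith [mul_le_mul hq4 this (abs_nonneg _) (by norm_num : (0:ℝ) ≤ 4)]
  have hmain := approx_mul hτ1 (by norm_num) hA hB hA0 hA1 hA2 (by rw [hab]; norm_num) hm1 hm2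
  unfold Approx at hmain
  have hY : pairKer t s τ a b = A * (c - τ + Y) := by
    simp only [pairKer, A, Y, q, k, l, c]; ring
  have hka : k ^ 2 = t ^ 2 := by simp only [k]; rw [mul_pow, hb, mul_one]
  have hla : l ^ 2 = s ^ 2 := by simp only [l]; rw [mul_pow, ha, mul_one]
  have hp : pairPoly t s τ a b = 1 * 1 * c + (1 * 1 * (-1 + q) + (1 * -l + -k * 1) * c) * τ +
      (1 * 1 * (q * c + q * (-l + -k)) + (1 * -l + -k * 1) * (-1 + q) +
        (1 * l ^ 2 + -k * -l + k ^ 2 * 1) * c) * τ ^ 2 := by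
    rw [hka, hla]
    simp only [pairPoly, k, l, c, q]
    linear_combination (s * b * τ) * ha + (t * a * τ) * hb
  rw [hY, hp]
  refine le_trans (hmain.trans' (le_of_eq (by congr 1))) ?_
  exact mul_le_mul_of_nonneg_right (by norm_num) (by positivity)


/-- The law of two spins with centred means `t, s` and coupling `τ = tanh J`. -/
noncomputable def pairW (t s τ a b : ℝ) : ℝ :=
  (1 + t * a) * (1 + s * b) * (1 + τ * (a * b)) / (4 * (1 + τ * (t * s)))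

/-- The conditional mean of one spin given the other. -/
noncomputable def pairT (t τ b : ℝ) : ℝ := (t + τ * b) / (1 + τ * (t * b))

lemma one_add_pos {τ x : ℝ} (hτ : |τ| ≤ 1 / 4) (hx : |x| ≤ 1) : 3 / 4 ≤ 1 + τ * x := by
  have : |τ * x| ≤ 1 / 4 := by
    rw [abs_mul]; exact (mul_le_of_le_one_right (abs_nonneg _) hx).trans hτ
  linarith [(abs_le.1 this).1]

lemma pairT_sub {t τ a b : ℝ} (ha : a ^ 2 = 1) (hne : 1 + τ * (t * b) ≠ 0) :
    a - pairT t τ b = a * (1 - t * a) * (1 - τ * (a * b)) * (1 + τ * (t * b))⁻¹ := by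
  have e : a * (1 + τ * (t * b)) - (t + τ * b) = a * (1 - t * a) * (1 - τ * (a * b)) := by
    linear_combination (t + τ * b - τ * t * a * b) * ha
  rw [← e, pairT, sub_mul, mul_assoc, mul_inv_cancel₀ hne, mul_one, div_eq_mul_inv]

lemma one_sub_pairT_sq {t τ b : ℝ} (hb : b ^ 2 = 1) (hne : 1 + τ * (t * b) ≠ 0) :
    1 - pairT t τ b ^ 2 = (1 - t ^ 2) * (1 - τ ^ 2) * ((1 + τ * (t * b))⁻¹) ^ 2 := by
  have e : (1 + τ * (t * b)) ^ 2 - (t + τ * b) ^ 2 = (1 - t ^ 2) * (1 - τ ^ 2) := by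
    linear_combination (τ ^ 2 * (t ^ 2 - 1)) * hb
  rw [← e, pairT, div_eq_mul_inv, sub_mul, ← mul_pow, ← mul_pow, mul_inv_cancel₀ hne, one_pow]

lemma pair_point {t s τ a b : ℝ} (ht : |t| ≤ 1) (hs : |s| ≤ 1) (hτ : |τ| ≤ 1 / 4) (ha : a ^ 2 = 1)
    (hb : b ^ 2 = 1) :
    pairW t s τ a b * ((a - pairT t τ b) * (b - pairT s τ a)) +
      τ * (pairW t s τ a b * ((1 - pairT t τ b ^ 2) * (1 - pairT s τ a ^ 2))) =
      (1 - t ^ 2) * (1 - s ^ 2) * (1 - τ ^ 2) / (4 * (1 + τ * (t * s))) * pairKer t s τ a b := by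
  have a1 : |a| = 1 := (sq_eq_one_iff.1 ha).elim (fun h => by simp [h]) fun h => by simp [h]
  have b1 : |b| = 1 := (sq_eq_one_iff.1 hb).elim (fun h => by simp [h]) fun h => by simp [h]
  have h1 := one_add_pos hτ (x := t * b) (by rw [abs_mul, b1, mul_one]; exact ht)
  have h2 := one_add_pos hτ (x := s * a) (by rw [abs_mul, a1, mul_one]; exact hs)
  have h3 := one_add_pos hτ (x := t * s) (by rw [abs_mul]; exact mul_le_one₀ ht (abs_nonneg _) hs)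
  have n1 : (1 + τ * (t * b)) ≠ 0 := by linarith
  have n2 : (1 + τ * (s * a)) ≠ 0 := by linarith
  have n3 : (1 + τ * (t * s)) ≠ 0 := by linarith
  rw [pairT_sub ha n1, pairT_sub hb (τ := τ) (t := s) (b := a) n2, one_sub_pairT_sq hb n1,
    one_sub_pairT_sq ha (τ := τ) (t := s) n2]
  simp only [pairW, pairKer]
  rcases sq_eq_one_iff.1 ha with rfl | rfl <;> rcases sq_eq_one_iff.1 hb with rfl | rfl <;> ring

/-- The four-point sum of a function of two signs. -/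
noncomputable def sum4 (f : ℝ → ℝ → ℝ) : ℝ := f 1 1 + f 1 (-1) + f (-1) 1 + f (-1) (-1)

lemma pairPoly_sum (t s τ u v w : ℝ) :
    sum4 (fun a b => pairPoly t s τ a b * ((u + w * b) * (v + w * a))) =
      -8 * τ ^ 2 * (t * s) * (u * v) - 8 * τ ^ 2 * w * (t ^ 2 * s * u + t * s ^ 2 * v) +
        4 * w ^ 2 * (1 + τ * (t * s) + τ ^ 2 * (1 - t ^ 2 - s ^ 2)) := by
  simp only [sum4, pairPoly]; ring

lemma pairT_sub_sq {t τ b : ℝ} (ht : |t| ≤ 1) (hτ : |τ| ≤ 1 / 4) (hb : b ^ 2 = 1) :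
    t ^ 2 - 6 * |τ| ≤ pairT t τ b ^ 2 ∧ pairT t τ b ^ 2 ≤ 1 ∧
      (1 - t ^ 2) * (1 - 2 * |τ|) ≤ 1 - pairT t τ b ^ 2 := by
  have b1 : |b| = 1 := (sq_eq_one_iff.1 hb).elim (fun h => by simp [h]) fun h => by simp [h]
  have hx : |t * b| ≤ 1 := by rw [abs_mul, b1, mul_one]; exact ht
  have hd := one_add_pos hτ hx
  have n1 : (1 + τ * (t * b)) ≠ 0 := by linarith
  have e : 1 - pairT t τ b ^ 2 = (1 - t ^ 2) * (1 - τ ^ 2) / (1 + τ * (t * b)) ^ 2 := by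
    rw [one_sub_pairT_sq hb n1, inv_pow, div_eq_mul_inv]
  have hτ2 : τ ^ 2 = |τ| ^ 2 := (sq_abs τ).symm
  have htb : |τ * (t * b)| ≤ |τ| := by
    rw [abs_mul]; exact mul_le_of_le_one_right (abs_nonneg _) hx
  have ht2 : t ^ 2 ≤ 1 := (sq_le_one_iff_abs_le_one _).2 ht
  have h0 : 0 ≤ 1 - pairT t τ b ^ 2 := by
    rw [e]; refine div_nonneg (mul_nonneg (by linarith) ?_) (sq_nonneg _); nlinarith [abs_nonneg τ]
  refine ⟨?_, by linarith, ?_⟩
  · have hd' : pairT t τ b - t = τ * b * (1 - t ^ 2) / (1 + τ * (t * b)) := by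
      have e' : t + τ * b - t * (1 + τ * (t * b)) = τ * b * (1 - t ^ 2) := by ring
      rw [pairT, ← e', sub_div, mul_div_assoc, div_self n1, mul_one]
    have habs : |pairT t τ b - t| ≤ 2 * |τ| := by
      rw [hd', abs_div, abs_mul, abs_mul, b1, mul_one, abs_of_pos (by linarith : 0 < 1 + τ * (t * b)),
        abs_of_nonneg (by linarith : 0 ≤ 1 - t ^ 2), div_le_iff₀ (by linarith)]
      nlinarith [abs_nonneg τ, sq_nonneg t]
    nlinarith [abs_le.1 habs, abs_le.1 ht, abs_nonneg τ, sq_nonneg (pairT t τ b - t)]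
  · rw [e, le_div_iff₀ (by positivity), mul_assoc]
    refine mul_le_mul_of_nonneg_left ?_ (by linarith)
    calc (1 - 2 * |τ|) * (1 + τ * (t * b)) ^ 2 ≤ (1 - 2 * |τ|) * (1 + |τ|) ^ 2 := by
          refine mul_le_mul_of_nonneg_left ?_ (by linarith [abs_nonneg τ])
          exact pow_le_pow_left₀ (by linarith) (by linarith [(abs_le.1 htb).2]) 2
      _ ≤ 1 - τ ^ 2 := by
          rw [hτ2]; nlinarith [abs_nonneg τ, pow_nonneg (abs_nonneg τ) 3]

/-- The weighted second moment of `u + w b` controls `u`. -/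
lemma pair_marginal {t s τ u w : ℝ} (ht : |t| ≤ 1) (hs : |s| ≤ 1) (hτ : |τ| ≤ 1 / 4) :
    (1 - t ^ 2) * (1 - s ^ 2) * u ^ 2 * (1 - 2 * |τ|) ^ 2 ≤
      sum4 (fun a b => pairW t s τ a b * ((1 - pairT t τ b ^ 2) * (u + w * b) ^ 2)) ∧
    0 ≤ sum4 (fun a b => pairW t s τ a b * ((1 - pairT t τ b ^ 2) * (u + w * b) ^ 2)) ∧
    (t ^ 2 - 6 * |τ|) *
        sum4 (fun a b => pairW t s τ a b * ((1 - pairT t τ b ^ 2) * (u + w * b) ^ 2)) ≤
      sum4 (fun a b => pairW t s τ a b *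
        (pairT t τ b ^ 2 * ((1 - pairT t τ b ^ 2) * (u + w * b) ^ 2))) := by
  have h3 := one_add_pos hτ (x := t * s) (by rw [abs_mul]; exact mul_le_one₀ ht (abs_nonneg _) hs)
  have hW : ∀ a b : ℝ, a ^ 2 = 1 → b ^ 2 = 1 → 0 ≤ pairW t s τ a b := fun a b ha hb => by
    have a1 : |a| = 1 := (sq_eq_one_iff.1 ha).elim (fun h => by simp [h]) fun h => by simp [h]
    have b1 : |b| = 1 := (sq_eq_one_iff.1 hb).elim (fun h => by simp [h]) fun h => by simp [h]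
    have h1 : 0 ≤ 1 + t * a := by
      have : |t * a| ≤ 1 := by rw [abs_mul, a1, mul_one]; exact ht
      linarith [(abs_le.1 this).1]
    have h2 : 0 ≤ 1 + s * b := by
      have : |s * b| ≤ 1 := by rw [abs_mul, b1, mul_one]; exact hs
      linarith [(abs_le.1 this).1]
    have h4 := one_add_pos hτ (x := a * b) (by rw [abs_mul, a1, b1, mul_one])
    exact div_nonneg (mul_nonneg (mul_nonneg h1 h2) (by linarith)) (by linarith)
  have ht2 : t ^ 2 ≤ 1 := (sq_le_one_iff_abs_le_one _).2 ht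
  have hs2 : s ^ 2 ≤ 1 := (sq_le_one_iff_abs_le_one _).2 hs
  have h2τ : 0 ≤ 1 - 2 * |τ| := by linarith
  have hlow : ∀ a b : ℝ, a ^ 2 = 1 → b ^ 2 = 1 →
      pairW t s τ a b * ((1 - t ^ 2) * (1 - 2 * |τ|) * (u + w * b) ^ 2) ≤
        pairW t s τ a b * ((1 - pairT t τ b ^ 2) * (u + w * b) ^ 2) := fun a b ha hb =>
    mul_le_mul_of_nonneg_left
      (mul_le_mul_of_nonneg_right (pairT_sub_sq ht hτ hb).2.2 (sq_nonneg _)) (hW a b ha hb)
  have hpos : ∀ a b : ℝ, a ^ 2 = 1 → b ^ 2 = 1 →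
      0 ≤ pairW t s τ a b * ((1 - pairT t τ b ^ 2) * (u + w * b) ^ 2) := fun a b ha hb =>
    mul_nonneg (hW a b ha hb)
      (mul_nonneg (by linarith [(pairT_sub_sq ht hτ hb).2.1]) (sq_nonneg _))
  have hG : ∀ a b : ℝ, a ^ 2 = 1 → b ^ 2 = 1 →
      (t ^ 2 - 6 * |τ|) * (pairW t s τ a b * ((1 - pairT t τ b ^ 2) * (u + w * b) ^ 2)) ≤
        pairW t s τ a b * (pairT t τ b ^ 2 * ((1 - pairT t τ b ^ 2) * (u + w * b) ^ 2)) :=
    fun a b ha hb => by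
      refine (mul_le_mul_of_nonneg_right (pairT_sub_sq ht hτ hb).1 (hpos a b ha hb)).trans
        (le_of_eq ?_)
      ring
  have o : (1:ℝ) ^ 2 = 1 := by norm_num
  have m : (-1:ℝ) ^ 2 = 1 := by norm_num
  refine ⟨?_, ?_, ?_⟩
  · set μ := (s + τ * t) / (1 + τ * (t * s)) with hμ
    have e1 : sum4 (fun a b => pairW t s τ a b * ((1 - t ^ 2) * (1 - 2 * |τ|) * (u + w * b) ^ 2)) =
        (1 - t ^ 2) * (1 - 2 * |τ|) * (u ^ 2 + 2 * u * w * μ + w ^ 2) := by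
      have n3 : (1 + τ * (t * s)) ≠ 0 := by linarith
      have key : ∀ c : ℝ, sum4 (fun a b => (1 + t * a) * (1 + s * b) * (1 + τ * (a * b)) *
          (c * (u + w * b) ^ 2)) =
          4 * c * ((1 + τ * (t * s)) * (u ^ 2 + w ^ 2) + 2 * u * w * (s + τ * t)) := fun c => by
        simp only [sum4]; ring
      calc _ = sum4 (fun a b => (1 + t * a) * (1 + s * b) * (1 + τ * (a * b)) *
            ((1 - t ^ 2) * (1 - 2 * |τ|) * (u + w * b) ^ 2)) / (4 * (1 + τ * (t * s))) := by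
            simp only [sum4, pairW]; ring
        _ = _ := by
            rw [key, hμ]
            generalize 1 + τ * (t * s) = Z at n3 ⊢
            field_simp
            ring
    have e2 : (1 - s ^ 2) * (1 - 2 * |τ|) * u ^ 2 ≤ u ^ 2 + 2 * u * w * μ + w ^ 2 := by
      have h := (pairT_sub_sq (t := s) (b := (1:ℝ)) hs (τ := τ * t) ?_ o).2.2
      · have eμ : pairT s (τ * t) 1 = μ := by rw [pairT, hμ]; ring_nf
        rw [eμ] at h
        have hle : (1 - s ^ 2) * (1 - 2 * |τ|) ≤ 1 - μ ^ 2 := by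
          refine le_trans (mul_le_mul_of_nonneg_left ?_ (by linarith)) h
          have : |τ * t| ≤ |τ| := by
            rw [abs_mul]; exact mul_le_of_le_one_right (abs_nonneg _) ht
          linarith
        nlinarith [mul_le_mul_of_nonneg_right hle (sq_nonneg u), sq_nonneg (w + u * μ)]
      · rw [abs_mul]; exact (mul_le_of_le_one_right (abs_nonneg _) ht).trans hτ
    have e3 := mul_le_mul_of_nonneg_left e2 (mul_nonneg (by linarith : 0 ≤ 1 - t ^ 2) h2τ)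
    rw [← e1] at e3
    refine le_trans (le_of_eq (by ring)) (e3.trans ?_)
    simp only [sum4]
    linarith [hlow 1 1 o o, hlow 1 (-1) o m, hlow (-1) 1 m o, hlow (-1) (-1) m m]
  · simp only [sum4]
    linarith [hpos 1 1 o o, hpos 1 (-1) o m, hpos (-1) 1 m o, hpos (-1) (-1) m m]
  · simp only [sum4, mul_add]
    linarith [hG 1 1 o o, hG 1 (-1) o m, hG (-1) 1 m o, hG (-1) (-1) m m]

/-- Lower bound for the kernel sum. -/
lemma kernel_sum_bound {K : ℝ} (hK0 : 0 ≤ K) (hK : ∀ t s τ a b : ℝ, |t| ≤ 1 → |s| ≤ 1 →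
      |τ| ≤ 1 / 4 → a ^ 2 = 1 → b ^ 2 = 1 → |pairKer t s τ a b - pairPoly t s τ a b| ≤ K * |τ| ^ 3)
    {t s τ u v w : ℝ} (ht : |t| ≤ 1) (hs : |s| ≤ 1) (hτ : |τ| ≤ 1 / 4)
    (hτK : |τ| * (8 * K + 1) ≤ 1) :
    sum4 (fun a b => pairKer t s τ a b * ((u + w * b) * (v + w * a))) ≥
      -(4 * τ ^ 2 * (t ^ 2 * u ^ 2 + s ^ 2 * v ^ 2)) -
      (40 + 4 * K) * |τ| ^ 3 * (u ^ 2 + v ^ 2) := by
  have o : (1:ℝ) ^ 2 = 1 := by norm_num
  have m : (-1:ℝ) ^ 2 = 1 := by norm_num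
  have hts : |t * s| ≤ 1 := by rw [abs_mul]; exact mul_le_one₀ ht (abs_nonneg _) hs
  have ht2 : t ^ 2 ≤ 1 := (sq_le_one_iff_abs_le_one _).2 ht
  have hs2 : s ^ 2 ≤ 1 := (sq_le_one_iff_abs_le_one _).2 hs
  set S := sum4 (fun a b => pairKer t s τ a b * ((u + w * b) * (v + w * a))) with hS
  set e := fun a b => (pairKer t s τ a b - pairPoly t s τ a b) * ((u + w * b) * (v + w * a))
    with he
  have hb : ∀ a b : ℝ, a ^ 2 = 1 → b ^ 2 = 1 →
      -(K * |τ| ^ 3 * (u ^ 2 + v ^ 2 + 2 * w ^ 2)) ≤ e a b := fun a b ha hb => by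
    have h1 : |(u + w * b) * (v + w * a)| ≤ u ^ 2 + v ^ 2 + 2 * w ^ 2 := by
      have hwa : (w * a) ^ 2 = w ^ 2 := by rw [mul_pow, ha, mul_one]
      have hwb : (w * b) ^ 2 = w ^ 2 := by rw [mul_pow, hb, mul_one]
      rw [abs_le]
      constructor <;> nlinarith [sq_nonneg (u + w * b + (v + w * a)),
        sq_nonneg (u + w * b - (v + w * a)), sq_nonneg (u - w * b), sq_nonneg (v - w * a)]
    have h2 : |e a b| ≤ K * |τ| ^ 3 * (u ^ 2 + v ^ 2 + 2 * w ^ 2) := by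
      rw [he, abs_mul]; exact mul_le_mul (hK t s τ a b ht hs hτ ha hb) h1 (abs_nonneg _)
        (by positivity)
    linarith [(abs_le.1 h2).1]
  have hsplit : S = sum4 (fun a b => pairPoly t s τ a b * ((u + w * b) * (v + w * a))) +
      sum4 e := by simp only [hS, sum4, he]; ring
  rw [hsplit, pairPoly_sum]
  have he4 : -(4 * (K * |τ| ^ 3 * (u ^ 2 + v ^ 2 + 2 * w ^ 2))) ≤ sum4 e := by
    simp only [sum4]
    linarith [hb 1 1 o o, hb 1 (-1) o m, hb (-1) 1 m o, hb (-1) (-1) m m]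
  have huv : 8 * τ ^ 2 * (t * s) * (u * v) ≤ 4 * τ ^ 2 * (t ^ 2 * u ^ 2 + s ^ 2 * v ^ 2) := by
    nlinarith [mul_nonneg (sq_nonneg τ) (sq_nonneg (t * u - s * v))]
  have hwu : ∀ x c : ℝ, |c| ≤ 1 → 8 * τ ^ 2 * w * (c * x) ≤
      w ^ 2 / 2 + 32 * |τ| ^ 3 * x ^ 2 := fun x c hc => by
    have hc2 : c ^ 2 ≤ 1 := (sq_le_one_iff_abs_le_one _).2 hc
    have h4 : τ ^ 4 ≤ |τ| ^ 3 := by
      rw [show τ ^ 4 = |τ| ^ 3 * |τ| by rw [← pow_succ]; exact (Even.pow_abs (by decide) τ).symm]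
      exact mul_le_of_le_one_right (by positivity) (by linarith)
    nlinarith [sq_nonneg (w / 2 - 8 * τ ^ 2 * (c * x)), sq_nonneg (w - 8 * τ ^ 2 * (c * x)),
      mul_le_mul_of_nonneg_left (mul_le_mul hc2 h4 (by positivity) zero_le_one) (sq_nonneg x)]
  have hc1 : |t ^ 2 * s| ≤ 1 := by
    rw [abs_mul, abs_pow]; exact mul_le_one₀ (pow_le_one₀ (abs_nonneg _) ht) (abs_nonneg _) hs
  have hc2 : |t * s ^ 2| ≤ 1 := by
    rw [abs_mul, abs_pow]; exact mul_le_one₀ ht (by positivity) (pow_le_one₀ (abs_nonneg _) hs)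
  have hw4 : 2 * w ^ 2 ≤ 4 * w ^ 2 * (1 + τ * (t * s) + τ ^ 2 * (1 - t ^ 2 - s ^ 2)) := by
    have : 1 / 2 ≤ 1 + τ * (t * s) + τ ^ 2 * (1 - t ^ 2 - s ^ 2) := by
      have q1 := one_add_pos hτ hts
      have q2 : -(τ ^ 2) ≤ τ ^ 2 * (1 - t ^ 2 - s ^ 2) := by
        calc -(τ ^ 2) = τ ^ 2 * (-1) := by ring
          _ ≤ _ := mul_le_mul_of_nonneg_left (by linarith) (sq_nonneg τ)
      have q3 : τ ^ 2 ≤ 1 / 4 ^ 2 := by
        rw [← sq_abs τ]; exact (pow_le_pow_left₀ (abs_nonneg _) hτ 2).trans_eq (by norm_num)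
      linarith
    nlinarith [sq_nonneg w]
  have hKw : 4 * (K * |τ| ^ 3 * (2 * w ^ 2)) ≤ w ^ 2 := by
    have : 8 * K * |τ| ^ 3 ≤ 1 := by
      have : |τ| ^ 3 ≤ |τ| := by
        calc |τ| ^ 3 ≤ |τ| ^ 1 := pow_le_pow_of_le_one (abs_nonneg _) (by linarith) (by norm_num)
          _ = |τ| := pow_one _
      nlinarith [abs_nonneg τ]
    nlinarith [sq_nonneg w]
  have := hwu u _ hc1
  have := hwu v _ hc2
  have : 0 ≤ |τ| ^ 3 * (u ^ 2 + v ^ 2) := by positivity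
  nlinarith

set_option maxHeartbeats 1000000 in
/-- The two-site inequality. -/
theorem pair_inequality : ∃ K τ0 : ℝ, 0 ≤ K ∧ 0 < τ0 ∧ τ0 ≤ 1 / 4 ∧
    ∀ t s τ u v w : ℝ, |t| ≤ 1 → |s| ≤ 1 → |τ| ≤ τ0 →
    0 ≤ sum4 (fun a b => pairW t s τ a b *
          ((a - pairT t τ b) * (b - pairT s τ a) * ((u + w * b) * (v + w * a)))) +
        τ * sum4 (fun a b => pairW t s τ a b *
          ((1 - pairT t τ b ^ 2) * (1 - pairT s τ a ^ 2) * ((u + w * b) * (v + w * a)))) +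
        τ ^ 2 * (sum4 (fun a b => pairW t s τ a b *
            (pairT t τ b ^ 2 * ((1 - pairT t τ b ^ 2) * (u + w * b) ^ 2))) +
          sum4 (fun a b => pairW t s τ a b *
            (pairT s τ a ^ 2 * ((1 - pairT s τ a ^ 2) * (v + w * a) ^ 2)))) +
        K * |τ| ^ 3 * (sum4 (fun a b => pairW t s τ a b *
            ((1 - pairT t τ b ^ 2) * (u + w * b) ^ 2)) +
          sum4 (fun a b => pairW t s τ a b * ((1 - pairT s τ a ^ 2) * (v + w * a) ^ 2))) := by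
  obtain ⟨K, hK0, hK⟩ := pairKer_approx
  refine ⟨30 + 2 * (40 + 4 * K), min (1 / 4) (1 / (8 * K + 1)), by positivity,
    lt_min (by norm_num) (by positivity), min_le_left _ _, fun t s τ u v w ht hs hτ' => ?_⟩
  have hτ : |τ| ≤ 1 / 4 := hτ'.trans (min_le_left _ _)
  have hτK : |τ| * (8 * K + 1) ≤ 1 := (le_div_iff₀ (by positivity)).1 (hτ'.trans (min_le_right _ _))
  have o : (1:ℝ) ^ 2 = 1 := by norm_num
  have m : (-1:ℝ) ^ 2 = 1 := by norm_num
  set P := (1 - t ^ 2) * (1 - s ^ 2) with hP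
  have ht2 : t ^ 2 ≤ 1 := (sq_le_one_iff_abs_le_one _).2 ht
  have hs2 : s ^ 2 ≤ 1 := (sq_le_one_iff_abs_le_one _).2 hs
  have hts : |t * s| ≤ 1 := by rw [abs_mul]; exact mul_le_one₀ ht (abs_nonneg _) hs
  have hP0 : 0 ≤ P := mul_nonneg (by linarith) (by linarith)
  have h3 := one_add_pos hτ hts
  set κ := P * (1 - τ ^ 2) / (4 * (1 + τ * (t * s))) with hκ
  set S := sum4 (fun a b => pairKer t s τ a b * ((u + w * b) * (v + w * a))) with hS
  have eTM : sum4 (fun a b => pairW t s τ a b *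
        ((a - pairT t τ b) * (b - pairT s τ a) * ((u + w * b) * (v + w * a)))) +
      τ * sum4 (fun a b => pairW t s τ a b *
        ((1 - pairT t τ b ^ 2) * (1 - pairT s τ a ^ 2) * ((u + w * b) * (v + w * a)))) = κ * S := by
    simp only [sum4, hS, hκ, hP]
    linear_combination ((u + w * 1) * (v + w * 1)) * pair_point ht hs hτ o o +
      ((u + w * (-1)) * (v + w * 1)) * pair_point ht hs hτ o m +
      ((u + w * 1) * (v + w * (-1))) * pair_point ht hs hτ m o +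
      ((u + w * (-1)) * (v + w * (-1))) * pair_point ht hs hτ m m
  set Ei := sum4 (fun a b => pairW t s τ a b * ((1 - pairT t τ b ^ 2) * (u + w * b) ^ 2)) with hEi
  set Ej := sum4 (fun a b => pairW t s τ a b * ((1 - pairT s τ a ^ 2) * (v + w * a) ^ 2)) with hEj
  set Gi := sum4 (fun a b => pairW t s τ a b *
    (pairT t τ b ^ 2 * ((1 - pairT t τ b ^ 2) * (u + w * b) ^ 2))) with hGi
  set Gj := sum4 (fun a b => pairW t s τ a b *
    (pairT s τ a ^ 2 * ((1 - pairT s τ a ^ 2) * (v + w * a) ^ 2))) with hGj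
  obtain ⟨m1, m2, m3⟩ := pair_marginal (u := u) (w := w) ht hs hτ
  have swap : ∀ φ : ℝ → ℝ, sum4 (fun a b => pairW t s τ a b * φ a) =
      sum4 (fun a b => pairW s t τ a b * φ b) := fun φ => by simp only [sum4, pairW]; ring_nf
  obtain ⟨n1, n2, n3⟩ := pair_marginal (t := s) (s := t) (u := v) (w := w) hs ht hτ
  rw [← hEi] at m1 m2 m3
  rw [← hGi] at m3
  rw [← swap (fun a => (1 - pairT s τ a ^ 2) * (v + w * a) ^ 2), ← hEj] at n1 n2 n3
  rw [← swap (fun a => pairT s τ a ^ 2 * ((1 - pairT s τ a ^ 2) * (v + w * a) ^ 2)), ← hGj] at n3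
  have hPu : ∀ {X E : ℝ}, 0 ≤ X → X * (1 - 2 * |τ|) ^ 2 ≤ E → X ≤ 4 * E := fun hX hE => by
    have : (1:ℝ) / 4 ≤ (1 - 2 * |τ|) ^ 2 := by nlinarith [abs_nonneg τ]
    nlinarith [mul_le_mul_of_nonneg_left this hX]
  have hPu2 : 0 ≤ P * u ^ 2 := by positivity
  have hPv2 : 0 ≤ P * v ^ 2 := by positivity
  have m1' : P * u ^ 2 * (1 - 2 * |τ|) ^ 2 ≤ Ei := le_trans (le_of_eq (by rw [hP])) m1
  have n1' : P * v ^ 2 * (1 - 2 * |τ|) ^ 2 ≤ Ej := le_trans (le_of_eq (by rw [hP]; ring)) n1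
  have a1 : P * u ^ 2 ≤ 4 * Ei := hPu hPu2 m1'
  have b1 : P * v ^ 2 ≤ 4 * Ej := hPu hPv2 n1'
  have hAG : ∀ {X E G c : ℝ}, 0 ≤ X → 0 ≤ c → c ≤ 1 → X * (1 - 2 * |τ|) ^ 2 ≤ E → X ≤ 4 * E →
      0 ≤ E → (c - 6 * |τ|) * E ≤ G → c * X ≤ G + 22 * |τ| * E := by
    intro X E G c hX hc hc1 h1 h2 hE h3
    have hk : c * X - c * E ≤ 16 * |τ| * E := by
      have : X - E ≤ X * (4 * |τ|) := by linarith [mul_nonneg hX (sq_nonneg |τ|)]
      calc c * X - c * E = c * (X - E) := by ring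
        _ ≤ c * (X * (4 * |τ|)) := mul_le_mul_of_nonneg_left this hc
        _ ≤ 1 * (X * (4 * |τ|)) := mul_le_mul_of_nonneg_right hc1 (by positivity)
        _ ≤ 4 * E * (4 * |τ|) := by
            rw [one_mul]; exact mul_le_mul_of_nonneg_right h2 (by positivity)
        _ = 16 * |τ| * E := by ring
    linarith
  have a2 := hAG hPu2 (sq_nonneg t) ht2 m1' a1 m2 m3
  have b2 := hAG hPv2 (sq_nonneg s) hs2 n1' b1 n2 n3
  have hS0 : S ≥ -(4 * τ ^ 2 * (t ^ 2 * u ^ 2 + s ^ 2 * v ^ 2)) -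
      (40 + 4 * K) * |τ| ^ 3 * (u ^ 2 + v ^ 2) := kernel_sum_bound hK0 hK ht hs hτ hτK
  have hκ0 : 0 ≤ κ := div_nonneg (mul_nonneg hP0 (by nlinarith [abs_nonneg τ, sq_abs τ]))
    (by linarith)
  have hκ1 : κ ≤ P * ((1 + 2 * |τ|) / 4) := by
    rw [hκ, div_le_iff₀ (by linarith)]
    refine (mul_le_mul_of_nonneg_left (c := (1 + 2 * |τ|) / 4 * (4 * (1 + τ * (t * s)))) ?_ hP0).trans
      (le_of_eq (by ring))
    have : |τ * (t * s)| ≤ |τ| := by
      rw [abs_mul]; exact mul_le_of_le_one_right (abs_nonneg _) hts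
    nlinarith [(abs_le.1 this).1, abs_nonneg τ, sq_abs τ]
  set Y := 4 * τ ^ 2 * (t ^ 2 * u ^ 2 + s ^ 2 * v ^ 2) + (40 + 4 * K) * |τ| ^ 3 * (u ^ 2 + v ^ 2)
    with hY
  have hY0 : 0 ≤ Y := by positivity
  have hSY : -Y ≤ S := by rw [hY]; linarith
  have hκS : -(P * ((1 + 2 * |τ|) / 4) * Y) ≤ κ * S := by
    linarith [mul_le_mul_of_nonneg_left hSY hκ0, mul_le_mul_of_nonneg_right hκ1 hY0]
  have c1 : τ ^ 2 * (t ^ 2 * (P * u ^ 2) + s ^ 2 * (P * v ^ 2)) ≤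
      τ ^ 2 * (Gi + Gj) + 22 * |τ| ^ 3 * (Ei + Ej) := by
    have e : τ ^ 2 * |τ| = |τ| ^ 3 := by rw [← sq_abs τ]; ring
    have := mul_le_mul_of_nonneg_left (add_le_add a2 b2) (sq_nonneg τ)
    rw [← e]; linarith
  have c2 : |τ| ^ 3 * (P * u ^ 2 + P * v ^ 2) ≤ 4 * |τ| ^ 3 * (Ei + Ej) := by
    have := mul_le_mul_of_nonneg_left (add_le_add a1 b1) (pow_nonneg (abs_nonneg τ) 3)
    linarith
  have c3 : P * ((1 + 2 * |τ|) / 4) * Y ≤
      τ ^ 2 * (t ^ 2 * (P * u ^ 2) + s ^ 2 * (P * v ^ 2)) +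
        (2 + (40 + 4 * K) / 2) * (|τ| ^ 3 * (P * u ^ 2 + P * v ^ 2)) := by
    have e : τ ^ 2 * |τ| = |τ| ^ 3 := by rw [← sq_abs τ]; ring
    have q1 : t ^ 2 * (P * u ^ 2) + s ^ 2 * (P * v ^ 2) ≤ P * u ^ 2 + P * v ^ 2 :=
      add_le_add (mul_le_of_le_one_left hPu2 ht2) (mul_le_of_le_one_left hPv2 hs2)
    have q2 : 0 ≤ (40 + 4 * K) * (|τ| ^ 3 * (P * u ^ 2 + P * v ^ 2)) := by positivity
    have q3 : (1 + 2 * |τ|) / 4 ≤ 1 / 2 := by linarith
    calc P * ((1 + 2 * |τ|) / 4) * Y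
        = τ ^ 2 * (t ^ 2 * (P * u ^ 2) + s ^ 2 * (P * v ^ 2)) +
          2 * (τ ^ 2 * |τ|) * (t ^ 2 * (P * u ^ 2) + s ^ 2 * (P * v ^ 2)) +
          (1 + 2 * |τ|) / 4 * ((40 + 4 * K) * (|τ| ^ 3 * (P * u ^ 2 + P * v ^ 2))) := by
          rw [hY]; ring
      _ ≤ τ ^ 2 * (t ^ 2 * (P * u ^ 2) + s ^ 2 * (P * v ^ 2)) +
          2 * |τ| ^ 3 * (P * u ^ 2 + P * v ^ 2) +
          1 / 2 * ((40 + 4 * K) * (|τ| ^ 3 * (P * u ^ 2 + P * v ^ 2))) := by
          rw [e]; gcongr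
      _ = _ := by ring
  have c4 : 0 ≤ |τ| ^ 3 * (Ei + Ej) := mul_nonneg (by positivity) (add_nonneg m2 n2)
  have c5 := mul_le_mul_of_nonneg_left c2 (by positivity : 0 ≤ 2 + (40 + 4 * K) / 2)
  rw [eTM]
  linarith [hκS, c1, c3, c5, c4]

end Vale.Agent.P150
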