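import Vale.Agent.P150.Curvature

/-!
Entropic stability from covariance bounds, and tensorisation for product measures.
-/

namespace Vale.Agent.P150

open Real Function Matrix
open scoped BigOperators

variable {n : ℕ}

/-- The function `a log (a / b)`. -/
noncomputable def entG (a b : ℝ) : ℝ := a * Real.log (a / b)

lemma entG_tangent {a b r : ℝ} (ha : 0 < a) (hb : 0 < b) (hr : 0 < r) :
    a * (Real.log r + 1) - b * r ≤ entG a b := by
  have h := Real.log_le_sub_one_of_pos (show 0 < r * b / a by positivity)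
  rw [Real.log_div (by positivity) ha.ne', Real.log_mul hr.ne' hb.ne'] at h
  rw [entG, Real.log_div ha.ne' hb.ne']
  have h2 := mul_le_mul_of_nonneg_left h ha.le
  have e : a * (r * b / a - 1) = r * b - a := by field_simp
  linarith

lemma entG_convex {a b a' b' p q : ℝ} (ha : 0 < a) (hb : 0 < b) (ha' : 0 < a') (hb' : 0 < b')
    (hp : 0 < p) (hq : 0 < q) :
    entG (p * a + q * a') (p * b + q * b') ≤ p * entG a b + q * entG a' b' := by
  set X := p * a + q * a' with hX
  set Y := p * b + q * b' with hY
  have hX0 : 0 < X := by positivity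
  have hY0 : 0 < Y := by positivity
  have h1 := mul_le_mul_of_nonneg_left (entG_tangent ha hb (div_pos hX0 hY0)) hp.le
  have h2 := mul_le_mul_of_nonneg_left (entG_tangent ha' hb' (div_pos hX0 hY0)) hq.le
  have e : entG X Y = X * (Real.log (X / Y) + 1) - Y * (X / Y) := by
    rw [entG]; field_simp; ring
  rw [e, hX, hY]; rw [← hX, ← hY]
  rw [hX] at h1 h2 ⊢
  rw [hY] at h1 h2 ⊢
  linarith

/-- Two-point average with weights `(1 ± t) / 2`. -/
noncomputable def avg2 (t u v : ℝ) : ℝ := ((1 + t) * u + (1 - t) * v) / 2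

/-- Two-point entropy. -/
noncomputable def ent2 (t u v : ℝ) : ℝ :=
  avg2 t (u * Real.log u) (v * Real.log v) - avg2 t u v * Real.log (avg2 t u v)

lemma avg2_pos {t u v : ℝ} (ht : |t| < 1) (hu : 0 < u) (hv : 0 < v) : 0 < avg2 t u v := by
  rw [abs_lt] at ht
  have h1 : 0 < (1 + t) * u := mul_pos (by linarith) hu
  have h2 : 0 < (1 - t) * v := mul_pos (by linarith) hv
  unfold avg2; linarith

lemma ent2_eq {t u v : ℝ} (ht : |t| < 1) (hu : 0 < u) (hv : 0 < v) :
    ent2 t u v = avg2 t (entG u (avg2 t u v)) (entG v (avg2 t u v)) := by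
  have hm := avg2_pos ht hu hv
  rw [ent2, entG, entG, Real.log_div hu.ne' hm.ne', Real.log_div hv.ne' hm.ne']
  unfold avg2; ring

lemma ent2_convex {t s u v u' v' : ℝ} (ht : |t| < 1) (hs : |s| < 1) (hu : 0 < u) (hv : 0 < v)
    (hu' : 0 < u') (hv' : 0 < v') :
    ent2 t (avg2 s u u') (avg2 s v v') ≤ avg2 s (ent2 t u v) (ent2 t u' v') := by
  have hU := avg2_pos hs hu hu'
  have hV := avg2_pos hs hv hv'
  have hm := avg2_pos ht hu hv
  have hm' := avg2_pos ht hu' hv'
  have e : avg2 t (avg2 s u u') (avg2 s v v') = avg2 s (avg2 t u v) (avg2 t u' v') := by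
    unfold avg2; ring
  rw [ent2_eq ht hU hV, ent2_eq ht hu hv, ent2_eq ht hu' hv', e]
  rw [abs_lt] at ht hs
  have key : ∀ {x x' : ℝ}, 0 < x → 0 < x' →
      entG (avg2 s x x') (avg2 s (avg2 t u v) (avg2 t u' v')) ≤
        avg2 s (entG x (avg2 t u v)) (entG x' (avg2 t u' v')) := fun {x x'} hx hx' => by
    have h := entG_convex hx hm hx' hm' (show 0 < (1 + s) / 2 by linarith)
      (show 0 < (1 - s) / 2 by linarith)
    calc _ = entG ((1 + s) / 2 * x + (1 - s) / 2 * x')
          ((1 + s) / 2 * avg2 t u v + (1 - s) / 2 * avg2 t u' v') := by unfold avg2; ring_nf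
      _ ≤ _ := h
      _ = _ := by unfold avg2; ring
  have h1 := mul_le_mul_of_nonneg_left (key hu hu') (show 0 ≤ 1 + t by linarith)
  have h2 := mul_le_mul_of_nonneg_left (key hv hv') (show 0 ≤ 1 - t by linarith)
  simp only [avg2] at h1 h2 ⊢
  linarith

/-- The local entropy is at most the local covariance with the logarithm. -/
lemma ent2_le_cov {t u v : ℝ} (ht : |t| < 1) (hu : 0 < u) (hv : 0 < v) :
    ent2 t u v ≤ (1 - t ^ 2) * ((u - v) / 2 * ((Real.log u - Real.log v) / 2)) := by
  have hm := avg2_pos ht hu hv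
  have h : avg2 t (Real.log u) (Real.log v) ≤ Real.log (avg2 t u v) := by
    have h1 := Real.log_le_sub_one_of_pos (div_pos hu hm)
    have h2 := Real.log_le_sub_one_of_pos (div_pos hv hm)
    rw [Real.log_div hu.ne' hm.ne'] at h1
    rw [Real.log_div hv.ne' hm.ne'] at h2
    rw [abs_lt] at ht
    have g1 := mul_le_mul_of_nonneg_left h1 (show 0 ≤ 1 + t by linarith)
    have g2 := mul_le_mul_of_nonneg_left h2 (show 0 ≤ 1 - t by linarith)
    have e : (1 + t) * (u / avg2 t u v - 1) + (1 - t) * (v / avg2 t u v - 1) = 0 := by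
      field_simp; unfold avg2; ring
    unfold avg2 at *
    linarith
  have h' := mul_le_mul_of_nonneg_left h hm.le
  simp only [ent2, avg2] at h' ⊢
  linarith

/-- The local entropy at site `i` as a function of the configuration. -/
noncomputable def isEnt (J : Matrix (Fin n) (Fin n) ℝ) (h : Fin n → ℝ) (i : Fin n)
    (f : (Fin n → Bool) → ℝ) (x : Fin n → Bool) : ℝ :=
  ent2 (isT J h i x) (f (update x i true)) (f (update x i false))

lemma abs_isT_lt (J : Matrix (Fin n) (Fin n) ℝ) (h : Fin n → ℝ) (i : Fin n) (x : Fin n → Bool) :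
    |isT J h i x| < 1 :=
  (sq_lt_one_iff_abs_lt_one _).1 (isT_sq_lt J h i x)

lemma isT_zero (h : Fin n → ℝ) (i : Fin n) (x : Fin n → Bool) :
    isT 0 h i x = Real.tanh (h i) := by simp [isT]

lemma isMean_avg2 {J : Matrix (Fin n) (Fin n) ℝ} {h : Fin n → ℝ} (hJ : Jᵀ = J)
    (hd : ∀ i, J i i = 0) (i : Fin n) (F : (Fin n → Bool) → ℝ) :
    isMean J h (fun x => avg2 (isT J h i x) (F (update x i true)) (F (update x i false))) =
      isMean J h F :=
  (isMean_cond hJ hd i F).symm

/-- Tensorisation of entropy for a product measure. -/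
theorem product_tensor (h : Fin n → ℝ) (f : (Fin n → Bool) → ℝ) (hf : ∀ x, 0 < f x) :
    isMean 0 h (fun x => f x * Real.log (f x)) -
        isMean 0 h f * Real.log (isMean 0 h f) ≤
      ∑ i, isMean 0 h (isEnt 0 h i f) := by
  have hJ : (0 : Matrix (Fin n) (Fin n) ℝ)ᵀ = 0 := Matrix.transpose_zero
  have hd : ∀ i, (0 : Matrix (Fin n) (Fin n) ℝ) i i = 0 := fun i => rfl
  have key : ∀ S : Finset (Fin n), ∀ f : (Fin n → Bool) → ℝ, (∀ x, 0 < f x) →
      ∃ g : (Fin n → Bool) → ℝ, (∀ x, 0 < g x) ∧ isMean 0 h g = isMean 0 h f ∧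
        (∀ k ∈ S, ∀ x b, g (update x k b) = g x) ∧
        (∀ k, (∀ x b, f (update x k b) = f x) → ∀ x b, g (update x k b) = g x) ∧
        isMean 0 h (fun x => f x * Real.log (f x)) - isMean 0 h (fun x => g x * Real.log (g x)) ≤
          ∑ i ∈ S, isMean 0 h (isEnt 0 h i f) := by
    intro S
    induction S using Finset.induction with
    | empty => exact fun f hf => ⟨f, hf, rfl, by simp, fun k hk => hk, by simp⟩
    | @insert a S ha ih =>
      intro f hf
      set t := Real.tanh (h a) with htdef
      have ht : |t| < 1 := Real.abs_tanh_lt_one _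
      set F : (Fin n → Bool) → ℝ := fun x => avg2 t (f (update x a true)) (f (update x a false))
        with hF
      have hFa : ∀ x b, F (update x a b) = F x := fun x b => by simp [hF]
      obtain ⟨g, hg, hgm, hgS, hgk, hle⟩ := ih F fun x => avg2_pos ht (hf _) (hf _)
      have hmF : ∀ φ : (Fin n → Bool) → ℝ,
          isMean 0 h (fun x => avg2 t (φ (update x a true)) (φ (update x a false))) =
            isMean 0 h φ := fun φ => by
        have := isMean_avg2 (h := h) hJ hd a φ
        simpa [isT_zero] using this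
      refine ⟨g, hg, hgm.trans (hmF f), ?_, ?_, ?_⟩
      · intro k hk x b
        rcases Finset.mem_insert.1 hk with rfl | hk
        · exact hgk k hFa x b
        · exact hgS k hk x b
      · intro k hk
        refine hgk k fun x b => ?_
        by_cases hka : k = a
        · subst hka; exact hFa x b
        · simp only [hF]
          rw [update_comm hka, update_comm hka, hk, hk]
      · rw [Finset.sum_insert ha]
        have h1 : isMean 0 h (fun x => f x * Real.log (f x)) -
            isMean 0 h (fun x => F x * Real.log (F x)) = isMean 0 h (isEnt 0 h a f) := by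
          conv_lhs => rw [← hmF fun x => f x * Real.log (f x)]
          rw [← isMean_sub]
          congr 1; funext x
          simp only [isEnt, isT_zero, ent2, hF, ← htdef]
        have h2 : ∀ i ∈ S, isMean 0 h (isEnt 0 h i F) ≤ isMean 0 h (isEnt 0 h i f) := by
          intro i hi
          have hia : i ≠ a := fun e => ha (e ▸ hi)
          rw [← hmF (isEnt 0 h i f)]
          refine isMean_mono 0 h fun x => ?_
          simp only [isEnt, isT_zero, hF]
          have e : ∀ b c : Bool, update (update x i b) a c = update (update x a c) i b :=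
            fun b c => update_comm hia b c x
          simp only [e]
          exact ent2_convex (Real.abs_tanh_lt_one _) ht (hf _) (hf _) (hf _) (hf _)
        linarith [hle, Finset.sum_le_sum h2]
  obtain ⟨g, -, hgm, hgS, -, hle⟩ := key Finset.univ f hf
  have hc : g = fun _ => g fun _ => true := funext fun x => eq_of_isD_eq_zero g
    (fun i y => by simp [isD, hgS i (Finset.mem_univ i)]) x
  rw [hc, isMean_const] at hgm
  rw [hc, isMean_const, hgm] at hle
  exact hle

/-- Entropy controls the displacement of the mean. -/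
theorem entropic_stability {J : Matrix (Fin n) (Fin n) ℝ} (h : Fin n → ℝ) {α : ℝ} (hα : 0 < α)
    (hcov : ∀ h' θ : Fin n → ℝ,
      isMean J h' (fun x => (θ ⬝ᵥ spin x - isMean J h' (fun y => θ ⬝ᵥ spin y)) ^ 2) ≤
        α * (θ ⬝ᵥ θ))
    (f : (Fin n → Bool) → ℝ) (hf : ∀ x, 0 < f x) (Δ : Fin n → ℝ)
    (hΔ : ∀ i, Δ i = isMean J h (fun x => f x * spin x i) / isMean J h f -
      isMean J h (fun x => spin x i)) :
    isMean J h f * (Δ ⬝ᵥ Δ) ≤
      2 * α * (isMean J h (fun x => f x * Real.log (f x)) -
        isMean J h f * Real.log (isMean J h f)) := by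
  set θ : Fin n → ℝ := fun i => Δ i / α with hθ
  set L : (Fin n → Bool) → ℝ := fun x => θ ⬝ᵥ spin x with hL
  set μ : (Fin n → Bool) → ℝ := fun x => isW J h x / isZ J h with hμdef
  have hμ : ∀ x, 0 < μ x := fun x => div_pos (isW_pos J h x) (isZ_pos J h)
  set m := isMean J h f with hm
  have hm0 : 0 < m := Finset.sum_pos (fun x _ => mul_pos (hμ x) (hf x)) Finset.univ_nonempty
  set M := isMean J h fun x => Real.exp (L x) with hM
  have hM0 : 0 < M :=
    Finset.sum_pos (fun x _ => mul_pos (hμ x) (Real.exp_pos _)) Finset.univ_nonempty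
  -- variational inequality
  have hvar : isMean J h (fun x => f x * L x) - m * Real.log M ≤
      isMean J h (fun x => f x * Real.log (f x)) - m * Real.log m := by
    have hpt : ∀ x, f x * L x - f x * Real.log M - f x * Real.log (f x) + f x * Real.log m ≤
        m / M * Real.exp (L x) - f x := fun x => by
      have h0 := Real.log_le_sub_one_of_pos
        (show 0 < m * Real.exp (L x) / (M * f x) by have := hf x; positivity)
      rw [Real.log_div (by positivity) (mul_pos hM0 (hf x)).ne', Real.log_mul hm0.ne'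
        (Real.exp_ne_zero _), Real.log_mul hM0.ne' (hf x).ne', Real.log_exp] at h0
      have := mul_le_mul_of_nonneg_left h0 (hf x).le
      have e : f x * (m * Real.exp (L x) / (M * f x) - 1) = m / M * Real.exp (L x) - f x := by
        have := (hf x).ne'; field_simp
      linarith
    have := isMean_mono J h hpt
    have eM : m / M * M = m := div_mul_cancel₀ m hM0.ne'
    simp only [isMean_sub, isMean_add, isMean_smul, ← hM, ← hm] at this
    have c1 : ∀ a : ℝ, isMean J h (fun x => f x * a) = m * a := fun a => by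
      rw [show (fun x => f x * a) = fun x => a * f x from funext fun x => mul_comm _ _,
        isMean_smul, ← hm, mul_comm]
    simp only [c1, eM, sub_self] at this
    linarith
  -- cumulant bound
  set g : ℝ → ℝ := fun s => Real.log (isMean J h fun x => Real.exp (s * L x)) with hg
  have htilt : ∀ s, ∀ φ : (Fin n → Bool) → ℝ, isMean J (fun i => h i + s * θ i) φ =
      isMean J h (fun x => Real.exp (s * L x) * φ x) / isMean J h fun x => Real.exp (s * L x) := by
    intro s φ
    have e : ∀ x, isW J (fun i => h i + s * θ i) x = isW J h x * Real.exp (s * L x) := fun x => by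
      have : (fun i => h i + s * θ i) ⬝ᵥ spin x = h ⬝ᵥ spin x + s * L x := by
        simp only [hL, dotProduct, Finset.mul_sum, ← Finset.sum_add_distrib]
        exact Finset.sum_congr rfl fun i _ => by ring
      rw [isW, this, isW, ← Real.exp_add]; ring_nf
    simp only [isMean, div_mul_eq_mul_div, ← Finset.sum_div, isZ, e, mul_assoc]
    have : (∑ x, isW J h x) ≠ 0 := (isZ_pos J h).ne'
    rw [div_div_div_cancel_right₀ this]
  have hpos : ∀ s, 0 < isMean J h fun x => Real.exp (s * L x) := fun s =>
    Finset.sum_pos (fun x _ => mul_pos (hμ x) (Real.exp_pos _)) Finset.univ_nonempty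
  set g1 : ℝ → ℝ := fun s => isMean J (fun i => h i + s * θ i) L with hg1
  have hgd : ∀ s, HasDerivAt g (g1 s) s := fun s => by
    have h1 := HasDerivAt.fun_sum (u := (Finset.univ : Finset (Fin n → Bool))) fun x _ =>
      (((hasDerivAt_id s).mul_const (L x)).exp).const_mul (μ x)
    have h2 := h1.log (hpos s).ne'
    refine h2.congr_deriv ?_
    rw [hg1]; simp only; rw [htilt]
    simp [isMean, hμdef, mul_assoc]
  have hg1d : ∀ s, HasDerivAt g1 (isMean J (fun i => h i + s * θ i)
      (fun x => (L x - g1 s) ^ 2)) s := fun s => by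
    have hn := HasDerivAt.fun_sum (u := (Finset.univ : Finset (Fin n → Bool))) fun x _ =>
      ((((hasDerivAt_id s).mul_const (L x)).exp).mul_const (L x)).const_mul (μ x)
    have hden := HasDerivAt.fun_sum (u := (Finset.univ : Finset (Fin n → Bool))) fun x _ =>
      (((hasDerivAt_id s).mul_const (L x)).exp).const_mul (μ x)
    have hq := hn.fun_div hden (hpos s).ne'
    have e : g1 = fun s => (∑ x, μ x * (Real.exp (id s * L x) * L x)) /
        ∑ x, μ x * Real.exp (id s * L x) := funext fun u => htilt u L
    rw [e] at *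
    refine hq.congr_deriv ?_
    rw [htilt]
    simp only [id, one_mul, isMean, ← hμdef]
    set D := ∑ x, μ x * Real.exp (s * L x) with hD
    set N := ∑ x, μ x * (Real.exp (s * L x) * L x) with hN
    have hD0 : D ≠ 0 := (hpos s).ne'
    have e2 : ∑ x, μ x * (Real.exp (s * L x) * (L x - N / D) ^ 2) =
        ∑ x, μ x * (Real.exp (s * L x) * L x * L x) -
          2 * (N / D) * N + (N / D) ^ 2 * D := by
      rw [hN, hD, Finset.mul_sum, Finset.mul_sum, ← Finset.sum_sub_distrib,
        ← Finset.sum_add_distrib]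
      exact Finset.sum_congr rfl fun x _ => by ring
    change _ = (∑ x, μ x * (Real.exp (s * L x) * (L x - N / D) ^ 2)) / D
    rw [e2]
    field_simp
    ring
  have hbound : ∀ s, isMean J (fun i => h i + s * θ i) (fun x => (L x - g1 s) ^ 2) ≤
      α * (θ ⬝ᵥ θ) := fun s => hcov _ θ
  have hanti : AntitoneOn (fun s => g s - g1 0 * s - α * (θ ⬝ᵥ θ) * s ^ 2 / 2) (Set.Ici 0) := by
    have hk : ∀ s, HasDerivAt (fun s => g s - g1 0 * s - α * (θ ⬝ᵥ θ) * s ^ 2 / 2)
        (g1 s - g1 0 - α * (θ ⬝ᵥ θ) * s) s := fun s => by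
      refine (((hgd s).fun_sub ((hasDerivAt_id s).const_mul (g1 0))).fun_sub
        (((hasDerivAt_pow 2 s).const_mul (α * (θ ⬝ᵥ θ))).div_const 2)).congr_deriv ?_
      ring
    have hanti1 : Antitone fun s => g1 s - α * (θ ⬝ᵥ θ) * s := by
      refine antitone_of_hasDerivAt_nonpos
        (fun s => (hg1d s).fun_sub ((hasDerivAt_id s).const_mul (α * (θ ⬝ᵥ θ)))) fun s => ?_
      simp only [Pi.zero_apply]
      linarith [hbound s]
    refine antitoneOn_of_hasDerivWithinAt_nonpos (convex_Ici 0)
      (fun s _ => (hk s).continuousAt.continuousWithinAt) (fun s _ => (hk s).hasDerivWithinAt)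
      fun s hs => ?_
    have := hanti1 (interior_subset (s := Set.Ici (0:ℝ)) hs)
    simp only [mul_zero, sub_zero] at this
    linarith
  have h1 := hanti Set.self_mem_Ici (Set.mem_Ici.2 zero_le_one) zero_le_one
  have hg0 : g 0 = 0 := by simp [hg, isMean_const]
  have hg1' : g 1 = Real.log M := by simp [hg, hM]
  have hg10 : g1 0 = isMean J h L := by simp [hg1]
  simp only [hg0, hg1', hg10, mul_zero, mul_one, one_pow, zero_pow two_ne_zero, zero_div,
    sub_zero] at h1
  -- conclusion
  have eL : isMean J h L = ∑ i, θ i * isMean J h fun x => spin x i := by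
    simp only [hL, dotProduct, isMean_sum, isMean_smul]
  have efL : isMean J h (fun x => f x * L x) = ∑ i, θ i * isMean J h fun x => f x * spin x i := by
    simp only [hL, dotProduct, Finset.mul_sum, isMean_sum, ← isMean_smul]
    exact Finset.sum_congr rfl fun i _ => by congr 1; funext x; ring
  have hdiff : isMean J h (fun x => f x * L x) - m * isMean J h L = m * (Δ ⬝ᵥ Δ) / α := by
    rw [eL, efL, Finset.mul_sum, ← Finset.sum_sub_distrib]
    simp only [dotProduct, Finset.mul_sum, Finset.sum_div]
    refine Finset.sum_congr rfl fun i _ => ?_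
    have := hΔ i
    simp only [hθ]
    rw [this]; field_simp
  have hθ2 : α * (θ ⬝ᵥ θ) = Δ ⬝ᵥ Δ / α := by
    simp only [dotProduct, hθ, Finset.mul_sum, Finset.sum_div]
    exact Finset.sum_congr rfl fun i _ => by field_simp
  rw [hθ2] at h1
  have h2 := mul_le_mul_of_nonneg_left h1 hm0.le
  have key : m * (Δ ⬝ᵥ Δ) / α / 2 ≤
      isMean J h (fun x => f x * Real.log (f x)) - m * Real.log m := by
    have e : m * (Δ ⬝ᵥ Δ / α) / 2 = m * (Δ ⬝ᵥ Δ) / α / 2 := by ring
    linarith
  rw [div_div, div_le_iff₀ (by positivity)] at key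
  linarith

end Vale.Agent.P150
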